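import Vale.Agent.P166F.Defs
import Vale.Agent.P166F.Ent

/-!
P166: objects of the lower bound. Several independent Gaussian fields on one discrete array, the nested
averages along its levels, and the weights of one added spin.
-/

namespace Vale.Agent.P166F.Low

open MeasureTheory ProbabilityTheory Vale.Agent.P157.Low

variable {ι : Type} [Fintype ι] {r n : ℕ}

/-- Average of `Θ` over independent copies, one for each coordinate, of a Gaussian vector with
covariance `C`. -/
noncomputable def GV (C : Mat n) (Θ : (Fin n → ι → ℝ) → ℝ) : ℝ :=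
  ∫ g, Θ (fun a i => WithLp.ofLp (g i) a)
    ∂Measure.pi fun _ : ι => multivariateGaussian (0 : EuclideanSpace ℝ (Fin n)) (Matrix.of C)

/-- Average of `F` over an isotropic Gaussian shift of variance `t`. -/
noncomputable def heatV (F : (ι → ℝ) → ℝ) (t : ℝ) (y : ι → ℝ) : ℝ :=
  ∫ z, F (fun i => y i + Real.sqrt t * z i) ∂Measure.pi fun _ : ι => gaussianReal 0 1

/-- The nested potentials, from the innermost level `u` outwards. -/
noncomputable def potV (m d : Fin (r + 1) → ℝ) (u : (ι → ℝ) → ℝ) : ℕ → (ι → ℝ) → ℝ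
  | 0 => u
  | k + 1 =>
    if h : k ≤ r then
      let j : Fin (r + 1) := ⟨r - k, by omega⟩
      if m j = 0 then heatV (potV m d u k) (d j)
      else fun y => Real.log (heatV (fun x => Real.exp (m j * potV m d u k x)) (d j) y) / m j
    else potV m d u k

/-- An insertion carried outwards by the tilted averages. -/
noncomputable def insV (m d : Fin (r + 1) → ℝ) (u θ : (ι → ℝ) → ℝ) : ℕ → (ι → ℝ) → ℝ
  | 0 => θ
  | k + 1 =>
    if h : k ≤ r then
      let j : Fin (r + 1) := ⟨r - k, by omega⟩
      fun y => heatV (fun x => Real.exp (m j * potV m d u k x) * insV m d u θ k x) (d j) y /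
        heatV (fun x => Real.exp (m j * potV m d u k x)) (d j) y
    else insV m d u θ k

/-- Two insertions meeting at level `j`, carried out to the root. -/
noncomputable def pairV (m d : Fin (r + 1) → ℝ) (u θ θ' : (ι → ℝ) → ℝ) (j : Fin (r + 1)) : ℝ :=
  let k := r - (j : ℕ)
  insV (fun i : Fin ((j : ℕ) + 1) => m ⟨i, by omega⟩) (fun i => d ⟨i, by omega⟩) (potV m d u k)
    (fun y => insV m d u θ k y * insV m d u θ' k y) ((j : ℕ) + 1) 0

/-- The innermost potential of a weight: its average over the residual noise, in logarithms. -/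
noncomputable def leafU (Φ : (ι → ℝ) → ℝ) (rest : ℝ) (y : ι → ℝ) : ℝ := Real.log (heatV Φ rest y)

/-- The innermost insertion under a weight. -/
noncomputable def leafI (Φ θ : (ι → ℝ) → ℝ) (rest : ℝ) (y : ι → ℝ) : ℝ :=
  heatV (fun x => θ x * Φ x) rest y / heatV Φ rest y

/-- Log-average of `Φ` in levels `m`, increments `d` and residual variance `rest`. -/
noncomputable def valV (m d : Fin (r + 1) → ℝ) (rest : ℝ) (Φ : (ι → ℝ) → ℝ) : ℝ :=
  potV m d (leafU Φ rest) (r + 1) 0

/-- A single insertion under the weight `Φ`. -/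
noncomputable def oneV (m d : Fin (r + 1) → ℝ) (rest : ℝ) (Φ θ : (ι → ℝ) → ℝ) : ℝ :=
  insV m d (leafU Φ rest) (leafI Φ θ rest) (r + 1) 0

/-- Two insertions meeting at level `j`, under the weight `Φ`. -/
noncomputable def twoV (m d : Fin (r + 1) → ℝ) (rest : ℝ) (Φ θ θ' : (ι → ℝ) → ℝ)
    (j : Fin (r + 1)) : ℝ :=
  pairV m d (leafU Φ rest) (leafI Φ θ rest) (leafI Φ θ' rest) j

/-- A continuous weight with values in `[1, M]`. -/
structure Wgt (M : ℝ) (Φ : (ι → ℝ) → ℝ) : Prop where
  cont : Continuous Φ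
  range : ∀ y, 1 ≤ Φ y ∧ Φ y ≤ M

/-- A bounded continuous function. -/
def BCV (θ : (ι → ℝ) → ℝ) : Prop := Continuous θ ∧ ∃ B, ∀ y, |θ y| ≤ B

/-- Covariance with increments `d` on the levels and `rest` on the diagonal. -/
noncomputable def ccov (d : Fin (r + 1) → ℝ) (rest : ℝ) (A : LMat r n) : Mat n :=
  fun a b => lcov d A a b + if a = b then rest else 0

/-- Series for the expected log-average of a weight bounded by `M`. -/
noncomputable def logSerV (M : ℝ) (Φ : (ι → ℝ) → ℝ)
    (E : ∀ n, ((Fin n → ι → ℝ) → ℝ) → ℝ) : ℝ :=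
  Real.log M - ∑' k : ℕ, E (k + 1) (fun h => ∏ l, (1 - Φ (h l) / M)) / ((k : ℝ) + 1)

/-- Integrand of the `k`-th term of the series of an insertion. -/
noncomputable def ratioTermV {k : ℕ} (M : ℝ) (Φ : (ι → ℝ) → ℝ) (θ : Fin n → (ι → ℝ) → ℝ)
    (h : Fin (n + k) → ι → ℝ) : ℝ :=
  (∏ l, θ l (h (Fin.castAdd k l)) * (Φ (h (Fin.castAdd k l)) / M)) *
    ∏ l, (1 - Φ (h (Fin.natAdd n l)) / M)

/-- Log series in a discrete array. -/
noncomputable def cascLog (C : Casc r) (d : Fin (r + 1) → ℝ) (rest M : ℝ) (Φ : (ι → ℝ) → ℝ) : ℝ :=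
  logSerV M Φ fun n Θ => ∑ A, C.P n A * GV (ccov d rest A) Θ

/-- Series of insertions in a discrete array. -/
noncomputable def cascIns (C : Casc r) (d : Fin (r + 1) → ℝ) (rest M : ℝ) (Φ : (ι → ℝ) → ℝ)
    (Ψ : LMat r n → ℝ) (θ : Fin n → (ι → ℝ) → ℝ) : ℝ :=
  ∑' k : ℕ, (negCoef n k : ℝ) * ∑ A, C.P (n + k) A *
    (Ψ (P157.Low.sub A (Fin.castAdd k)) * GV (ccov d rest A) (ratioTermV M Φ θ))

/-! ### One added spin -/

variable {κ : Type} [Fintype κ] [DecidableEq κ]

/-- The reflection in the hyperplane orthogonal to `a`. -/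
noncomputable def refl (a x : κ → ℝ) : κ → ℝ :=
  fun i => x i - 2 * (∑ j, a j * x j) / (∑ j, a j ^ 2) * a i

/-- An orthogonal map taking the unit vector of `e` to the unit vector `T`. -/
noncomputable def frame (e : κ) (T x : κ → ℝ) : κ → ℝ :=
  refl (fun i => T i + if i = e then 1 else 0) (refl (fun i => if i = e then 1 else 0) x)

/-- The coordinates other than `e`. -/
abbrev Slot (e : κ) := {j : κ // j ≠ e}

/-- The fields: one cavity and one probe for each slot. -/
abbrev Fld (e : κ) := Slot e ⊕ Slot e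

/-- Cavity fields completed by the new spin. -/
def fill (e : κ) (z : Fld e → ℝ) (s : ℝ) : κ → ℝ :=
  fun j => if h : j = e then s else z (Sum.inl ⟨j, h⟩)

/-- The energy of the probes. -/
noncomputable def probeQ (dl : κ → ℝ) (e : κ) (z : Fld e → ℝ) : ℝ :=
  (∑ j : Slot e, dl j.1 * z (Sum.inr j) ^ 2) / 2

/-- The energy gained with one spin whose eigen-direction has block norms `T`. -/
noncomputable def spinQ (dl : κ → ℝ) (e : κ) (T : κ → ℝ) (z : Fld e → ℝ) (s : ℝ) : ℝ :=
  (∑ j, dl j * frame e T (fill e z s) j ^ 2) / 2 + probeQ dl e z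

/-- The energy gained with the cavity directions assigned away from block `k`. -/
noncomputable def delQ (dl : κ → ℝ) (e k : κ) (z : Fld e → ℝ) : ℝ :=
  (∑ j : Slot e, if j.1 = k then 0 else dl j.1 * z (Sum.inl j) ^ 2) / 2 + probeQ dl e z

/-- The weight of the added spin, its energy truncated at `L`. -/
noncomputable def spinW (dl : κ → ℝ) (e : κ) (T : κ → ℝ) (L : ℝ) (z : Fld e → ℝ) : ℝ :=
  (Real.exp (min (spinQ dl e T z 1) L) + Real.exp (min (spinQ dl e T z (-1)) L)) / 2

/-- The mean of the added spin at given fields, with truncated energy. -/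
noncomputable def spinT (dl : κ → ℝ) (e : κ) (T : κ → ℝ) (L : ℝ) (z : Fld e → ℝ) : ℝ :=
  (Real.exp (min (spinQ dl e T z 1) L) - Real.exp (min (spinQ dl e T z (-1)) L)) /
    (Real.exp (min (spinQ dl e T z 1) L) + Real.exp (min (spinQ dl e T z (-1)) L))

/-- The weight of a deleted direction, its energy truncated at `L`. -/
noncomputable def delW (dl : κ → ℝ) (e k : κ) (L : ℝ) (z : Fld e → ℝ) : ℝ :=
  Real.exp (min (delQ dl e k z) L)

/-- The untruncated weight of the added spin. -/
noncomputable def spinW' (dl : κ → ℝ) (e : κ) (T : κ → ℝ) (z : Fld e → ℝ) : ℝ :=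
  (Real.exp (spinQ dl e T z 1) + Real.exp (spinQ dl e T z (-1))) / 2

/-- The untruncated mean of the added spin. -/
noncomputable def spinT' (dl : κ → ℝ) (e : κ) (T : κ → ℝ) (z : Fld e → ℝ) : ℝ :=
  (Real.exp (spinQ dl e T z 1) - Real.exp (spinQ dl e T z (-1))) /
    (Real.exp (spinQ dl e T z 1) + Real.exp (spinQ dl e T z (-1)))

/-- The untruncated weight of a deleted direction. -/
noncomputable def delW' (dl : κ → ℝ) (e k : κ) (z : Fld e → ℝ) : ℝ := Real.exp (delQ dl e k z)

/-! ### Closed forms on the levels -/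

/-- The variance left below level `j` in a field of total variance `c`. -/
noncomputable def below (m q : Fin (r + 1) → ℝ) (c : ℝ) (j : Fin (r + 1)) : ℝ :=
  c * (1 - q (Fin.last r) + ∑ i, if j < i then m i * incr q i else 0)

/-- The sum along the levels attached to a positive function `f` with derivative `f'`. -/
noncomputable def llog (m q : Fin (r + 1) → ℝ) (c : ℝ) (f f' : ℝ → ℝ) : ℝ :=
  -(Real.log (f (below m q c (Fin.last r)))) / 2 +
    ((∑ i : Fin (r + 1), if i = 0 then 0 else
      (Real.log (f (below m q c i)) - Real.log (f (below m q c i + m i * (c * incr q i)))) /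
        (2 * m i)) -
    c * q 0 * f' (below m q c 0) / (2 * f (below m q c 0)))

/-- The level sum of one direction of slope `δ`. -/
noncomputable def tLog (m q : Fin (r + 1) → ℝ) (c δ : ℝ) : ℝ :=
  llog m q c (fun D => 1 - δ * D) (fun _ => -δ)

/-- The determinant ratio of the constrained directions. -/
noncomputable def gfun (dl v : κ → ℝ) (D : ℝ) : ℝ := ∑ j, v j ^ 2 / (1 - D * dl j)

/-- Its derivative. -/
noncomputable def gder (dl v : κ → ℝ) (D : ℝ) : ℝ := ∑ j, v j ^ 2 * dl j / (1 - D * dl j) ^ 2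

/-- The field strength of the added spin. -/
noncomputable def kfun (dl v : κ → ℝ) (D : ℝ) : ℝ := (1 - (gfun dl v D)⁻¹) / D

/-- Its derivative. -/
noncomputable def kder (dl v : κ → ℝ) (D : ℝ) : ℝ :=
  gder dl v D / (gfun dl v D ^ 2 * D) - (1 - (gfun dl v D)⁻¹) / D ^ 2

/-- The field variances of the added spin along the levels. -/
noncomputable def rpath (dl v : κ → ℝ) (m q : Fin (r + 1) → ℝ) (c : ℝ) (j : Fin (r + 1)) : ℝ :=
  c * q 0 * kder dl v (below m q c 0) + ∑ i : Fin (r + 1), if i ≠ 0 ∧ i ≤ j then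
    (kfun dl v (below m q c i + m i * (c * incr q i)) - kfun dl v (below m q c i)) / m i else 0

/-- The overlap at level `j` of one direction tilted with slope `δ`. -/
noncomputable def tilt (m q : Fin (r + 1) → ℝ) (c δ : ℝ) (j : Fin (r + 1)) : ℝ :=
  c * q 0 / (1 - δ * below m q c 0) ^ 2 + ∑ i : Fin (r + 1), if i ≠ 0 ∧ i ≤ j then
    c * incr q i / ((1 - δ * below m q c i) * (1 - δ * (below m q c i + m i * (c * incr q i)))) else 0

/-- Levels of an overlap path with margin `ε` below the edge of the slopes `dl`. -/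
structure Margin (dl : κ → ℝ) (m q : Fin (r + 1) → ℝ) (c ε : ℝ) : Prop where
  lev : Levels m
  mono : Monotone q
  nonneg : ∀ j, 0 ≤ q j
  ltOne : ∀ j, q j < 1
  pos : 0 < c ∧ 0 < ε
  edge : ∀ j, dl j * below m q c 0 ≤ 1 - ε

end Vale.Agent.P166F.Low
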