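import Vale.Agent.P157.Low.Ultra
import Vale.Agent.P166F.Defs

/-!
P166: discretisations with strictly increasing weights, on the occupied cells of the grid.
-/

namespace Vale.Agent.P166F.Low

open MeasureTheory Vale.Agent.P157.Low

lemma measurable_gridLev (K : ℕ) : Measurable (gridLev K) :=
  measurable_const.min (Nat.measurable_floor.comp (measurable_id.mul_const _))

lemma monotone_gridLev (K : ℕ) : Monotone (gridLev K) := fun _ _ hxy =>
  min_le_min le_rfl (Nat.floor_mono (mul_le_mul_of_nonneg_right hxy (Nat.cast_nonneg K)))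

/-- The grid value of an overlap in `[0, 1]` is within `2/K` of it. -/
lemma gridLev_close {K : ℕ} (hK : 1 ≤ K) {x : ℝ} (hx0 : 0 ≤ x) (hx1 : x ≤ 1) :
    |(gridLev K x : ℝ) / K - x| ≤ 2 / (K : ℝ) := by
  have hKpos : (0 : ℝ) < K := Nat.cast_pos.2 hK
  have hf := Nat.floor_le (mul_nonneg hx0 hKpos.le)
  have hf' := Nat.lt_floor_add_one (x * (K : ℝ))
  have hg1 : (gridLev K x : ℝ) ≤ x * K := le_trans (Nat.cast_le.2 (min_le_right _ _)) hf
  have hg2 : x * K ≤ (gridLev K x : ℝ) + 2 := by
    rcases le_total ⌊x * (K : ℝ)⌋₊ (K - 1) with h | h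
    · rw [gridLev, min_eq_right h]; linarith
    · rw [gridLev, min_eq_left h, Nat.cast_sub hK]
      push_cast
      nlinarith
  rw [abs_le, neg_le_sub_iff_le_add, sub_le_iff_le_add]
  constructor
  · rw [← add_div, le_div_iff₀ hKpos]; exact hg2
  · rw [div_le_iff₀ hKpos, add_mul, div_mul_cancel₀ _ hKpos.ne']
    linarith

/-- The index of a grid cell among increasingly listed cells. -/
noncomputable def cellIdx {r : ℕ} (e : Fin (r + 1) → ℕ) (k : ℕ) : Fin (r + 1) :=
  ⟨(Finset.univ.filter fun i : Fin (r + 1) => i ≠ 0 ∧ e i ≤ k).card, Nat.lt_succ_of_le <| by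
    refine (Finset.card_le_card (t := Finset.univ.erase (0 : Fin (r + 1))) fun i hi => ?_).trans
      (by simp)
    simpa using (Finset.mem_filter.1 hi).2.1⟩

lemma cellIdx_mono {r : ℕ} (e : Fin (r + 1) → ℕ) : Monotone (cellIdx e) := fun k l hkl => by
  show (Finset.univ.filter fun i : Fin (r + 1) => i ≠ 0 ∧ e i ≤ k).card ≤
    (Finset.univ.filter fun i : Fin (r + 1) => i ≠ 0 ∧ e i ≤ l).card
  refine Finset.card_le_card fun i hi => ?_
  simp only [Finset.mem_filter] at hi ⊢
  exact ⟨hi.1, hi.2.1, hi.2.2.trans hkl⟩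

lemma cellIdx_self {r : ℕ} {e : Fin (r + 1) → ℕ} (he : StrictMono e) (j : Fin (r + 1)) :
    cellIdx e (e j) = j := by
  have h : (Finset.univ.filter fun i : Fin (r + 1) => i ≠ 0 ∧ e i ≤ e j) = Finset.Ioc 0 j := by
    ext i
    simp [he.le_iff_le, Fin.pos_iff_ne_zero]
  refine Fin.ext ?_
  show (Finset.univ.filter fun i : Fin (r + 1) => i ≠ 0 ∧ e i ≤ e j).card = (j : ℕ)
  rw [h, Fin.card_Ioc, Fin.val_zero, Nat.sub_zero]

theorem exists_discr_mono (A : Arr) {K : ℕ} (hK : 2 ≤ K) :
    ∃ D : Discr A K, Levels D.C.cdf ∧ Monotone D.τ := by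
  classical
  have := A.prob 2
  have hKpos : (0 : ℝ) < K := Nat.cast_pos.2 (by omega)
  have hlt : ∀ x, gridLev K x < K := fun x => lt_of_le_of_lt (min_le_left _ _) (by omega)
  set S := (Finset.range K).filter fun k => (A.law 2).real {R | gridLev K (R 0 1) = k} ≠ 0 with hS
  have hocc : ∀ᵐ R ∂A.law 2, gridLev K (R 0 1) ∈ S := by
    have h : ∀ᵐ R ∂A.law 2, ∀ k : ℕ, k ∉ S → gridLev K (R 0 1) ≠ k := by
      refine ae_all_iff.2 fun k => ?_
      by_cases hk : k ∈ S
      · exact .of_forall fun R h => absurd hk h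
      by_cases hkK : k < K
      · have h0 : (A.law 2).real {R | gridLev K (R 0 1) = k} = 0 := by
          by_contra hne
          exact hk (Finset.mem_filter.2 ⟨Finset.mem_range.2 hkK, hne⟩)
        rw [measureReal_eq_zero_iff, measure_eq_zero_iff_ae_notMem] at h0
        filter_upwards [h0] with R hR _ using hR
      · refine .of_forall fun R _ h => hkK (h ▸ hlt _)
    filter_upwards [h] with R hR
    by_contra hc
    exact hR _ hc rfl
  obtain ⟨r, hr⟩ : ∃ r, S.card = r + 1 := by
    obtain ⟨R, hR⟩ := hocc.exists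
    exact Nat.exists_eq_add_one.2 (Finset.card_pos.2 ⟨_, hR⟩)
  set e := S.orderEmbOfFin hr with he
  have heS : ∀ j, e j < K ∧ 0 < (A.law 2).real {R | gridLev K (R 0 1) = e j} := fun j => by
    obtain ⟨h1, h2⟩ := Finset.mem_filter.1 (S.orderEmbOfFin_mem hr j)
    exact ⟨Finset.mem_range.1 h1, lt_of_le_of_ne measureReal_nonneg (Ne.symm h2)⟩
  let τ : ℝ → Fin (r + 1) := fun x => cellIdx (fun i => e i) (gridLev K x)
  have hmono : Monotone τ := (cellIdx_mono _).comp (monotone_gridLev K)
  have hτ : Measurable τ := (measurable_of_countable (cellIdx fun i => e i)).comp (measurable_gridLev K)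
  have hself : ∀ j x, gridLev K x = e j → τ x = j := fun j x hx => by
    simp only [τ, hx, cellIdx_self e.strictMono j]
  set C := A.toCasc τ hτ hmono with hC
  have hcdf : ∀ j, C.cdf j = (A.law 2).real {R | τ (R 0 1) < j} := fun j => by
    have h := A.sum_lev hτ 2 (fun B : LMat r 2 => if B 0 1 < j then (1 : ℝ) else 0)
    change (∑ B, A.lev τ 2 B * (if B 0 1 < j then (1 : ℝ) else 0)) = _
    have hm : MeasurableSet {R : Mat 2 | τ (R 0 1) < j} :=
      (hτ.comp (measurable_entry 0 1)) (Set.to_countable {i | i < j}).measurableSet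
    rw [← h, ← integral_indicator_one hm]
    refine integral_congr_ae (.of_forall fun R => ?_)
    simp [Set.indicator_apply, lift]
  have hcell : ∀ j, MeasurableSet {R : Mat 2 | gridLev K (R 0 1) = e j} := fun j =>
    ((measurable_gridLev K).comp (measurable_entry 0 1)) (measurableSet_singleton (e j))
  have hstep : ∀ i j, i < j →
      C.cdf i + (A.law 2).real {R | gridLev K (R 0 1) = e i} ≤ C.cdf j := fun i j hij => by
    rw [hcdf, hcdf, ← measureReal_union (Set.disjoint_left.2 fun R h1 h2 => ?_) (hcell i)]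
    · refine measureReal_mono fun R hR => ?_
      rcases hR with h1 | h1
      · exact lt_trans h1 hij
      · exact lt_of_eq_of_lt (hself i _ h1) hij
    · exact (ne_of_lt h1) (hself i _ h2)
  refine ⟨{
    r := r
    C := C
    q := fun j => (e j : ℝ) / K
    τ := τ
    measτ := hτ
    monoq := fun i j hij => div_le_div_of_nonneg_right (Nat.cast_le.2 (e.monotone hij)) hKpos.le
    rangeq := fun j => ⟨by positivity, ?_⟩
    cdfpos := fun j hj => ?_
    law := fun n Ψ => A.sum_lev hτ n Ψ
    close := ?_ }, ⟨?_, fun i j hij => ?_, fun j => ?_⟩, hmono⟩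
  · rw [le_sub_iff_add_le, ← add_div, div_le_one hKpos]
    exact_mod_cast (heS j).1
  · refine lt_of_lt_of_le (lt_add_of_le_of_pos ?_ (heS 0).2) (hstep 0 j (Fin.pos_iff_ne_zero.2 hj))
    rw [hcdf]
    exact measureReal_nonneg
  · filter_upwards [hocc, A.nonneg 2, A.bdd 2] with R hR hnn hb
    have hR' : gridLev K (R 0 1) ∈ Set.range e := by
      rw [he, Finset.range_orderEmbOfFin]
      exact hR
    obtain ⟨j, hj⟩ := hR'
    rw [hself j _ hj.symm, hj]
    exact gridLev_close (by omega) (hnn 0 1) (abs_le.1 (hb 0 1)).2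
  · show C.cdf 0 = 0
    simp [hcdf]
  · show C.cdf i < C.cdf j
    linarith [hstep i j hij, (heS i).2]
  · show C.cdf j < 1
    rw [hcdf]
    have h : (A.law 2).real {R | τ (R 0 1) < j} +
        (A.law 2).real {R | gridLev K (R 0 1) = e j} ≤ 1 := by
      have hd : Disjoint {R : Mat 2 | τ (R 0 1) < j} {R : Mat 2 | gridLev K (R 0 1) = e j} :=
        Set.disjoint_left.2 fun R h1 h2 => (ne_of_lt h1) (hself j _ h2)
      rw [← measureReal_union hd (hcell j)]
      exact measureReal_le_one
    linarith [(heS j).2]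

/-- Every limit array has discretisations with strictly increasing weights. -/
theorem exists_discr_levels (A : Arr) {K : ℕ} (hK : 2 ≤ K) :
    ∃ D : Discr A K, Levels D.C.cdf :=
  (exists_discr_mono A hK).imp fun _ h => h.1

end Vale.Agent.P166F.Low
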