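import Vale.Agent.P157.Low.CavityValue
import Vale.Agent.P166F.Low.Cascade.Heat
import Vale.Agent.P166F.Low.Cascade.Stable

/-!
P166: discrete Ghirlanda–Guerra arrays with several fields: the series are the nested averages.
-/

namespace Vale.Agent.P166F.Low

open MeasureTheory Set Filter Vale.Agent.P157.Low Cascade

variable {ι : Type} [Fintype ι] {r : ℕ} {C : Casc r} {d : Fin (r + 1) → ℝ} {rest M : ℝ}
  {Φ : (ι → ℝ) → ℝ}

lemma sum_pair_lmass (C : Casc r) (g : Fin (r + 1) → ℝ) :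
    ∑ A, C.P 2 A * g (A 0 1) = ∑ j, lmass C.cdf j * g j := by
  rw [C.sum_pair]
  refine Finset.sum_congr rfl fun j _ => ?_
  by_cases h : (j : ℕ) < r
  · simp [lmass, mNext, h, show (j : ℕ) + 1 ≤ r by omega]
  · simp [lmass, mNext, h, show ¬((j : ℕ) + 1 ≤ r) by omega]

lemma tilt_twoV {u η η' : (ι → ℝ) → ℝ} {L B : ℝ} (hu : Bdd u L) (hL : 0 ≤ L) (hη : Bdd η B)
    (hη' : Bdd η' B) {A : LMat r 2} (hA : Good A) :
    (gaussTower ι C d).tilt u A ![η, η'] = pairV C.cdf d u η η' (A 0 1) := by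
  have hJ := (A 0 1).isLt
  rw [Tower.tilt_two hA hu hL (B := B) fun a => by fin_cases a <;> simpa]
  simp only [Matrix.cons_val_zero, Matrix.cons_val_one, up_insV (C := C) (d := d) u η (r - (A 0 1 : ℕ)) (by omega),
    up_insV (C := C) (d := d) u η' (r - (A 0 1 : ℕ)) (by omega)]
  rw [(up_trunc u _ (A 0 1) _ le_rfl).1]
  rfl

theorem cascLog_eq (hd : ∀ j, 0 ≤ d j) (hr : 0 ≤ rest) (hΦ : Wgt M Φ) :
    cascLog C d rest M Φ = valV C.cdf d rest Φ :=
  cascLog_root hd hr hΦ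

theorem cascIns_one (hd : ∀ j, 0 ≤ d j) (hr : 0 ≤ rest) (hΦ : Wgt M Φ) {θ : (ι → ℝ) → ℝ}
    (hθ : BCV θ) :
    cascIns (n := 1) C d rest M Φ (fun _ => 1) (fun _ => θ) = oneV C.cdf d rest Φ θ := by
  obtain ⟨B, hB⟩ := bdd_of_BCV hθ
  have hU := bdd_leafU hΦ rest
  rw [cascIns_eq hd hr hΦ _ (B := B) fun _ => hB,
    Tower.av_single (L := Real.log M + |Real.log M|)
      ⟨hU.meas.add_const _, fun y => (abs_add_le _ _).trans (by
        rw [abs_neg]; exact add_le_add (hU.le y) le_rfl)⟩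
      (by linarith [abs_nonneg (Real.log M), Real.log_nonneg (wgt_M hΦ)]) (bdd_leafI hΦ hB rest),
    up_shift hU, up_insV _ _ _ le_rfl]
  rfl

theorem cascIns_pair (hd : ∀ j, 0 ≤ d j) (hr : 0 ≤ rest) (hΦ : Wgt M Φ) {θ θ' : (ι → ℝ) → ℝ}
    (hθ : BCV θ) (hθ' : BCV θ') (ψ : Fin (r + 1) → ℝ) :
    cascIns (n := 2) C d rest M Φ (fun A => ψ (A 0 1)) ![θ, θ'] =
      ∑ j, lmass C.cdf j * (ψ j * twoV C.cdf d rest Φ θ θ' j) := by
  obtain ⟨B, hB⟩ := bdd_of_BCV hθ
  obtain ⟨B', hB'⟩ := bdd_of_BCV hθ'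
  have h2 : ∀ a : Fin 2, Bdd ((![θ, θ'] : Fin 2 → (ι → ℝ) → ℝ) a) (max B B') := fun a => by
    fin_cases a
    · exact ⟨hB.meas, fun y => (hB.le y).trans (le_max_left _ _)⟩
    · exact ⟨hB'.meas, fun y => (hB'.le y).trans (le_max_right _ _)⟩
  have hU := bdd_leafU hΦ rest
  have hl : Real.log M ≥ 0 := Real.log_nonneg (wgt_M hΦ)
  rw [cascIns_eq hd hr hΦ _ h2, ← sum_pair_lmass C fun j => ψ j * twoV C.cdf d rest Φ θ θ' j]
  refine Finset.sum_congr rfl fun A _ => ?_
  rcases eq_or_ne (C.P 2 A) 0 with h | h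
  · simp [h]
  have e : (fun a => leafI Φ ((![θ, θ'] : Fin 2 → (ι → ℝ) → ℝ) a) rest) =
      ![leafI Φ θ rest, leafI Φ θ' rest] := by funext a; fin_cases a <;> rfl
  have hs : (gaussTower ι C d).tilt (fun y => leafU Φ rest y + -Real.log M) A
      ![leafI Φ θ rest, leafI Φ θ' rest] =
      (gaussTower ι C d).tilt (leafU Φ rest) A ![leafI Φ θ rest, leafI Φ θ' rest] := by
    simp only [Tower.tilt, Tower.wt, Tower.edge, Tower.norm, Tower.lev, val_shift hU, mul_add,
      Real.exp_add, integral_mul_const, mul_div_mul_right _ _ (Real.exp_pos _).ne']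
  rw [e, hs, tilt_twoV (B := max B B') (η := leafI Φ θ rest) (η' := leafI Φ θ' rest) hU hl
    (bdd_leafI hΦ (h2 0) rest) (bdd_leafI hΦ (h2 1) rest) (C.good h)]
  rfl

/-! ### Growing weights -/

/-- The residual weight between two weights. -/
noncomputable def hline (Φ Φ' : (ι → ℝ) → ℝ) (rest t : ℝ) (y : ι → ℝ) : ℝ :=
  (1 - t) * heatV Φ rest y + t * heatV Φ' rest y

/-- The potential between two weights. -/
noncomputable def vline (Φ Φ' : (ι → ℝ) → ℝ) (rest t : ℝ) (y : ι → ℝ) : ℝ :=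
  Real.log (hline Φ Φ' rest t y)

/-- Its rate. -/
noncomputable def pline (Φ Φ' : (ι → ℝ) → ℝ) (rest t : ℝ) (y : ι → ℝ) : ℝ :=
  -((heatV Φ' rest y - heatV Φ rest y) / hline Φ Φ' rest t y)

/-- An insertion between two weights. -/
noncomputable def gline (Φ Φ' θ : (ι → ℝ) → ℝ) (rest t : ℝ) (y : ι → ℝ) : ℝ :=
  ((1 - t) * heatV (fun x => θ x * Φ x) rest y + t * heatV (fun x => θ x * Φ' x) rest y) /
    hline Φ Φ' rest t y

/-- Its derivative. -/
noncomputable def gline' (Φ Φ' θ : (ι → ℝ) → ℝ) (rest t : ℝ) (y : ι → ℝ) : ℝ :=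
  (heatV (fun x => θ x * Φ' x) rest y - heatV (fun x => θ x * Φ x) rest y) / hline Φ Φ' rest t y +
    gline Φ Φ' θ rest t y * pline Φ Φ' rest t y

/-- The times at which the weight between two weights stays positive. -/
def span (M : ℝ) : Set ℝ := Ioo (-(1 / (4 * M))) (1 + 1 / (4 * M))

variable {Φ' θ : (ι → ℝ) → ℝ} {B : ℝ}

lemma span_props (hM : 1 ≤ M) : Icc (0 : ℝ) 1 ⊆ span M ∧ ∀ t ∈ span M, |t| ≤ 2 ∧ |1 - t| ≤ 2 := by
  have h : 0 < 1 / (4 * M) := by positivity
  have h' : 1 / (4 * M) ≤ 1 := by rw [div_le_one (by positivity)]; linarith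
  refine ⟨fun t ht => ⟨by linarith [ht.1], by linarith [ht.2]⟩, fun t ht => ?_⟩
  constructor <;> rw [abs_le] <;> constructor <;> linarith [ht.1, ht.2]

lemma hline_mem (hΦ : Wgt M Φ) (hΦ' : Wgt M Φ') {t : ℝ} (ht : t ∈ span M) (y : ι → ℝ) :
    1 / 2 ≤ hline Φ Φ' rest t y ∧ hline Φ Φ' rest t y ≤ 4 * M := by
  obtain ⟨a1, a2⟩ := heat_range hΦ rest y
  obtain ⟨b1, b2⟩ := heat_range hΦ' rest y
  have hM := wgt_M hΦ
  have h : 1 / (4 * M) * M = 1 / 4 := by field_simp
  have hδ : 0 < 1 / (4 * M) := by positivity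
  unfold hline
  rcases le_total 0 t with h0 | h0
  · rcases le_total t 1 with h1 | h1
    · constructor <;> nlinarith
    · constructor <;> nlinarith [ht.2]
  · constructor <;> nlinarith [ht.1]

lemma line_drift (hΦ : Wgt M Φ) (hΦ' : Wgt M Φ') :
    Tower.Drift (vline Φ Φ' rest) (pline Φ Φ' rest) (span M) (Real.log (4 * M)) (2 * M) where
  isOpen := isOpen_Ioo
  pot t ht := by
    refine ⟨(((measurable_heatV hΦ.cont.measurable rest).const_mul _).add
      ((measurable_heatV hΦ'.cont.measurable rest).const_mul _)).log, fun y => ?_⟩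
    obtain ⟨h1, h2⟩ := hline_mem (rest := rest) hΦ hΦ' ht y
    have hM := wgt_M hΦ
    rw [vline, abs_le]
    refine ⟨?_, Real.log_le_log (by linarith) h2⟩
    rw [neg_le, ← Real.log_inv]
    refine Real.log_le_log (by positivity) ((inv_anti₀ (by norm_num) h1).trans ?_)
    norm_num
    linarith
  rate t ht := by
    refine ⟨(((measurable_heatV hΦ'.cont.measurable rest).sub
      (measurable_heatV hΦ.cont.measurable rest)).div
      (((measurable_heatV hΦ.cont.measurable rest).const_mul _).add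
      ((measurable_heatV hΦ'.cont.measurable rest).const_mul _))).neg, fun y => ?_⟩
    obtain ⟨h1, h2⟩ := hline_mem (rest := rest) hΦ hΦ' ht y
    have e : |heatV Φ' rest y - heatV Φ rest y| ≤ M :=
      abs_le.2 ⟨by linarith [(heat_range hΦ rest y).2, (heat_range hΦ' rest y).1],
        by linarith [(heat_range hΦ' rest y).2, (heat_range hΦ rest y).1]⟩
    rw [pline, abs_neg, abs_div, abs_of_pos (by linarith : (0 : ℝ) < hline Φ Φ' rest t y),
      div_le_iff₀ (by linarith)]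
    nlinarith [wgt_M hΦ]
  deriv t ht y := by
    obtain ⟨h1, -⟩ := hline_mem (rest := rest) hΦ hΦ' ht y
    refine (((((hasDerivAt_id t).const_sub 1).mul_const (heatV Φ rest y)).add
      ((hasDerivAt_id t).mul_const (heatV Φ' rest y))).log
        (show (1 - t) * heatV Φ rest y + t * heatV Φ' rest y ≠ 0 from
          (show (0 : ℝ) < hline Φ Φ' rest t y by linarith).ne')).congr_deriv ?_
    simp only [pline, hline, neg_neg, id, Pi.add_apply]
    ring

lemma heat_mul_bdd (hΦ : Wgt M Φ) (hθ : Bdd θ B) (rest : ℝ) :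
    Bdd (heatV (fun x => θ x * Φ x) rest) (B * M) :=
  bdd_heatV (Tower.bdd_mul hθ (wgt_bdd hΦ)) rest

lemma line_rates {n : ℕ} (hΦ : Wgt M Φ) (hΦ' : Wgt M Φ') (hθ : Bdd θ B) :
    Tower.Rates (fun t (_ : Fin n) => gline Φ Φ' θ rest t) (fun t _ => gline' Φ Φ' θ rest t) (span M)
      (4 * (B * M) + 8 * (B * M) * (2 * M) + 8 * (B * M) + 2 * M + 1) := by
  have hM := wgt_M hΦ
  have hBM : 0 ≤ B * M := mul_nonneg ((abs_nonneg _).trans (hθ.le 0)) (by linarith)
  have hmh : ∀ t, Measurable (hline Φ Φ' rest t) := fun t =>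
    ((measurable_heatV hΦ.cont.measurable rest).const_mul _).add
      ((measurable_heatV hΦ'.cont.measurable rest).const_mul _)
  have hmg : ∀ t, Measurable (gline Φ Φ' θ rest t) := fun t =>
    (((heat_mul_bdd hΦ hθ rest).meas.const_mul _).add
      ((heat_mul_bdd hΦ' hθ rest).meas.const_mul _)).div (hmh t)
  have hg : ∀ t ∈ span M, ∀ y, |gline Φ Φ' θ rest t y| ≤ 8 * (B * M) := fun t ht y => by
    obtain ⟨h1, -⟩ := hline_mem (rest := rest) hΦ hΦ' ht y
    obtain ⟨s1, s2⟩ := (span_props hM).2 t ht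
    rw [gline, abs_div, abs_of_pos (by linarith : (0 : ℝ) < hline Φ Φ' rest t y),
      div_le_iff₀ (by linarith)]
    refine (abs_add_le _ _).trans ?_
    rw [abs_mul, abs_mul]
    nlinarith [mul_le_mul s2 ((heat_mul_bdd hΦ hθ rest).le y) (abs_nonneg _) zero_le_two,
      mul_le_mul s1 ((heat_mul_bdd hΦ' hθ rest).le y) (abs_nonneg _) zero_le_two]
  refine ⟨fun t ht _ => ⟨hmg t, fun y => (hg t ht y).trans (by nlinarith)⟩, fun t ht _ =>
    ⟨(((heat_mul_bdd hΦ' hθ rest).meas.sub (heat_mul_bdd hΦ hθ rest).meas).div (hmh t)).add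
      ((hmg t).mul ((line_drift hΦ hΦ').rate t ht).meas), fun y => ?_⟩, fun t ht _ y => ?_⟩
  · obtain ⟨h1, -⟩ := hline_mem (rest := rest) hΦ hΦ' ht y
    refine (abs_add_le _ _).trans ?_
    have e1 : |(heatV (fun x => θ x * Φ' x) rest y - heatV (fun x => θ x * Φ x) rest y) /
        hline Φ Φ' rest t y| ≤ 4 * (B * M) := by
      rw [abs_div, abs_of_pos (by linarith : (0 : ℝ) < hline Φ Φ' rest t y), div_le_iff₀ (by linarith)]
      refine (abs_sub _ _).trans ?_
      nlinarith [(heat_mul_bdd hΦ' hθ rest).le y, (heat_mul_bdd hΦ hθ rest).le y]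
    have e2 : |gline Φ Φ' θ rest t y * pline Φ Φ' rest t y| ≤ 8 * (B * M) * (2 * M) := by
      rw [abs_mul]
      exact mul_le_mul (hg t ht y) (((line_drift hΦ hΦ').rate t ht).le y) (abs_nonneg _) (by positivity)
    linarith
  · obtain ⟨h1, -⟩ := hline_mem (rest := rest) hΦ hΦ' ht y
    have hne : hline Φ Φ' rest t y ≠ 0 := (show (0 : ℝ) < hline Φ Φ' rest t y by linarith).ne'
    refine (((((hasDerivAt_id t).const_sub 1).mul_const (heatV (fun x => θ x * Φ x) rest y)).add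
      ((hasDerivAt_id t).mul_const (heatV (fun x => θ x * Φ' x) rest y))).fun_div
      ((((hasDerivAt_id t).const_sub 1).mul_const (heatV Φ rest y)).add
      ((hasDerivAt_id t).mul_const (heatV Φ' rest y))) hne).congr_deriv ?_
    simp only [hline] at hne
    simp only [gline', gline, pline, hline, id, Pi.add_apply]
    field_simp
    ring

/-- Raising the weight moves averaged insertions by no more than the value gains. -/
lemma line_stable (hΦ : Wgt M Φ) (hΦ' : Wgt M Φ') (hle : ∀ y, Φ y ≤ Φ' y) (hθ : Bdd θ B) {n : ℕ}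
    (hnorm : ∀ {u : (ι → ℝ) → ℝ} {L : ℝ}, Bdd u L → 0 ≤ L →
      (gaussTower ι C d).av C u (fun _ : LMat r n => 1) (fun _ _ => 1) = 1)
    (hone : ∀ {u η : (ι → ℝ) → ℝ} {L K : ℝ}, Bdd u L → 0 ≤ L → Bdd η K → 1 ≤ K → ∀ a : Fin n,
      (gaussTower ι C d).av C u (fun _ : LMat r n => 1) (Function.update (fun _ _ => 1) a η) =
        (gaussTower ι C d).up (r + 1) u η (r + 1) (r + 1) (gaussTower ι C d).x0)
    {Ψ : LMat r n → ℝ} (hΨ : ∀ A, |Ψ A| ≤ 1) :
    |(gaussTower ι C d).av C (leafU Φ' rest) Ψ (fun _ => leafI Φ' θ rest) -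
        (gaussTower ι C d).av C (leafU Φ rest) Ψ (fun _ => leafI Φ θ rest)| ≤
      2 * n * B ^ n * (valV C.cdf d rest Φ' - valV C.cdf d rest Φ) := by
  have hM := wgt_M hΦ
  have hB : 0 ≤ B := (abs_nonneg _).trans (hθ.le 0)
  have hBM : 0 ≤ B * M := mul_nonneg hB (by linarith)
  have hL : 0 ≤ Real.log (4 * M) := Real.log_nonneg (by linarith)
  have hdr := line_drift (rest := rest) hΦ hΦ'
  have hsub := (span_props hM).1
  have hdiff : ∀ y, 0 ≤ heatV Φ' rest y - heatV Φ rest y := fun y =>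
    sub_nonneg.2 (heatV_mono (wgt_bdd hΦ) (wgt_bdd hΦ') hle rest y)
  have hθΦ : ∀ y, |heatV (fun x => θ x * Φ x) rest y| ≤ B * heatV Φ rest y := fun y => by
    have := (bdd_leafI hΦ hθ rest).le y
    have h1 := (heat_range hΦ rest y).1
    rwa [leafI, abs_div, abs_of_pos (by linarith : (0 : ℝ) < heatV Φ rest y),
      div_le_iff₀ (by linarith)] at this
  have hθΦ' : ∀ y, |heatV (fun x => θ x * Φ' x) rest y| ≤ B * heatV Φ' rest y := fun y => by
    have := (bdd_leafI hΦ' hθ rest).le y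
    have h1 := (heat_range hΦ' rest y).1
    rwa [leafI, abs_div, abs_of_pos (by linarith : (0 : ℝ) < heatV Φ' rest y),
      div_le_iff₀ (by linarith)] at this
  have hinc : ∀ y, |heatV (fun x => θ x * Φ' x) rest y - heatV (fun x => θ x * Φ x) rest y| ≤
      B * (heatV Φ' rest y - heatV Φ rest y) := fun y => by
    have i1 := integrable_heatV (Tower.bdd_mul hθ (wgt_bdd hΦ')) rest y
    have i2 := integrable_heatV (Tower.bdd_mul hθ (wgt_bdd hΦ)) rest y
    simp only [heatV]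
    rw [← integral_sub i1 i2, ← integral_sub (integrable_heatV (wgt_bdd hΦ') rest y)
      (integrable_heatV (wgt_bdd hΦ) rest y), ← integral_const_mul]
    refine abs_integral_le_integral_abs.trans (integral_mono (i1.sub i2).abs
      (((integrable_heatV (wgt_bdd hΦ') rest y).sub (integrable_heatV (wgt_bdd hΦ) rest y)).const_mul B)
      fun z => ?_)
    simp only [Pi.sub_apply]
    rw [← mul_sub, abs_mul, abs_of_nonneg (sub_nonneg.2 (hle _))]
    exact mul_le_mul_of_nonneg_right (hθ.le _) (sub_nonneg.2 (hle _))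
  have key := Tower.av_stable (C := C) (T := gaussTower ι C d) gauss_fits hdr hsub hL
    (fun t ht y => ?_) (line_rates (rest := rest) (n := n) hΦ hΦ' hθ) (by nlinarith) (by nlinarith) hB
    (fun t ht _ y => ?_) (fun t ht _ y => ?_) (fun t ht => hnorm (hdr.pot t ht) hL)
    (fun t ht a => ?_) hΨ
  · have e1 : vline Φ Φ' rest 1 = leafU Φ' rest := by funext y; simp [vline, hline, leafU]
    have e0 : vline Φ Φ' rest 0 = leafU Φ rest := by funext y; simp [vline, hline, leafU]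
    have f1 : gline Φ Φ' θ rest 1 = leafI Φ' θ rest := by funext y; simp [gline, hline, leafI]
    have f0 : gline Φ Φ' θ rest 0 = leafI Φ θ rest := by funext y; simp [gline, hline, leafI]
    simp only [e1, e0, f1, f0, Tower.lev, Nat.sub_zero, val_potV _ (r + 1) le_rfl] at key
    exact key
  · have h1 := (hline_mem (rest := rest) hΦ hΦ' (hsub ht) y).1
    exact neg_nonpos.2 (div_nonneg (hdiff y) (by linarith))
  · have h1 := (hline_mem (rest := rest) hΦ hΦ' (hsub ht) y).1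
    rw [gline, abs_div, abs_of_pos (by linarith : (0 : ℝ) < hline Φ Φ' rest t y),
      div_le_iff₀ (by linarith)]
    refine (abs_add_le _ _).trans ?_
    rw [abs_mul, abs_mul, abs_of_nonneg (sub_nonneg.2 ht.2), abs_of_nonneg ht.1, hline]
    nlinarith [mul_le_mul_of_nonneg_left (hθΦ y) (sub_nonneg.2 ht.2),
      mul_le_mul_of_nonneg_left (hθΦ' y) ht.1]
  · have h1 := (hline_mem (rest := rest) hΦ hΦ' (hsub ht) y).1
    rw [gline', add_sub_cancel_right, abs_div,
      abs_of_pos (by linarith : (0 : ℝ) < hline Φ Φ' rest t y), pline, neg_neg, ← mul_div_assoc]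
    exact div_le_div_of_nonneg_right (hinc y) (by linarith)
  · have hb := hdr.rate t (hsub ht)
    rw [hone (hdr.pot t (hsub ht)) hL (η := fun y => -pline Φ Φ' rest t y) (K := 2 * M)
      ⟨hb.meas.neg, fun y => by rw [abs_neg]; exact hb.le y⟩ (by linarith) a, Tower.rateAt, Nat.sub_zero]
    have : ∀ k, (gaussTower ι C d).up (r + 1) (vline Φ Φ' rest t) (fun y => -pline Φ Φ' rest t y)
        (r + 1) k = fun y => -(gaussTower ι C d).up (r + 1) (vline Φ Φ' rest t) (pline Φ Φ' rest t)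
          (r + 1) k y := by
      intro k
      induction k with
      | zero => rfl
      | succ k ih =>
        funext y
        rw [Tower.up, Tower.up, ih]
        simp [Tower.tstep, integral_neg]
    rw [this]

/-- Raising the weight moves pair insertions by at most four times the gain of the value. -/
theorem pair_stable (hd : ∀ j, 0 ≤ d j) (hr : 0 ≤ rest) {Φ' : (ι → ℝ) → ℝ} (hΦ : Wgt M Φ)
    (hΦ' : Wgt M Φ') (hle : ∀ y, Φ y ≤ Φ' y) {θ : (ι → ℝ) → ℝ} (hθ : BCV θ) {B : ℝ}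
    (hB : ∀ y, |θ y| ≤ B) {ψ : Fin (r + 1) → ℝ} (hψ : ∀ j, |ψ j| ≤ 1) :
    |(∑ j, lmass C.cdf j * (ψ j * twoV C.cdf d rest Φ' θ θ j)) -
        ∑ j, lmass C.cdf j * (ψ j * twoV C.cdf d rest Φ θ θ j)| ≤
      4 * B ^ 2 * (valV C.cdf d rest Φ' - valV C.cdf d rest Φ) := by
  have hθ' : Bdd θ B := ⟨hθ.1.measurable, hB⟩
  have e : ∀ {Ψ : (ι → ℝ) → ℝ}, Wgt M Ψ →
      (gaussTower ι C d).av C (leafU Ψ rest) (fun A : LMat r 2 => ψ (A 0 1))
        (fun _ => leafI Ψ θ rest) = ∑ j, lmass C.cdf j * (ψ j * twoV C.cdf d rest Ψ θ θ j) := by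
    intro Ψ hΨ
    rw [← sum_pair_lmass C fun j => ψ j * twoV C.cdf d rest Ψ θ θ j]
    refine Finset.sum_congr rfl fun A _ => ?_
    rcases eq_or_ne (C.P 2 A) 0 with h | h
    · simp [h]
    rw [show (fun _ : Fin 2 => leafI Ψ θ rest) = ![leafI Ψ θ rest, leafI Ψ θ rest] by
      funext a; fin_cases a <;> rfl, tilt_twoV (bdd_leafU hΨ rest) (Real.log_nonneg (wgt_M hΨ))
        (bdd_leafI hΨ hθ' rest) (bdd_leafI hΨ hθ' rest) (C.good h)]
    rfl
  have key := line_stable (C := C) (d := d) (rest := rest) hΦ hΦ' hle hθ' (n := 2)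
    (fun {u L} hu hL => by
      have := Tower.av_single_two (T := gaussTower ι C d) (C := C) hu hL (η := fun _ => 1) (B := 1)
        ⟨measurable_const, fun _ => by simp⟩ le_rfl 0
      simpa [Tower.up_one hu] using this)
    (fun {u η L K} hu hL hη hK a => Tower.av_single_two hu hL hη hK a)
    (Ψ := fun A => ψ (A 0 1)) fun A => hψ _
  rw [e hΦ, e hΦ'] at key
  exact key.trans_eq (by norm_num)

/-- Raising the weight moves one insertion by at most twice the gain of the value. -/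
theorem one_stable (hd : ∀ j, 0 ≤ d j) (hr : 0 ≤ rest) {Φ' : (ι → ℝ) → ℝ} (hΦ : Wgt M Φ)
    (hΦ' : Wgt M Φ') (hle : ∀ y, Φ y ≤ Φ' y) {θ : (ι → ℝ) → ℝ} (hθ : BCV θ) {B : ℝ}
    (hB : ∀ y, |θ y| ≤ B) :
    |oneV C.cdf d rest Φ' θ - oneV C.cdf d rest Φ θ| ≤
      2 * B * (valV C.cdf d rest Φ' - valV C.cdf d rest Φ) := by
  have hθ' : Bdd θ B := ⟨hθ.1.measurable, hB⟩
  have e : ∀ {Ψ : (ι → ℝ) → ℝ}, Wgt M Ψ →
      (gaussTower ι C d).av C (leafU Ψ rest) (fun _ : LMat r 1 => 1) (fun _ => leafI Ψ θ rest) =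
        oneV C.cdf d rest Ψ θ := fun {Ψ} hΨ => by
    rw [Tower.av_single (bdd_leafU hΨ rest) (Real.log_nonneg (wgt_M hΨ)) (bdd_leafI hΨ hθ' rest),
      up_insV _ _ _ le_rfl]
    rfl
  have key := line_stable (C := C) (d := d) (rest := rest) hΦ hΦ' hle hθ' (n := 1)
    (fun {u L} hu hL => by
      rw [Tower.av_single hu hL (η := fun _ => 1) (B := 1) ⟨measurable_const, fun _ => by simp⟩,
        Tower.up_one hu])
    (fun {u η L K} hu hL hη _ a => by
      rw [show Function.update (fun (_ : Fin 1) (_ : ι → ℝ) => (1 : ℝ)) a η = fun _ => η by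
        funext b; rw [Subsingleton.elim b a, Function.update_self]]
      exact Tower.av_single hu hL hη)
    (Ψ := fun _ => 1) fun _ => by simp
  rw [e hΦ, e hΦ'] at key
  exact key.trans_eq (by norm_num)

end Vale.Agent.P166F.Low
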