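import Vale.Agent.P166F.Low.Closed.Levels
import Vale.Agent.P166F.Low.Closed.Spectral

/-!
P166: the nested averages of the added spin and of a deleted direction in closed form.
-/

namespace Vale.Agent.P166F.Low

open MeasureTheory ProbabilityTheory Filter Vale.Agent.P157.Low
open Vale.Agent.P166W (gauss)
open scoped Topology

variable {κ : Type} [Fintype κ] [DecidableEq κ] {r : ℕ} {dl v : κ → ℝ} {e : κ}
  {m q : Fin (r + 1) → ℝ} {c ε : ℝ}

/-- The increments of a field of variance `c`. -/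
noncomputable def fInc (q : Fin (r + 1) → ℝ) (c : ℝ) (j : Fin (r + 1)) : ℝ := c * incr q j

/-- Its residual variance. -/
noncomputable def fRest (q : Fin (r + 1) → ℝ) (c : ℝ) : ℝ := c * (1 - q (Fin.last r))

lemma fRest_eq : fRest q c = bK m q c 0 := bK_zero.symm

omit [Fintype κ] [DecidableEq κ] in
lemma Margin.path (h : Margin dl m q c ε) : OPath m q c := ⟨h.lev, h.mono, h.nonneg, h.ltOne, h.pos.1⟩

omit [DecidableEq κ] in
lemma Margin.eps_le (hv : Dirn dl v e) (h : Margin dl m q c ε) : ε ≤ 1 := by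
  have := h.edge e
  rw [hv.zero, zero_mul] at this
  linarith

omit [DecidableEq κ] in
lemma edge_dl (hv : Dirn dl v e) (h : Margin dl m q c ε) {k : ℕ} (hk : k ≤ r + 1) (j : κ) :
    bK m q c k * dl j ≤ 1 - ε := by
  have := mul_le_mul_of_nonneg_left (bK_bound h.path hk).2.1 (hv.slope j)
  linarith [h.edge j]

omit [DecidableEq κ] in
lemma edge_dl_lt (hv : Dirn dl v e) (h : Margin dl m q c ε) {k : ℕ} (hk : k ≤ r + 1) (j : κ) :
    bK m q c k * dl j < 1 := (edge_dl hv h hk j).trans_lt (by linarith [h.pos.2])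

/-- The slopes in the diagonalising coordinates. -/
noncomputable def slopeF (E : Eig dl v e) : Fld e → ℝ := Sum.elim E.lam fun i => dl i.1

/-- The couplings in the diagonalising coordinates. -/
noncomputable def coupF (E : Eig dl v e) : Fld e → ℝ := Sum.elim E.w fun _ => 0

lemma edgeF (hv : Dirn dl v e) (h : Margin dl m q c ε) (E : Eig dl v e) :
    ∀ k ≤ r + 1, ∀ i, bK m q c k * slopeF E i ≤ 1 - ε := by
  intro k hk i
  rcases i with i | i
  · exact E.mul_lam_le (fun j => edge_dl hv h hk j) i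
  · exact edge_dl hv h hk i.1

lemma edgeF_lt (hv : Dirn dl v e) (h : Margin dl m q c ε) (E : Eig dl v e) :
    ∀ k ≤ r + 1, ∀ i, bK m q c k * slopeF E i < 1 :=
  fun k hk i => (edgeF hv h E k hk i).trans_lt (by linarith [h.pos.2])

lemma rot_rotF (E : Eig dl v e) : Rot fun z => E.rotF.mulVec z := rot_mulVec _ E.rotF_orth

lemma spinQ_ridge (E : Eig dl v e) (z : Fld e → ℝ) :
    spinQ dl e v (E.rotF.mulVec z) 1 = (∑ k, dl k * v k ^ 2) / 2 + quad (slopeF E) 0 z +
        ∑ i, wD (slopeF E) (coupF E) 0 i * z i ∧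
      spinQ dl e v (E.rotF.mulVec z) (-1) = (∑ k, dl k * v k ^ 2) / 2 + quad (slopeF E) 0 z -
        ∑ i, wD (slopeF E) (coupF E) 0 i * z i := by
  constructor <;> (rw [E.spinQ_rot]; simp [probeQ, quad, wD, slopeF, coupF, Fintype.sum_sum_type]; ring)

lemma spinW'_rot (E : Eig dl v e) (z : Fld e → ℝ) :
    spinW' dl e v (E.rotF.mulVec z) =
      Real.exp (ridge (slopeF E) (coupF E) ((∑ k, dl k * v k ^ 2) / 2) 0 lch z) := by
  obtain ⟨h1, h2⟩ := spinQ_ridge E z
  rw [spinW', h1, h2, ridge, Real.exp_add _ (lch _), exp_lch, Real.cosh_eq]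
  simp only [Real.exp_add, Real.exp_sub, Real.exp_neg]
  ring

lemma spinT'_rot (E : Eig dl v e) (z : Fld e → ℝ) :
    spinT' dl e v (E.rotF.mulVec z) = Real.tanh (∑ i, wD (slopeF E) (coupF E) 0 i * z i) := by
  obtain ⟨h1, h2⟩ := spinQ_ridge E z
  rw [spinT', h1, h2, Real.tanh_eq_sinh_div_cosh, Real.sinh_eq, Real.cosh_eq]
  simp only [Real.exp_add, Real.exp_sub, Real.exp_neg]
  field_simp

lemma measurable_tanh : Measurable Real.tanh := by
  rw [show Real.tanh = fun x => Real.sinh x / Real.cosh x from funext Real.tanh_eq_sinh_div_cosh]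
  fun_prop

lemma ridge_shift {ι : Type} [Fintype ι] (lam w : ι → ℝ) (A D a : ℝ) (φ : ℝ → ℝ) :
    ridge lam w A D (fun y => φ y + a) = ridge lam w (A + a) D φ := by
  funext x
  simp only [ridge]
  ring

/-- The leaf of the added spin in the diagonalising coordinates. -/
lemma leaf_spin (hv : Dirn dl v e) (h : Margin dl m q c ε) (E : Eig dl v e) :
    leafU (fun z => spinW' dl e v (E.rotF.mulVec z)) (fRest q c) =
      ridge (slopeF E) (coupF E) ((∑ k, dl k * v k ^ 2) / 2 +
        cinc (slopeF E) 1 (bK m q c 0) 0 (bK m q c 0) +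
        svar (slopeF E) (coupF E) (bK m q c 0) 0 (bK m q c 0) / 2) (bK m q c 0) lch := by
  have hs := leaf_ok h.path (edgeF_lt hv h E)
  rw [fRest_eq (m := m), leafU_ridge hs lip1_lch (spinW'_rot E), potStep_lch hs.svar_nonneg, ridge_shift]

lemma svar_split (E : Eig dl v e) (t D D' : ℝ) :
    svar (slopeF E) (coupF E) t D D' =
      t * ∑ i, E.w i ^ 2 / ((1 - D * E.lam i) * (1 - D' * E.lam i)) := by
  simp [svar, vinc, slopeF, coupF, Fintype.sum_sum_type, Finset.mul_sum]
  exact Finset.sum_congr rfl fun i _ => by ring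

/-- The scalar increments are those of the field path. -/
lemma dsc_eq (hv : Dirn dl v e) (h : Margin dl m q c ε) (E : Eig dl v e) :
    dsc (slopeF E) (coupF E) (fun j => c * incr q j) (bK m q c) = incr (rpath dl v m q c) ∧
      (∀ j, 0 ≤ dsc (slopeF E) (coupF E) (fun j => c * incr q j) (bK m q c) j) ∧
      ∀ j, rpath dl v m q c j = ∑ i, if i ≤ j then
        dsc (slopeF E) (coupF E) (fun j => c * incr q j) (bK m q c) i else 0 := by
  set τ := dsc (slopeF E) (coupF E) (fun j => c * incr q j) (bK m q c) with hτ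
  have hn : ∀ j, 0 ≤ τ j := fun j => by
    have := ((dg_levels h.path (edgeF_lt hv h E)).step (r - (j : ℕ)) (by omega)).svar_nonneg
      (w := coupF E)
    rwa [show idx r (r - (j : ℕ)) = j from Fin.ext (by simp only [idx]; omega)] at this
  have hcum : ∀ j, rpath dl v m q c j = ∑ i, if i ≤ j then τ i else 0 := fun j => by
    rw [rpath, ← Finset.add_sum_erase _ _ (Finset.mem_univ (0 : Fin (r + 1))),
      ← Finset.add_sum_erase _ _ (Finset.mem_univ (0 : Fin (r + 1)))]
    simp only [ne_eq, not_true, false_and, if_false, zero_add, Fin.zero_le, if_true]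
    congr 1
    · have hB := (bK_bound h.path (le_refl (r + 1)))
      rw [bK_top] at hB
      rw [hτ, dsc, svar_split, bK_back, bK_succ_back h.path, h.lev.zero, zero_mul, add_zero, incr_zero,
        E.kder_eq hv hB.1.ne' fun k => by rw [← bK_top (m := m)]; exact edge_dl_lt hv h le_rfl k]
      congr 1
      exact Finset.sum_congr rfl fun i _ => by rw [sq (1 - _)]
    · refine Finset.sum_congr rfl fun i hi => ?_
      have hi0 : i ≠ 0 := (Finset.mem_erase.1 hi).1
      simp only [hi0, not_false_iff, true_and]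
      congr 1
      have hk1 : r - (i : ℕ) ≤ r + 1 := by omega
      have hk2 : r - (i : ℕ) + 1 ≤ r + 1 := by omega
      rw [hτ, dsc, svar_split]
      rw [← bK_succ_back h.path i, ← bK_back i]
      rw [E.kfun_eq hv (bK_bound h.path hk2).1.ne' (edge_dl_lt hv h hk2),
        E.kfun_eq hv (bK_bound h.path hk1).1.ne' (edge_dl_lt hv h hk1),
        div_eq_iff (h.path.m_pos hi0).ne', Finset.mul_sum, Finset.mul_sum, Finset.mul_sum,
        Finset.sum_mul, add_sub_add_left_eq_sub, ← Finset.sum_sub_distrib]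
      refine Finset.sum_congr rfl fun l _ => ?_
      have h1 : 1 - bK m q c (r - (i : ℕ)) * E.lam l ≠ 0 :=
        (sub_pos.2 (edgeF_lt hv h E _ hk1 (Sum.inl l))).ne'
      have h2 : 1 - bK m q c (r - (i : ℕ) + 1) * E.lam l ≠ 0 :=
        (sub_pos.2 (edgeF_lt hv h E _ hk2 (Sum.inl l))).ne'
      have e3 := bK_succ_back h.path i
      rw [← bK_back i] at e3
      generalize bK m q c (r - (i : ℕ)) = D at *
      generalize bK m q c (r - (i : ℕ) + 1) = D' at *
      have key : D' * (1 - D * E.lam l) - D * (1 - D' * E.lam l) = m i * (c * incr q i) := by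
        linear_combination e3
      generalize 1 - D * E.lam l = P at *
      generalize 1 - D' * E.lam l = Q at *
      field_simp
      linear_combination (E.w l ^ 2) * key
  refine ⟨(funext fun j => ?_).symm, hn, hcum⟩
  refine Fin.cases ?_ (fun t => ?_) j
  · rw [incr_zero, hcum, Finset.sum_eq_single (0 : Fin (r + 1))
      (fun i _ hi => if_neg fun hle => hi (Fin.le_zero_iff.1 hle)) (by simp)]
    simp
  · rw [incr_succ, hcum, hcum, ← Finset.sum_sub_distrib, Finset.sum_eq_single t.succ]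
    · simp
    · intro i _ hi
      have : (i ≤ t.succ) ↔ (i ≤ t.castSucc) := by
        have hne : (i : ℕ) ≠ (t : ℕ) + 1 := fun e => hi (Fin.ext (by simpa using e))
        simp only [Fin.le_def, Fin.val_succ, Fin.val_castSucc]
        omega
      by_cases hc : i ≤ t.succ
      · rw [if_pos hc, if_pos (this.1 hc), sub_self]
      · rw [if_neg hc, if_neg (this.not.1 hc), sub_self]
    · simp

lemma tLog_sum {α : Type} [Fintype α] (a : α → ℝ) :
    ∑ i, tLog m q c (a i) = -(∑ i, Real.log (1 - below m q c (Fin.last r) * a i)) / 2 +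
      ((∑ j : Fin (r + 1), if j = 0 then 0 else
        ((∑ i, Real.log (1 - below m q c j * a i)) -
          ∑ i, Real.log (1 - (below m q c j + m j * (c * incr q j)) * a i)) / (2 * m j)) +
      c * q 0 * (∑ i, a i / (1 - below m q c 0 * a i)) / 2) := by
  simp only [tLog, llog, Finset.sum_add_distrib, Finset.sum_sub_distrib, mul_comm (a _)]
  rw [Finset.sum_comm]
  congr 1
  · rw [← Finset.sum_div, Finset.sum_neg_distrib]
  rw [sub_eq_add_neg]
  congr 1
  · refine Finset.sum_congr rfl fun j _ => ?_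
    split
    · simp
    · rw [← Finset.sum_div, Finset.sum_sub_distrib]
  · rw [Finset.mul_sum, Finset.sum_div, ← Finset.sum_neg_distrib]
    refine Finset.sum_congr rfl fun i _ => ?_
    generalize 1 - below m q c 0 * a i = Q
    ring

lemma tLog_eig (hv : Dirn dl v e) (h : Margin dl m q c ε) (E : Eig dl v e) :
    ∑ i, tLog m q c (E.lam i) = (∑ j, tLog m q c (dl j)) + llog m q c (gfun dl v) (gder dl v) := by
  have hd : ∀ j : Fin (r + 1), (∀ k, below m q c j * dl k < 1) ∧
      ∀ k, (below m q c j + m j * (c * incr q j)) * dl k < 1 := fun j =>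
    ⟨fun k => bK_back (m := m) (q := q) (c := c) j ▸ edge_dl_lt hv h (by omega) k,
      fun k => bK_succ_back h.path j ▸ edge_dl_lt hv h (by omega) k⟩
  rw [tLog_sum, tLog_sum]
  simp only [E.log_det hv (hd _).1, E.log_det hv (hd _).2, E.trace_det hv (hd _).1, llog]
  rw [mul_sub, sub_div]
  have es : ∀ A B : Fin (r + 1) → ℝ, ∑ j, (if j = 0 then 0 else (A j + B j) / (2 * m j)) =
      (∑ j, if j = 0 then 0 else A j / (2 * m j)) + ∑ j, if j = 0 then 0 else B j / (2 * m j) :=
    fun A B => by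
      rw [← Finset.sum_add_distrib]
      exact Finset.sum_congr rfl fun j _ => by split <;> ring
  simp only [add_sub_add_comm]
  rw [es]
  generalize hG : gfun dl v (below m q c 0) = g
  ring

theorem valV_spin (hv : Dirn dl v e) (h : Margin dl m q c ε) :
    valV m (fInc q c) (fRest q c) (spinW' dl e v) =
      (∑ j, tLog m q c (dl j)) + llog m q c (gfun dl v) (gder dl v) +
        kfun dl v (below m q c (Fin.last r)) / 2 +
        (xbar m (rpath dl v m q c) + rpath dl v m q c (Fin.last r) / 2) +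
        ∑ j : Slot e, tLog m q c (dl j.1) := by
  obtain ⟨E⟩ := exists_eig hv
  rw [← valV_rot (rot_rotF E)]
  refine (valV_ridge (d := fInc q c) (dg_levels h.path (edgeF_lt hv h E)) lip1_lch
    (leaf_spin hv h E)).trans ?_
  obtain ⟨hd, -, -⟩ := dsc_eq hv h E
  have hc := csc_total h.path (slopeF E)
  rw [Fintype.sum_sum_type] at hc
  simp only [slopeF, Sum.elim_inl, Sum.elim_inr] at hc
  rw [tLog_eig hv h E] at hc
  have hb := bK_bound h.path (Nat.zero_le (r + 1))
  have hk : kfun dl v (below m q c (Fin.last r)) = (∑ k, dl k * v k ^ 2) +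
      svar (slopeF E) (coupF E) (bK m q c 0) 0 (bK m q c 0) := by
    rw [show below m q c (Fin.last r) = bK m q c 0 by rw [← bK_back (Fin.last r)]; simp,
      E.kfun_eq hv hb.1.ne' (edge_dl_lt hv h (Nat.zero_le _)), svar_split]
    simp
  have hu : potUp m (dsc (slopeF E) (coupF E) (fInc q c) (bK m q c)) lch (r + 1) 0 =
      potUp m (incr (rpath dl v m q c)) (fun y => Real.log (Real.cosh y)) (r + 1) 0 := by
    rw [← hd]; rfl
  have hcs : csc (slopeF E) m (fInc q c) (bK m q c) = csc (slopeF E) m (fun j => c * incr q j) (bK m q c) :=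
    rfl
  rw [hu, hk, xbar, hcs]
  simp only [slopeF] at hc ⊢
  linarith

theorem valV_del (hv : Dirn dl v e) (h : Margin dl m q c ε) (k : κ) :
    valV m (fInc q c) (fRest q c) (delW' dl e k) =
      (∑ j : Slot e, if j.1 = k then 0 else tLog m q c (dl j.1)) +
        ∑ j : Slot e, tLog m q c (dl j.1) := by
  set L : Fld e → ℝ := Sum.elim (fun j => if j.1 = k then 0 else dl j.1) fun j => dl j.1
  have hl : ∀ n ≤ r + 1, ∀ i, bK m q c n * L i < 1 := by
    rintro n hn (i | i)
    · simp only [L, Sum.elim_inl]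
      split
      · rw [mul_zero]; exact one_pos
      · exact edge_dl_lt hv h hn i.1
    · exact edge_dl_lt hv h hn i.1
  have hW : ∀ z, delW' dl e k z = Real.exp (ridge L (fun _ => 0) 0 0 (fun _ => 0) z) := fun z => by
    simp [delW', delQ, probeQ, ridge, quad, L, Fintype.sum_sum_type, ite_mul, add_div]
  have hz : ∀ τ, potStep 1 τ (fun _ : ℝ => (0 : ℝ)) = fun _ => 0 := fun τ => by
    funext y; simp [potStep, heat]
  have hu := leafU_ridge (leaf_ok h.path hl) lip1_zero hW
  rw [hz] at hu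
  rw [fRest_eq (m := m)]
  refine (valV_ridge (d := fInc q c) (dg_levels h.path hl) lip1_zero hu).trans ?_
  have hc := csc_total h.path L
  rw [Fintype.sum_sum_type] at hc
  have e0 : tLog m q c 0 = 0 := by simp [tLog, llog]
  simp only [L, Sum.elim_inl, Sum.elim_inr, apply_ite (tLog m q c), e0] at hc
  rw [← hc, potUp_zero, zero_add, add_zero]
  rfl

theorem rpath_field (hv : Dirn dl v e) (h : Margin dl m q c ε) :
    rpath dl v m q c ∈ fieldPaths r := by
  obtain ⟨E⟩ := exists_eig hv
  obtain ⟨-, hn, hcum⟩ := dsc_eq hv h E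
  refine ⟨fun a b hab => ?_, fun j => ?_⟩
  · rw [hcum, hcum]
    refine Finset.sum_le_sum fun i _ => ?_
    by_cases hi : i ≤ a
    · rw [if_pos hi, if_pos (hi.trans hab)]
    · rw [if_neg hi]
      split <;> simp [hn i]
  · rw [hcum]
    exact Finset.sum_nonneg fun i _ => by split <;> simp [hn i]

theorem twoV_spin (hv : Dirn dl v e) (h : Margin dl m q c ε) (j : Fin (r + 1)) :
    twoV m (fInc q c) (fRest q c) (spinW' dl e v) (spinT' dl e v) (spinT' dl e v) j =
      chainSlope m (rpath dl v m q c) j := by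
  obtain ⟨E⟩ := exists_eig hv
  rw [← twoV_rot (rot_rotF E)]
  have hs := leaf_ok h.path (edgeF_lt hv h E)
  have hp : ∀ z, 0 < spinW' dl e v (E.rotF.mulVec z) := fun z => by
    rw [spinW'_rot]; exact Real.exp_pos _
  have hi : leafI (fun z => spinW' dl e v (E.rotF.mulVec z)) (fun z => spinT' dl e v (E.rotF.mulVec z))
      (fRest q c) = fun x => Real.tanh (∑ i, wD (slopeF E) (coupF E) (bK m q c 0) i * x i) := by
    rw [leafI_eq hp, fRest_eq (m := m),
      show (fun x => Real.log (spinW' dl e v (E.rotF.mulVec x))) = _ from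
        funext fun x => by rw [spinW'_rot, Real.log_exp],
      show (fun z => spinT' dl e v (E.rotF.mulVec z)) = _ from funext (spinT'_rot E),
      istep_ridge hs lip1_lch measurable_tanh, insStep_tanh hs.svar_nonneg]
  rw [twoV_ridge (d := fInc q c) (dg_levels h.path (edgeF_lt hv h E)) lip1_lch (leaf_spin hv h E)
    measurable_tanh measurable_tanh hi hi, show dsc (slopeF E) (coupF E) (fInc q c) (bK m q c) =
      incr (rpath dl v m q c) from (dsc_eq hv h E).1]
  rfl

/-- The leaf of a function of one probe. -/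
lemma leafI_probe (hv : Dirn dl v e) (h : Margin dl m q c ε) (E : Eig dl v e) {g' : ℝ → ℝ}
    (hg' : EG g') (l : Slot e) :
    leafI (fun z => spinW' dl e v (E.rotF.mulVec z)) (fun z => g' (E.rotF.mulVec z (Sum.inr l)))
        (fRest q c) = fun x =>
      heat g' (vinc (slopeF E) (bK m q c 0) 0 (bK m q c 0) (Sum.inr l))
        (x (Sum.inr l) / (1 - bK m q c 0 * slopeF E (Sum.inr l))) := by
  have hs := leaf_ok h.path (edgeF_lt hv h E)
  have hw : coupF E (Sum.inr l) = 0 := rfl
  set L := slopeF E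
  have hp : ∀ z, 0 < spinW' dl e v (E.rotF.mulVec z) := fun z => by
    rw [spinW'_rot]; exact Real.exp_pos _
  rw [leafI_eq hp, fRest_eq (m := m),
    show (fun x => Real.log (spinW' dl e v (E.rotF.mulVec x))) = _ from
      funext fun x => by rw [spinW'_rot, Real.log_exp],
    show (fun z : Fld e → ℝ => g' (E.rotF.mulVec z (Sum.inr l))) =
      fun z => g' (z (Sum.inr l) / (1 - 0 * L (Sum.inr l))) from
      funext fun z => by rw [E.rotF_inr, zero_mul, sub_zero, div_one],
    istep_coord hs lip1_lch hg'.1 hw]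

/-- Insertions of a function of one probe. -/
lemma twoV_probe_fun (hv : Dirn dl v e) (h : Margin dl m q c ε) (l : Slot e)
    (j : Fin (r + 1)) :
    ∃ S, 0 ≤ S ∧ S ≤ c / ε ^ 2 ∧ 0 ≤ tilt m q c (dl l.1) j ∧ tilt m q c (dl l.1) j ≤ c / ε ^ 2 ∧
      (∀ g' : ℝ → ℝ, EG g' → twoV m (fInc q c) (fRest q c) (spinW' dl e v) (fun z => g' (z (Sum.inr l)))
          (fun z => g' (z (Sum.inr l))) j =
        heat (fun x => heat g' S x * heat g' S x) (tilt m q c (dl l.1) j) 0) := by
  obtain ⟨E⟩ := exists_eig hv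
  set L := slopeF E
  set d : Fin (r + 1) → ℝ := fun j => c * incr q j
  set V := vsc L d (bK m q c) (Sum.inr l)
  obtain ⟨h1, h2, h3⟩ := vinc_total h.path h.pos.2 (edgeF hv h E) (h.eps_le hv) (Sum.inr l)
  have hs := leaf_ok h.path (edgeF_lt hv h E)
  have ht : (∑ i, if i ≤ j then V i else 0) = tilt m q c (dl l.1) j := vsc_sum h.path L (Sum.inr l) j
  refine ⟨vinc L (bK m q c 0) 0 (bK m q c 0) (Sum.inr l) + lsum V (r - j),
    add_nonneg h1 (lsum_nonneg h2 _),
    le_trans (add_le_add le_rfl (lsum_le h2 _)) h3, ?_, ?_, fun g' hg' => ?_⟩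
  · rw [← ht]
    exact Finset.sum_nonneg fun i _ => by split <;> simp [h2 i, V, L, d]
  · rw [← ht]
    refine le_trans (Finset.sum_le_sum fun i _ => ?_) ((le_add_of_nonneg_left h1).trans h3)
    split
    · exact le_rfl
    · exact h2 i
  have hw : coupF E (Sum.inr l) = 0 := rfl
  have hi := leafI_probe hv h E hg' l
  rw [← twoV_rot (rot_rotF E), twoV_coord (d := fInc q c) (dg_levels h.path (edgeF_lt hv h E))
    lip1_lch (leaf_spin hv h E) (hg'.heat _) (hg'.heat _) hw hi hi, ← ht]
  rw [show vsc (slopeF E) (fInc q c) (bK m q c) (Sum.inr l) = V from rfl,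
    show heat (heat g' (vinc L (bK m q c 0) 0 (bK m q c 0) (Sum.inr l))) (lsum V (r - j)) =
      heat g' (vinc L (bK m q c 0) 0 (bK m q c 0) (Sum.inr l) + lsum V (r - j)) from
      funext fun x => heat_heat hg' h1 (lsum_nonneg h2 _) x]

lemma eg_id : EG fun x : ℝ => x :=
  ⟨measurable_id, 1, 1, zero_le_one, fun v => by
    rw [one_mul, one_mul]; linarith [Real.add_one_le_exp |v|]⟩

lemma heat_lin (s x : ℝ) : heat (fun u => u) s x = x := by
  simp only [heat]
  have hi : Integrable (fun z : ℝ => Real.sqrt s * z) (gaussianReal 0 1) :=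
    (IsGaussian.integrable_id (μ := gaussianReal 0 1)).const_mul _
  rw [integral_add (integrable_const x) hi, integral_const_mul, integral_id_gaussianReal]
  simp

lemma heat_sq {s : ℝ} (hs : 0 ≤ s) (x : ℝ) :
    Integrable (fun z => (x + Real.sqrt s * z) ^ 2) (gaussianReal 0 1) ∧
      heat (fun u => u ^ 2) s x = x ^ 2 + s := by
  have j1 : Integrable (fun z : ℝ => 2 * x * (Real.sqrt s * z)) (gaussianReal 0 1) :=
    ((IsGaussian.integrable_id (μ := gaussianReal 0 1)).const_mul _).const_mul _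
  have j2 := P166N.integrable_sq_gauss.const_mul s
  simp only [heat, add_sq, mul_pow, Real.sq_sqrt hs]
  refine ⟨((integrable_const _).add j1).add j2, ?_⟩
  rw [integral_add ((integrable_const (x ^ 2)).fun_add j1) j2, integral_add (integrable_const _) j1,
    integral_const_mul, integral_const_mul, integral_const_mul, P166N.integral_sq_gauss,
    integral_id_gaussianReal]
  simp

theorem twoV_probe (hv : Dirn dl v e) (h : Margin dl m q c ε) (l : Slot e) (j : Fin (r + 1)) :
    twoV m (fInc q c) (fRest q c) (spinW' dl e v) (fun z => z (Sum.inr l))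
      (fun z => z (Sum.inr l)) j = tilt m q c (dl l.1) j := by
  obtain ⟨S, -, -, ht, -, hS⟩ := twoV_probe_fun hv h l j
  rw [hS _ eg_id]
  simp only [heat_lin, ← pow_two]
  rw [(heat_sq ht 0).2]
  simp

/-- Clipping a probe costs little. -/
theorem twoV_probe_clip (dl : κ → ℝ) (e : κ) {cmax ε : ℝ} (hε : 0 < ε) :
    ∃ C, ∀ (r : ℕ) (m q : Fin (r + 1) → ℝ) (c : ℝ) (v : κ → ℝ), Dirn dl v e → Margin dl m q c ε →
      c ≤ cmax → ∀ (l : Slot e) (j : Fin (r + 1)) (R : ℝ), 0 < R →
        |twoV m (fInc q c) (fRest q c) (spinW' dl e v) (fun z => z (Sum.inr l))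
            (fun z => z (Sum.inr l)) j -
          twoV m (fInc q c) (fRest q c) (spinW' dl e v) (fun z => max (-R) (min R (z (Sum.inr l))))
            (fun z => max (-R) (min R (z (Sum.inr l)))) j| ≤ C / R := by
  set K := cmax / ε ^ 2
  set M4 := ∫ z, z ^ 4 ∂gaussianReal 0 1
  refine ⟨4 * (1 + K) ^ 2 + 4 * K ^ 2 * M4, fun r m q c v hv h hc l j R hR => ?_⟩
  set f : ℝ → ℝ := fun x => max (-R) (min R x)
  have hf : EG f := by
    refine ⟨by fun_prop, R, 0, le_rfl, fun x => ?_⟩
    rw [zero_mul, Real.exp_zero, mul_one, abs_le]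
    exact ⟨le_max_left _ _, max_le (by linarith) (min_le_left _ _)⟩
  obtain ⟨S, hS0, hSK, hT0, hTK, hS⟩ := twoV_probe_fun hv h l j
  rw [hS _ eg_id, hS _ hf]
  set T := tilt m q c (dl l.1) j
  have hcK : c / ε ^ 2 ≤ K := div_le_div_of_nonneg_right hc (by positivity)
  simp only [heat_lin]
  set G := fun x => heat f S x * heat f S x
  have hd : ∀ x, |x * x - G x| ≤ (4 * (1 + K) ^ 2 + 4 * x ^ 4) / R := fun x => by
    obtain ⟨hi2, he2⟩ := heat_sq hS0 x
    have hle : ∀ u, |u - f u| ≤ u ^ 2 / R ∧ |f u| ≤ |u| := fun u => by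
      simp only [f]
      rw [le_div_iff₀ hR]
      rcases le_total u R with h1 | h1
      · rcases le_total (-R) u with h2 | h2
        · rw [min_eq_right h1, max_eq_right h2, sub_self, abs_zero, zero_mul]
          exact ⟨sq_nonneg u, le_rfl⟩
        · rw [min_eq_right h1, max_eq_left h2, abs_of_nonpos (by linarith : u - -R ≤ 0),
            abs_of_nonpos (by linarith : u ≤ 0), abs_of_nonpos (by linarith : -R ≤ 0)]
          exact ⟨by nlinarith, by linarith⟩
      · rw [min_eq_left h1, max_eq_right (by linarith), abs_of_nonneg (by linarith : 0 ≤ u - R),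
          abs_of_pos hR, abs_of_nonneg (by linarith : 0 ≤ u)]
        exact ⟨by nlinarith, h1⟩
    have e1 : |x - heat f S x| ≤ (x ^ 2 + S) / R := by
      nth_rw 1 [← heat_lin S x]
      simp only [heat]
      rw [← integral_sub (eg_id.integrable x _) (hf.integrable x _), ← he2, heat, ← integral_div]
      exact abs_integral_le_integral_abs.trans (integral_mono
        ((eg_id.integrable x _).sub (hf.integrable x _)).abs (hi2.div_const R) fun z => (hle _).1)
    have e2 : |heat f S x| ≤ 1 + (x ^ 2 + S) := by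
      rw [← he2, heat, heat]
      refine abs_integral_le_integral_abs.trans ((integral_mono (hf.integrable x _).abs
        ((integrable_const 1).add hi2) fun z => ?_).trans ?_)
      · simp only [Pi.add_apply]
        nlinarith [(hle (x + Real.sqrt S * z)).2, sq_abs (x + Real.sqrt S * z),
          sq_nonneg (|x + Real.sqrt S * z| - 1)]
      · simp only [Pi.add_apply]
        rw [integral_add (integrable_const 1) hi2]
        simp
    have e3 : |x + heat f S x| ≤ 2 * (1 + (x ^ 2 + S)) := by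
      refine (abs_add_le _ _).trans ?_
      nlinarith [sq_abs x, sq_nonneg (|x| - 1)]
    simp only [G]
    rw [show x * x - heat f S x * heat f S x = (x - heat f S x) * (x + heat f S x) by ring, abs_mul]
    refine (mul_le_mul e1 e3 (abs_nonneg _) (div_nonneg (by positivity) hR.le)).trans ?_
    rw [div_mul_eq_mul_div]
    refine div_le_div_of_nonneg_right ?_ hR.le
    nlinarith [mul_nonneg hS0 (sq_nonneg x), sq_nonneg (x ^ 2 - (1 + S)),
      mul_le_mul (show 1 + S ≤ 1 + K by linarith) (show 1 + S ≤ 1 + K by linarith) (by linarith)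
        (by linarith)]
  have hp4 : Integrable (fun z : ℝ => z ^ 4) (gaussianReal 0 1) :=
    ((IsGaussian.memLp_id (gaussianReal 0 1) (4 : ℕ) (by simp)).integrable_norm_pow').congr
      (Eventually.of_forall fun z => by simp [Even.pow_abs (by decide : Even 4)])
  have e4 : ∀ z, (0 + Real.sqrt T * z) ^ 4 = T ^ 2 * z ^ 4 := fun z => by
    rw [zero_add, mul_pow, show Real.sqrt T ^ 4 = (Real.sqrt T ^ 2) ^ 2 by ring, Real.sq_sqrt hT0]
  simp only [heat]
  rw [← integral_sub ((eg_id.mul eg_id).integrable _ _) (((hf.heat S).mul (hf.heat S)).integrable _ _)]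
  have hmaj : Integrable (fun z => (4 * (1 + K) ^ 2 + 4 * (T ^ 2 * z ^ 4)) / R) (gaussianReal 0 1) :=
    ((integrable_const _).add ((hp4.const_mul _).const_mul 4)).div_const R
  refine abs_integral_le_integral_abs.trans ((integral_mono_of_nonneg
    (Eventually.of_forall fun z => abs_nonneg _) hmaj (Eventually.of_forall fun z =>
      (hd _).trans_eq (by rw [e4]))).trans ?_)
  rw [integral_div, integral_add (integrable_const _) ((hp4.const_mul _).const_mul 4), integral_const,
    integral_const_mul, integral_const_mul, show ∫ z, z ^ 4 ∂gaussianReal 0 1 = M4 from rfl]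
  simp only [probReal_univ, one_smul]
  refine div_le_div_of_nonneg_right ?_ hR.le
  have hM : 0 ≤ M4 := integral_nonneg fun z => by positivity
  nlinarith [mul_le_mul_of_nonneg_right (pow_le_pow_left₀ hT0 (hTK.trans hcK) 2) hM]

/-- A bound on the energies. -/
noncomputable def qbd (dl : κ → ℝ) {e : κ} (z : Fld e → ℝ) : ℝ := (∑ k, dl k) * (1 + ∑ i, z i ^ 2)

omit [DecidableEq κ] in
lemma dl_le (hv : Dirn dl v e) (k : κ) : dl k ≤ ∑ j, dl j :=
  Finset.single_le_sum (fun j _ => hv.slope j) (Finset.mem_univ k)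

lemma spinQ_bound (hv : Dirn dl v e) (E : Eig dl v e) (z : Fld e → ℝ) {s : ℝ} (hs : s ^ 2 = 1) :
    0 ≤ spinQ dl e v (E.rotF.mulVec z) s ∧ spinQ dl e v (E.rotF.mulVec z) s ≤ qbd dl z := by
  set Λ := ∑ k, dl k
  set a : Slot e → ℝ := fun i => z (Sum.inl i)
  set y := frame e v (fill e (E.rotF.mulVec z) s)
  have hy : ∑ j, y j ^ 2 = 1 + ∑ i, a i ^ 2 := by
    simp only [pow_two, y, frame_inner]
    rw [Fintype.sum_eq_add_sum_subtype_ne _ e]
    have hUa : ∑ i : Slot e, (E.U.mulVec a) i * (E.U.mulVec a) i = ∑ i, a i * a i := by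
      show dotProduct (E.U.mulVec a) (E.U.mulVec a) = dotProduct a a
      rw [Matrix.dotProduct_mulVec, ← Matrix.mulVec_transpose, Matrix.mulVec_mulVec, E.orthU,
        Matrix.one_mulVec]
    rw [← hUa]
    congr 1
    · simp [fill, ← pow_two, hs]
    · exact Finset.sum_congr rfl fun i _ => by simp [fill, i.2, E.rotF_inl, a]
  have hp : probeQ dl e (E.rotF.mulVec z) ≤ Λ * (∑ i, z (Sum.inr i) ^ 2) / 2 := by
    simp only [probeQ, E.rotF_inr, Finset.mul_sum]
    exact div_le_div_of_nonneg_right (Finset.sum_le_sum fun i _ =>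
      mul_le_mul_of_nonneg_right (dl_le hv _) (sq_nonneg _)) (by norm_num)
  have hsum : ∑ j, dl j * y j ^ 2 ≤ Λ * (1 + ∑ i, a i ^ 2) := by
    rw [← hy, Finset.mul_sum]
    exact Finset.sum_le_sum fun i _ => mul_le_mul_of_nonneg_right (dl_le hv _) (sq_nonneg _)
  have hpos : 0 ≤ probeQ dl e (E.rotF.mulVec z) := div_nonneg
    (Finset.sum_nonneg fun i _ => mul_nonneg (hv.slope _) (sq_nonneg _)) (by norm_num)
  have hnn : 0 ≤ ∑ j, dl j * y j ^ 2 :=
    Finset.sum_nonneg fun i _ => mul_nonneg (hv.slope _) (sq_nonneg _)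
  refine ⟨add_nonneg (div_nonneg hnn (by norm_num)) hpos, ?_⟩
  have hΛ : 0 ≤ Λ := Finset.sum_nonneg fun i _ => hv.slope i
  simp only [qbd, Fintype.sum_sum_type, spinQ]
  nlinarith [mul_nonneg hΛ (Finset.sum_nonneg fun i (_ : i ∈ Finset.univ) => sq_nonneg (a i)),
    mul_nonneg hΛ (Finset.sum_nonneg fun i (_ : i ∈ Finset.univ) => sq_nonneg (z (Sum.inr i))), hΛ]

omit [Fintype κ] [DecidableEq κ] in
lemma cap_exp {Q B L : ℝ} (hL : 0 < L) (h0 : 0 ≤ Q) (hB : Q ≤ B) :
    Real.exp Q ≤ Real.exp (min Q L) * Real.exp (B ^ 2 / L) := by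
  rw [← Real.exp_add, Real.exp_le_exp]
  rcases le_total Q L with h | h
  · rw [min_eq_left h]; linarith [div_nonneg (sq_nonneg B) hL.le]
  · rw [min_eq_right h]
    have : Q ≤ B ^ 2 / L := by rw [le_div_iff₀ hL]; nlinarith
    linarith

lemma qbd_esum (dl : κ → ℝ) {e : κ} (lam : Fld e → ℝ) {L : ℝ} (hL : 0 < L) (z : Fld e → ℝ) :
    qbd dl z ^ 2 / L ≤
      esum lam (24 * (∑ k, dl k) ^ 2 * ((Fintype.card (Fld e) : ℝ) + 1) / L) 0 (fun _ => 0) z := by
  set N := (Fintype.card (Fld e) : ℝ)
  simp only [esum, zero_mul, sub_zero, div_one, add_zero]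
  rw [div_mul_eq_mul_div]
  refine div_le_div_of_nonneg_right ?_ hL.le
  have h1 := sq_sum_le_card_mul_sum_sq (s := (Finset.univ : Finset (Fld e))) (f := fun i => z i ^ 2)
  rw [Finset.card_univ] at h1
  have h2 : ∑ i, (z i ^ 2) ^ 2 ≤ 24 * ∑ i, (Real.exp (z i) + Real.exp (-z i)) := by
    rw [Finset.mul_sum]
    exact Finset.sum_le_sum fun i _ => by rw [← pow_mul]; exact pow_four_le_exp (z i)
  have h3 : (1 + ∑ i, z i ^ 2) ^ 2 ≤ (N + 1) * (1 + ∑ i, (z i ^ 2) ^ 2) := by
    have hS : 0 ≤ ∑ i, (z i ^ 2) ^ 2 := Finset.sum_nonneg fun i _ => sq_nonneg _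
    have hN : 0 ≤ N := Nat.cast_nonneg _
    set X := ∑ i, z i ^ 2
    set Y := ∑ i, (z i ^ 2) ^ 2
    have : X ^ 2 ≤ N * Y := h1
    rcases hN.eq_or_lt with h0 | h0
    · have hX : X = 0 := by nlinarith [sq_nonneg X]
      rw [hX, ← h0]; linarith
    · nlinarith [sq_nonneg (X - N), mul_pos h0 h0]
  rw [qbd, mul_pow]
  have h4 : (1 + ∑ i, z i ^ 2) ^ 2 ≤ (N + 1) * (24 * (1 + ∑ i, (Real.exp (z i) + Real.exp (-z i)))) :=
    h3.trans (mul_le_mul_of_nonneg_left (by linarith) (by positivity))
  refine (mul_le_mul_of_nonneg_left h4 (sq_nonneg _)).trans_eq ?_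
  ring

omit [Fintype κ] [DecidableEq κ] in
lemma log_le_of_le_mul {a b x : ℝ} (hb : 0 < b) (ha : 0 < a) (h : a ≤ b * Real.exp x) :
    Real.log a - Real.log b ≤ x := by
  have := Real.log_le_log ha h
  rw [Real.log_mul hb.ne' (Real.exp_pos _).ne', Real.log_exp] at this
  linarith

/-- The truncated spin weights lie below the untruncated one. -/
lemma spinW_range (hv : Dirn dl v e) (E : Eig dl v e) {L : ℝ} (hL : 0 < L) :
    (Measurable fun z => spinW dl e v L (E.rotF.mulVec z)) ∧
      (Measurable fun z => spinT dl e v L (E.rotF.mulVec z)) ∧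
      ∀ z, 1 ≤ spinW dl e v L (E.rotF.mulVec z) ∧
        spinW dl e v L (E.rotF.mulVec z) ≤ spinW' dl e v (E.rotF.mulVec z) ∧
        |spinT dl e v L (E.rotF.mulVec z)| ≤ 1 := by
  have hQ : ∀ s, Measurable fun z : Fld e → ℝ => spinQ dl e v (E.rotF.mulVec z) s := fun s => by
    simp only [E.spinQ_rot, probeQ]
    fun_prop
  refine ⟨(((hQ 1).min measurable_const).exp.add ((hQ (-1)).min measurable_const).exp).div_const 2,
    (((hQ 1).min measurable_const).exp.sub ((hQ (-1)).min measurable_const).exp).div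
      (((hQ 1).min measurable_const).exp.add ((hQ (-1)).min measurable_const).exp), fun z => ?_⟩
  obtain ⟨a0, -⟩ := spinQ_bound hv E z (s := 1) (by norm_num)
  obtain ⟨b0, -⟩ := spinQ_bound hv E z (s := -1) (by norm_num)
  have ea := Real.one_le_exp (le_min a0 hL.le)
  have eb := Real.one_le_exp (le_min b0 hL.le)
  refine ⟨by simp only [spinW]; linarith, by
    simp only [spinW, spinW']
    linarith [Real.exp_le_exp.2 (min_le_left (spinQ dl e v (E.rotF.mulVec z) 1) L),
      Real.exp_le_exp.2 (min_le_left (spinQ dl e v (E.rotF.mulVec z) (-1)) L)], ?_⟩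
  rw [spinT, abs_div, abs_of_pos (by linarith : (0 : ℝ) < _ + _), div_le_one (by linarith), abs_le]
  constructor <;> linarith

/-- The truncation is uniformly negligible away from the edge. -/
theorem valV_trunc (dl : κ → ℝ) (e : κ) {cmax ε : ℝ} (hε : 0 < ε) :
    ∃ C, ∀ (r : ℕ) (m q : Fin (r + 1) → ℝ) (c : ℝ) (v : κ → ℝ), Dirn dl v e → Margin dl m q c ε →
      c ≤ cmax → ∀ L : ℝ, 0 < L →
        |valV m (fInc q c) (fRest q c) (spinW' dl e v) -
            valV m (fInc q c) (fRest q c) (spinW dl e v L)| ≤ C / L ∧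
        ∀ k, valV m (fInc q c) (fRest q c) (delW dl e k L) ≤
            valV m (fInc q c) (fRest q c) (delW' dl e k) := by
  set Λ := ∑ k, dl k
  set N := (Fintype.card (Fld e) : ℝ)
  refine ⟨24 * Λ ^ 2 * (N + 1) * (1 + N * (2 * Real.exp ((1 / 2 + Λ) * (cmax / ε ^ 2)))),
    fun r m q c v hv h hc L hL => ?_⟩
  have hC : 0 ≤ 24 * Λ ^ 2 * (N + 1) / L := by positivity
  rw [fRest_eq (m := m)]
  constructor
  · obtain ⟨E⟩ := exists_eig hv
    rw [← valV_rot (rot_rotF E) _ _ _ (spinW' dl e v), ← valV_rot (rot_rotF E) _ _ _ (spinW dl e v L)]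
    obtain ⟨hm, -, hrg⟩ := spinW_range hv E hL
    obtain ⟨hle, hgap⟩ := valV_gap_ridge (d := fInc q c) (w := coupF E)
      (A := (∑ k, dl k * v k ^ 2) / 2) (dg_levels h.path (edgeF_lt hv h E))
      (leaf_ok h.path (edgeF_lt hv h E)) lip1_lch (spinW'_rot E) hm
      (fun x => ⟨(hrg x).1, (hrg x).2.1⟩) hC (fun z => by
        refine le_trans ?_ (qbd_esum dl _ hL z)
        refine log_le_of_le_mul (lt_of_lt_of_le one_pos (hrg z).1)
          (lt_of_lt_of_le one_pos ((hrg z).1.trans (hrg z).2.1)) ?_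
        simp only [spinW, spinW']
        obtain ⟨a0, a1⟩ := spinQ_bound hv E z (s := 1) (by norm_num)
        obtain ⟨b0, b1⟩ := spinQ_bound hv E z (s := -1) (by norm_num)
        linarith [cap_exp hL a0 a1, cap_exp hL b0 b1])
    rw [abs_of_nonneg (sub_nonneg.2 hle)]
    refine hgap.trans ((esum_root_le (W := Λ) h.path hε (h.eps_le hv) (edgeF hv h E) hc ?_ hC).trans_eq ?_)
    · rintro (i | i)
      · exact E.abs_w_le hv i
      · simp only [coupF, Sum.elim_inr, abs_zero]
        exact Finset.sum_nonneg fun k _ => hv.slope k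
    · simp only [N, Λ]
      ring
  · intro k
    set W : Fld e → ℝ := Sum.elim (fun j => if j.1 = k then 0 else dl j.1) fun j => dl j.1
    have hl : ∀ n ≤ r + 1, ∀ i, bK m q c n * W i < 1 := by
      rintro n hn (i | i)
      · simp only [W, Sum.elim_inl]
        split
        · rw [mul_zero]; exact one_pos
        · exact edge_dl_lt hv h hn i.1
      · exact edge_dl_lt hv h hn i.1
    have hW : ∀ z, delW' dl e k z = Real.exp (ridge W (fun _ => 0) 0 0 (fun _ => 0) z) := fun z => by
      simp [delW', delQ, probeQ, ridge, quad, W, Fintype.sum_sum_type, ite_mul, add_div]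
    have hQ : ∀ z, 0 ≤ delQ dl e k z ∧ delQ dl e k z ≤ qbd dl z := fun z => by
      have hΛ : 0 ≤ Λ := Finset.sum_nonneg fun i _ => hv.slope i
      have h1 : ∀ j : Slot e, 0 ≤ (if j.1 = k then 0 else dl j.1 * z (Sum.inl j) ^ 2) ∧
          (if j.1 = k then 0 else dl j.1 * z (Sum.inl j) ^ 2) ≤ Λ * z (Sum.inl j) ^ 2 := fun j => by
        split
        · exact ⟨le_rfl, by positivity⟩
        · exact ⟨mul_nonneg (hv.slope _) (sq_nonneg _),
            mul_le_mul_of_nonneg_right (dl_le hv _) (sq_nonneg _)⟩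
      have h2 : ∀ j : Slot e, 0 ≤ dl j.1 * z (Sum.inr j) ^ 2 ∧
          dl j.1 * z (Sum.inr j) ^ 2 ≤ Λ * z (Sum.inr j) ^ 2 := fun j =>
        ⟨mul_nonneg (hv.slope _) (sq_nonneg _), mul_le_mul_of_nonneg_right (dl_le hv _) (sq_nonneg _)⟩
      have s1 := Finset.sum_le_sum fun j (_ : j ∈ Finset.univ) => (h1 j).2
      have s2 := Finset.sum_le_sum fun j (_ : j ∈ Finset.univ) => (h2 j).2
      have p1 := Finset.sum_nonneg fun j (_ : j ∈ Finset.univ) => (h1 j).1
      have p2 := Finset.sum_nonneg fun j (_ : j ∈ Finset.univ) => (h2 j).1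
      rw [← Finset.mul_sum] at s1 s2
      simp only [delQ, probeQ, qbd, Fintype.sum_sum_type]
      exact ⟨by linarith, by nlinarith⟩
    have hm : Measurable (delW dl e k L) := by
      have : Measurable (delQ dl e k) := by
        refine ((Finset.measurable_sum _ fun j _ => ?_).div_const 2).add (by unfold probeQ; fun_prop)
        split <;> fun_prop
      exact (this.min measurable_const).exp
    exact (valV_gap_ridge (d := fInc q c) (w := fun _ => 0) (A := 0) (dg_levels h.path hl)
      (leaf_ok h.path hl) lip1_zero hW hm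
      (fun z => ⟨Real.one_le_exp (le_min (hQ z).1 hL.le), Real.exp_le_exp.2 (min_le_left _ _)⟩) hC
      (fun z => (log_le_of_le_mul (Real.exp_pos _) (Real.exp_pos _)
        (cap_exp hL (hQ z).1 (hQ z).2)).trans (qbd_esum dl _ hL z))).1

lemma eventually_spinW (E : Eig dl v e) (z : Fld e → ℝ) :
    ∀ᶠ L in atTop, spinW dl e v L (E.rotF.mulVec z) = spinW' dl e v (E.rotF.mulVec z) ∧
      spinT dl e v L (E.rotF.mulVec z) = spinT' dl e v (E.rotF.mulVec z) := by
  filter_upwards [eventually_ge_atTop (spinQ dl e v (E.rotF.mulVec z) 1),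
    eventually_ge_atTop (spinQ dl e v (E.rotF.mulVec z) (-1))] with L h1 h2
  simp only [spinW, spinW', spinT, spinT', min_eq_left h1, min_eq_left h2, and_self]

theorem tendsto_twoV_trunc (hv : Dirn dl v e) (h : Margin dl m q c ε)
    {θ : (Fld e → ℝ) → ℝ} (hθ : BCV θ) (j : Fin (r + 1)) :
    Tendsto (fun L => twoV m (fInc q c) (fRest q c) (spinW dl e v L) θ θ j) atTop
      (𝓝 (twoV m (fInc q c) (fRest q c) (spinW' dl e v) θ θ j)) := by
  obtain ⟨E⟩ := exists_eig hv
  obtain ⟨hc, B, hB⟩ := hθ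
  rw [fRest_eq (m := m), ← twoV_rot (rot_rotF E) _ _ _ (spinW' dl e v)]
  refine Tendsto.congr (fun L => twoV_rot (rot_rotF E) _ _ _ (spinW dl e v L) θ θ j) ?_
  refine twoV_conv (d := fInc q c) (dg_levels h.path (edgeF_lt hv h E))
    (leaf_ok h.path (edgeF_lt hv h E)) lip1_lch (spinW'_rot E)
    (θ := fun _ z => θ (E.rotF.mulVec z)) (B := B) ?_ (fun z => ⟨?_, tendsto_const_nhds⟩) j
  · filter_upwards [eventually_gt_atTop 0] with L hL
    obtain ⟨hm, -, hrg⟩ := spinW_range hv E hL
    exact ⟨hm, hc.measurable.comp (rot_rotF E).mp.measurable,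
      fun x => ⟨(hrg x).1, (hrg x).2.1, hB _⟩⟩
  · exact tendsto_const_nhds.congr' ((eventually_spinW E z).mono fun L hL => hL.1.symm)

theorem tendsto_twoV_spinT (hv : Dirn dl v e) (h : Margin dl m q c ε) (j : Fin (r + 1)) :
    Tendsto (fun L => twoV m (fInc q c) (fRest q c) (spinW dl e v L) (spinT dl e v L)
      (spinT dl e v L) j) atTop (𝓝 (chainSlope m (rpath dl v m q c) j)) := by
  rw [← twoV_spin hv h j]
  obtain ⟨E⟩ := exists_eig hv
  rw [fRest_eq (m := m), ← twoV_rot (rot_rotF E) _ _ _ (spinW' dl e v)]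
  refine Tendsto.congr
    (fun L => twoV_rot (rot_rotF E) _ _ _ (spinW dl e v L) (spinT dl e v L) (spinT dl e v L) j) ?_
  refine twoV_conv (d := fInc q c) (dg_levels h.path (edgeF_lt hv h E))
    (leaf_ok h.path (edgeF_lt hv h E)) lip1_lch (spinW'_rot E)
    (θ := fun L z => spinT dl e v L (E.rotF.mulVec z)) (B := 1) ?_ (fun z => ⟨?_, ?_⟩) j
  · filter_upwards [eventually_gt_atTop 0] with L hL
    obtain ⟨hm, hT, hrg⟩ := spinW_range hv E hL
    exact ⟨hm, hT, hrg⟩
  · exact tendsto_const_nhds.congr' ((eventually_spinW E z).mono fun L hL => hL.1.symm)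
  · exact tendsto_const_nhds.congr' ((eventually_spinW E z).mono fun L hL => hL.2.symm)

/-- The self-overlap of a clipped probe. -/
theorem oneV_probe_sq (dl : κ → ℝ) (e : κ) {cmax ε : ℝ} (hε : 0 < ε) :
    ∃ C, ∀ (r : ℕ) (m q : Fin (r + 1) → ℝ) (c : ℝ) (v : κ → ℝ), Dirn dl v e → Margin dl m q c ε →
      c ≤ cmax → ∀ (l : Slot e) (R : ℝ), 0 < R →
        |tilt m q c (dl l.1) (Fin.last r) +
              c * (1 - q (Fin.last r)) / (1 - dl l.1 * below m q c (Fin.last r)) -
            oneV m (fInc q c) (fRest q c) (spinW' dl e v) (fun z => min R (z (Sum.inr l) ^ 2))| ≤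
          C / R := by
  set M4 := ∫ z, z ^ 4 ∂gaussianReal 0 1
  refine ⟨(cmax / ε ^ 2) ^ 2 * M4, fun r m q c v hv h hc l R hR => ?_⟩
  obtain ⟨E⟩ := exists_eig hv
  set g : ℝ → ℝ := fun x => min R (x ^ 2)
  have hg : EG g := by
    refine ⟨by fun_prop, R, 0, le_rfl, fun x => ?_⟩
    rw [zero_mul, Real.exp_zero, mul_one, abs_of_nonneg (le_min hR.le (sq_nonneg x))]
    exact min_le_left _ _
  set d : Fin (r + 1) → ℝ := fun j => c * incr q j
  set V := vsc (slopeF E) d (bK m q c) (Sum.inr l)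
  obtain ⟨h1, h2, h3⟩ := vinc_total h.path hε (edgeF hv h E) (h.eps_le hv) (Sum.inr l)
  set v0 := vinc (slopeF E) (bK m q c 0) 0 (bK m q c 0) (Sum.inr l) with hv0
  have hS : 0 ≤ v0 + ∑ j, V j := add_nonneg h1 (Finset.sum_nonneg fun j _ => h2 j)
  have e1 : tilt m q c (dl l.1) (Fin.last r) +
      c * (1 - q (Fin.last r)) / (1 - dl l.1 * below m q c (Fin.last r)) = v0 + ∑ j, V j := by
    rw [add_comm]
    congr 1
    · rw [hv0, show below m q c (Fin.last r) = bK m q c 0 by rw [← bK_back (Fin.last r)]; simp,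
        ← bK_zero (m := m)]
      simp [vinc, slopeF, mul_comm]
    · refine (vsc_sum h.path (slopeF E) (Sum.inr l) (Fin.last r)).symm.trans ?_
      exact Finset.sum_congr rfl fun i _ => if_pos (Fin.le_last i)
  have e2 : oneV m (fInc q c) (fRest q c) (spinW' dl e v) (fun z => g (z (Sum.inr l))) =
      heat g (v0 + ∑ j, V j) 0 := by
    have hr : oneV m (fInc q c) (fRest q c) (fun z => spinW' dl e v (E.rotF.mulVec z))
        (fun z => g (E.rotF.mulVec z (Sum.inr l))) =
        oneV m (fInc q c) (fRest q c) (spinW' dl e v) (fun z => g (z (Sum.inr l))) := by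
      simp only [oneV]
      rw [leafU_rot (rot_rotF E) (spinW' dl e v), leafI_rot (rot_rotF E) (spinW' dl e v)
        (fun z => g (z (Sum.inr l))), insV_rot (rot_rotF E)]
      simp only [(rot_rotF E).zero]
    rw [← hr, oneV, leaf_spin hv h E, leafI_probe hv h E hg l,
      (insV_coord (d := fInc q c) (dg_levels h.path (edgeF_lt hv h E)) lip1_lch (hg.heat _)
        (show coupF E (Sum.inr l) = 0 from rfl) (r + 1) le_rfl).1]
    simp only [Pi.zero_apply, zero_div]
    rw [lsum_top, show vsc (slopeF E) (fInc q c) (bK m q c) (Sum.inr l) = V from rfl]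
    exact heat_heat hg h1 (Finset.sum_nonneg fun j _ => h2 j) 0
  rw [e1, e2]
  set S := v0 + ∑ j, V j
  obtain ⟨hi2, he2⟩ := heat_sq hS 0
  rw [zero_pow two_ne_zero, zero_add] at he2
  conv_lhs => enter [1, 1]; rw [← he2]
  simp only [heat]
  rw [← integral_sub hi2 (hg.integrable 0 _)]
  have hp4 : Integrable (fun z : ℝ => z ^ 4) (gaussianReal 0 1) :=
    ((IsGaussian.memLp_id (gaussianReal 0 1) (4 : ℕ) (by simp)).integrable_norm_pow').congr
      (Eventually.of_forall fun z => by simp [Even.pow_abs (by decide : Even 4)])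
  refine abs_integral_le_integral_abs.trans ((integral_mono_of_nonneg
    (Eventually.of_forall fun z => abs_nonneg _) ((hp4.const_mul (S ^ 2)).div_const R)
    (Eventually.of_forall fun z => ?_)).trans ?_)
  · simp only
    rw [show S ^ 2 * z ^ 4 = ((0 + Real.sqrt S * z) ^ 2) ^ 2 by
      rw [zero_add, mul_pow, Real.sq_sqrt hS]; ring]
    set u := (0 + Real.sqrt S * z) ^ 2 with hu
    have hu0 : 0 ≤ u := sq_nonneg _
    simp only [g]
    rw [← hu, le_div_iff₀ hR]
    rcases le_total R u with h4 | h4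
    · rw [min_eq_left h4, abs_of_nonneg (sub_nonneg.2 h4)]; nlinarith
    · rw [min_eq_right h4, sub_self, abs_zero, zero_mul]; positivity
  · rw [integral_div, integral_const_mul]
    refine div_le_div_of_nonneg_right (mul_le_mul_of_nonneg_right
      (pow_le_pow_left₀ hS (h3.trans (div_le_div_of_nonneg_right hc (by positivity))) 2)
      (integral_nonneg fun z => by positivity)) hR.le

theorem tendsto_oneV_trunc (hv : Dirn dl v e) (h : Margin dl m q c ε)
    {θ : (Fld e → ℝ) → ℝ} (hθ : BCV θ) :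
    Tendsto (fun L => oneV m (fInc q c) (fRest q c) (spinW dl e v L) θ) atTop
      (𝓝 (oneV m (fInc q c) (fRest q c) (spinW' dl e v) θ)) := by
  obtain ⟨E⟩ := exists_eig hv
  obtain ⟨hc, B, hB⟩ := hθ
  have hr : ∀ Φ : (Fld e → ℝ) → ℝ, oneV m (fInc q c) (fRest q c)
      (fun z => Φ (E.rotF.mulVec z)) (fun z => θ (E.rotF.mulVec z)) =
      oneV m (fInc q c) (fRest q c) Φ θ := fun Φ => by
    simp only [oneV]
    rw [leafU_rot (rot_rotF E) Φ, leafI_rot (rot_rotF E) Φ θ, insV_rot (rot_rotF E)]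
    simp only [(rot_rotF E).zero]
  rw [← hr (spinW' dl e v)]
  refine Tendsto.congr (fun L => hr (spinW dl e v L)) ?_
  rw [fRest_eq (m := m)]
  refine oneV_conv (d := fInc q c) (dg_levels h.path (edgeF_lt hv h E))
    (leaf_ok h.path (edgeF_lt hv h E)) lip1_lch (spinW'_rot E)
    (θ := fun _ z => θ (E.rotF.mulVec z)) (B := B) ?_ (fun z => ⟨?_, tendsto_const_nhds⟩)
  · filter_upwards [eventually_gt_atTop 0] with L hL
    obtain ⟨hm, -, hrg⟩ := spinW_range hv E hL
    exact ⟨hm, hc.measurable.comp (rot_rotF E).mp.measurable,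
      fun x => ⟨(hrg x).1, (hrg x).2.1, hB _⟩⟩
  · exact tendsto_const_nhds.congr' ((eventually_spinW E z).mono fun L hL => hL.1.symm)

/-- A truncated linear field still sees the variance below the root. -/
theorem valV_cosh (ι : Type) [Fintype ι] [DecidableEq ι] (i : ι) (σ : ℝ) {cmax : ℝ} :
    ∃ C, ∀ (r : ℕ) (m q : Fin (r + 1) → ℝ) (c : ℝ), Levels m → Monotone q → (∀ j, 0 ≤ q j) →
      (∀ j, q j < 1) → 0 < c → c ≤ cmax → ∀ M : ℝ, 1 < M →
        σ ^ 2 * below m q c 0 / 2 - C / Real.log M ≤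
          valV m (fInc q c) (fRest q c) (fun z : ι → ℝ => min (Real.cosh (σ * z i)) M) := by
  set W : ι → ℝ := fun l => if l = i then σ else 0
  refine ⟨2 * σ ^ 2 * (1 + (Fintype.card ι : ℝ) * (2 * Real.exp ((1 / 2 + |σ|) * (cmax / (1 : ℝ) ^ 2)))),
    fun r m q c hm hmo hq0 hq1 hc hcm M hM => ?_⟩
  have hp : OPath m q c := ⟨hm, hmo, hq0, hq1, hc⟩
  set lam : ι → ℝ := fun _ => 0
  have hl : ∀ k ≤ r + 1, ∀ l, bK m q c k * lam l < 1 := fun k _ l => by simp [lam]
  have hdg := dg_levels hp hl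
  have hs := leaf_ok hp hl
  have hlM : 0 < Real.log M := Real.log_pos hM
  set Φ' : (ι → ℝ) → ℝ := fun z => Real.cosh (σ * z i)
  have hΦ' : ∀ z, Φ' z = Real.exp (ridge lam W 0 0 lch z) := fun z => by
    simp [Φ', ridge, quad, wD, W, lam, exp_lch]
  obtain ⟨-, hgap⟩ := valV_gap_ridge (d := fInc q c) (w := W) (A := 0)
    (Φ := fun z => min (Real.cosh (σ * z i)) M) hdg hs lip1_lch hΦ' (by fun_prop)
    (fun z => ⟨le_min (Real.one_le_cosh _) hM.le, min_le_left _ _⟩)
    (C := 2 * σ ^ 2 / Real.log M) (by positivity) (fun z => by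
      simp only [Φ', esum, lam, mul_zero, sub_zero, div_one, add_zero]
      rw [div_mul_eq_mul_div, le_div_iff₀ hlM]
      set a := Real.log (Real.cosh (σ * z i)) with ha
      have ha0 : 0 ≤ a := Real.log_nonneg (Real.one_le_cosh _)
      have hsum : z i ^ 2 ≤ 2 * (1 + ∑ l, (Real.exp (z l) + Real.exp (-z l))) := by
        have := Finset.single_le_sum (f := fun l => Real.exp (z l) + Real.exp (-z l))
          (fun l _ => by positivity) (Finset.mem_univ i)
        linarith [sq_le_exp (z i)]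
      have hax : a * a ≤ σ ^ 2 * z i ^ 2 := by
        have := mul_self_le_mul_self ha0
          ((le_abs_self a).trans (Vale.Agent.P157.abs_log_cosh_le (σ * z i)))
        rwa [abs_mul_abs_self, ← pow_two (σ * z i), mul_pow] at this
      have hσ := mul_le_mul_of_nonneg_left hsum (sq_nonneg σ)
      rcases le_total (Real.cosh (σ * z i)) M with h1 | h1
      · rw [min_eq_left h1, sub_self, zero_mul]
        positivity
      · rw [min_eq_right h1]
        have := Real.log_le_log (by linarith) h1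
        nlinarith)
  have hb := esum_root_le hp (w := W) (W := |σ|) (C := 2 * σ ^ 2 / Real.log M) one_pos le_rfl
    (lam := lam) (fun k _ l => by simp [lam]) hcm
    (fun l => by simp only [W]; split <;> simp) (by positivity)
  have hu := leafU_ridge hs lip1_lch hΦ'
  rw [potStep_lch hs.svar_nonneg, ridge_shift] at hu
  have hval := valV_ridge (d := fInc q c) hdg lip1_lch hu
  have hsv : ∀ t D D', svar lam W t D D' = σ ^ 2 * t := fun t D D' => by
    simp [svar, vinc, W, lam, ite_pow, ite_mul]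
  have hcs : cinc lam 1 (bK m q c 0) 0 (bK m q c 0) + lsum (csc lam m (fInc q c) (bK m q c)) (r + 1) =
      0 := (csc_total hp lam).trans (by simp [lam, tLog, llog])
  have hlow := (potUp_lch_ge (m := m) (τ := dsc lam W (fInc q c) (bK m q c)) hp.m_nonneg
    (fun j => (hm.ltOne j).le) (fun j => by
      simp only [dsc, hsv, fInc]; exact mul_nonneg (sq_nonneg σ) (hp.d_nonneg j)) (r + 1) le_rfl).2 0
  have hB : below m q c 0 = bK m q c 0 + ∑ j, m j * (c * incr q j) := by
    rw [← bK_top (m := m), bK_eq hp _ le_rfl, lsum_top]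
  have hsum : ∑ j, m j * dsc lam W (fInc q c) (bK m q c) j / 2 =
      σ ^ 2 * (∑ j, m j * (c * incr q j)) / 2 := by
    simp only [dsc, hsv, fInc, Finset.mul_sum, Finset.sum_div]
    exact Finset.sum_congr rfl fun j _ => by ring
  rw [lsum_top, hsum] at hlow
  simp only [lch, Real.cosh_zero, Real.log_one, zero_add] at hlow
  rw [hsv] at hval
  rw [fRest_eq (m := m)]
  have hC : 2 * σ ^ 2 / Real.log M *
      (1 + (Fintype.card ι : ℝ) * (2 * Real.exp ((1 / 2 + |σ|) * (cmax / (1 : ℝ) ^ 2)))) =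
      2 * σ ^ 2 * (1 + (Fintype.card ι : ℝ) * (2 * Real.exp ((1 / 2 + |σ|) * (cmax / (1 : ℝ) ^ 2)))) /
        Real.log M := by ring
  rw [hB]
  have := hgap.trans hb
  rw [hC] at this
  linarith

end Vale.Agent.P166F.Low
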