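import Vale.Agent.P166F.Low.Decomp.Column
import Vale.Agent.P166F.Low.Decomp.Plus

/-!
P166: one spin added, one direction deleted: the exact decompositions over a base system.
-/

namespace Vale.Agent.P166F.Low

open MeasureTheory ProbabilityTheory Matrix
open scoped RealInnerProductSpace
open Vale.Agent.P166 (spin)
open Vale.Agent.P166N.Spectrum (OrthInvLaw)
open Vale.Agent.P166F.Orth (Arr2 mm)

variable {κ : Type} [Fintype κ] [DecidableEq κ] {N n P : ℕ} {dl : κ → ℝ} {e f : κ} {s : ℝ}
  {y : CIdx Unit P → ℝ}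

omit [Fintype κ] in
/-- The mean log-sum depends only on the sizes of the classes. -/
theorem pmass_sizes {ν : Measure (Fin N → Fin N → ℝ)} (hν : OrthInvLaw N ν) {lbl lbl' : Fin N → κ}
    (h : ∀ j, csize lbl j = csize lbl' j) :
    pmass dl n lbl f s y ν = pmass dl n lbl' f s y ν := by
  have hcard : ∀ j, Fintype.card {i // lbl' i = j} = Fintype.card {i // lbl i = j} := fun j => by
    rw [Fintype.card_subtype, Fintype.card_subtype]
    exact (h j).symm
  set π : Equiv.Perm (Fin N) := Equiv.ofFiberEquiv fun j => Fintype.equivOfCardEq (hcard j)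
  have hπ : ∀ i, lbl (π i) = lbl' i := fun i => Equiv.ofFiberEquiv_map _ i
  have hst := Orth.OrthInvLaw.stabLaw hν
  set L' := fun U => lseG (pertA dl n lbl' f s y U) fun σ => pvec y (featV n lbl' f U σ)
  have hgram : ∀ U σ τ, ⟪featV n lbl' f (fun i => U (π i)) σ, featV n lbl' f (fun i => U (π i)) τ⟫ =
      ⟪featV n lbl f U σ, featV n lbl f U τ⟫ := fun U σ τ => by
    rw [inner_featV, inner_featV, ← Equiv.sum_comp π fun i =>
      if lbl i = f then coord U σ i * coord U τ i else 0]
    simp only [hπ]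
    rfl
  have key : ∀ U : Fin N → Fin N → ℝ,
      L' (fun i => U (π i)) = lseG (pertA dl n lbl f s y U) fun σ => pvec y (featV n lbl f U σ) := by
    intro U
    have ha : pertA dl n lbl' f s y (fun i => U (π i)) = pertA dl n lbl f s y U := funext fun σ => by
      rw [pertA, pertA, ← real_inner_self_eq_norm_sq, ← real_inner_self_eq_norm_sq, hgram, clsEnergy,
        clsEnergy, ← Equiv.sum_comp π fun i => dl (lbl i) * coord U σ i ^ 2]
      simp only [hπ]
      rfl
    show lseG _ _ = _
    rw [ha]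
    exact lseG_gram _ fun σ τ => by simp only [inner_pvec, hgram]
  rw [(pmass_eq hst dl n lbl f s y).2, (pmass_eq hst dl n lbl' f s y).2]
  simp only [← key]
  conv_rhs => rw [← hν.rowInvariant.invariant π]
  rw [integral_map (measurable_pi_lambda _ fun i => measurable_pi_apply _).aemeasurable]
  exact (measurable_lseG (fun σ => (continuous_pertA dl n lbl' f s y σ).measurable)
    (fun σ => measurable_pfeat n lbl' f y σ)).aestronglyMeasurable

/-- Deleting a direction of class `k` reweights the base. -/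
theorem pmass_del (b : Base e f N) (hef : e ≠ f) (he : dl e = 0) (hf : dl f = 0) (k : κ)
    (ν : Measure (Fin N → Fin N → ℝ)) :
    pmass dl n (b.del k) f s y ν = pmean ν fun U g =>
      Real.log (∑ σ, Real.exp (pertH dl n b.lbl f s y U g σ + delQ dl e k (b.fields U σ))) := by
  have hlab : ∀ i, (b.del k i = f ↔ b.lbl i = f) := fun i => by
    by_cases h : ∃ x, b.row x = i
    · obtain ⟨x, rfl⟩ := h
      rw [Base.del, b.moved_row, b.inRest]
      rcases x with j | j
      · simp only [Sum.elim_inl]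
        split_ifs with hj
        · rfl
        · exact ⟨fun hh => absurd (Or.inl hh) hj, fun hh => absurd hh hef⟩
      · exact ⟨fun hh => absurd hh (lab_ne hef _), fun hh => absurd hh hef⟩
    · rw [Base.del, b.moved_off _ h]
  have hen : ∀ U σ, clsEnergy dl (b.del k) U σ =
      clsEnergy dl b.lbl U σ + delQ dl e k (b.fields U σ) := fun U σ => by
    have h1 : ∑ x : Fld e, dl (b.del k (b.row x)) * coord U σ (b.row x) ^ 2 =
        ∑ i, (dl (b.del k i) * coord U σ i ^ 2 - dl (b.lbl i) * coord U σ i ^ 2) :=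
      Fintype.sum_of_injective b.row b.inj _ _
        (fun i hi => by rw [Base.del, b.moved_off _ fun ⟨x, hx⟩ => hi ⟨x, hx⟩, sub_self])
        fun x => by rw [b.inRest, he, zero_mul, sub_zero]
    have h2 : ∀ j : Slot e, dl (lab e f j.1) = dl j.1 := fun j => by
      unfold lab
      split_ifs with h
      · rw [he, h, hf]
      · rfl
    have h3 : ∀ j : Slot e, dl (if j.1 = f ∨ j.1 = k then e else j.1) *
        coord U σ (b.row (Sum.inl j)) ^ 2 =
        if j.1 = k then 0 else dl j.1 * coord U σ (b.row (Sum.inl j)) ^ 2 := fun j => by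
      by_cases hk : j.1 = k <;> by_cases hjf : j.1 = f <;> simp [hk, hjf, he, hf]
    rw [Finset.sum_sub_distrib, Fintype.sum_sum_type] at h1
    simp only [Base.del, b.moved_row, Sum.elim_inl, Sum.elim_inr, h2, h3] at h1
    simp only [clsEnergy, delQ, probeQ, Base.fields, Base.del] at h1 ⊢
    linarith
  have hv : ∀ U σ, featV n (b.del k) f U σ = featV n b.lbl f U σ := fun U σ => by
    simp only [featV, hlab]
  have hH : ∀ U g σ, pertH dl n (b.del k) f s y U g σ =
      pertH dl n b.lbl f s y U g σ + delQ dl e k (b.fields U σ) := fun U g σ => by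
    simp only [pertH, hv, hen]
    ring
  simp only [pmass, hH]

/-- The energy of the added spin is bounded by the squares of the fields. -/
lemma abs_spinQ_le (dl : κ → ℝ) (e : κ) (T : κ → ℝ) (z : Fld e → ℝ) (b : Bool) :
    |spinQ dl e T z (spin b)| ≤ (∑ j, |dl j|) * (1 + ∑ x, z x ^ 2) +
      ∑ j : Slot e, |dl j.1| * z (Sum.inr j) ^ 2 := by
  have hF : ∀ j, frame e T (fill e z (spin b)) j ^ 2 ≤ 1 + ∑ x, z x ^ 2 := by
    intro j
    refine (sum_frame_sq_le e T _ j).trans ?_
    rw [← Finset.add_sum_erase _ _ (Finset.mem_univ e)]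
    have h1 : fill e z (spin b) e ^ 2 = 1 := by cases b <;> simp [fill, spin]
    have h2 : ∑ i ∈ Finset.univ.erase e, fill e z (spin b) i ^ 2 = ∑ i : Slot e, z (Sum.inl i) ^ 2 := by
      rw [Finset.sum_subtype (Finset.univ.erase e) (p := fun i => i ≠ e) (by simp)
        (fun i => fill e z (spin b) i ^ 2)]
      exact Finset.sum_congr rfl fun i _ => by simp [fill, i.2]
    rw [h1, h2, Fintype.sum_sum_type]
    linarith [Finset.sum_nonneg fun (i : Slot e) (_ : i ∈ Finset.univ) => sq_nonneg (z (Sum.inr i))]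
  rw [spinQ, probeQ]
  refine (abs_add_le _ _).trans (add_le_add ?_ ?_)
  · rw [abs_div, abs_two, Finset.sum_mul]
    refine (div_le_self (abs_nonneg _) one_le_two).trans
      ((Finset.abs_sum_le_sum_abs _ _).trans (Finset.sum_le_sum fun j _ => ?_))
    rw [abs_mul, abs_of_nonneg (sq_nonneg (frame e T (fill e z (spin b)) j))]
    exact mul_le_mul_of_nonneg_left (hF j) (abs_nonneg _)
  · rw [abs_div, abs_two]
    refine (div_le_self (abs_nonneg _) one_le_two).trans
      ((Finset.abs_sum_le_sum_abs _ _).trans (Finset.sum_le_sum fun j _ => ?_))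
    rw [abs_mul, abs_of_nonneg (sq_nonneg (z (Sum.inr j)))]

lemma measurable_spinA {Z : Type} [MeasurableSpace Z] (b : Base e f N) (dl : κ → ℝ) (n : ℕ) (s : ℝ)
    (y : CIdx Unit P → ℝ) {T : Z → κ → ℝ} (hT : Measurable T) {U : Z → Arr2 N} (hU : Measurable U)
    (p : Bool × (Fin N → Bool)) : Measurable fun z => spinA b dl n s y (T z) (U z) p := by
  have hz : ∀ x, Measurable fun z => b.fields (U z) p.2 x := fun x =>
    (continuous_coord p.2 (b.row x)).measurable.comp hU
  have hfill : ∀ j, Measurable fun z => fill e (b.fields (U z) p.2) (spin p.1) j := fun j => by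
    by_cases h : j = e <;> simp only [fill, h, dif_pos, not_false_eq_true, dif_neg]
    · exact measurable_const
    · exact hz _
  have hTj : ∀ j, Measurable fun z => T z j := fun j => (measurable_pi_apply j).comp hT
  refine ((continuous_pertA dl n b.lbl f s y p.2).measurable.comp hU).add ?_
  unfold spinQ probeQ frame refl
  fun_prop

/-- Bounds for the weights of the base with one more spin, uniform in the frame. -/
lemma exists_spinA_bound (b : Base e f N) (dl : κ → ℝ) (n : ℕ) (s : ℝ) (y : CIdx Unit P → ℝ) :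
    ∃ C, ∀ U ∈ Orth.cube N, ∀ (T : κ → ℝ) (p : Bool × (Fin N → Bool)),
      |spinA b dl n s y T U p| ≤ C ∧ ‖pvec y (featV n b.lbl f U p.2)‖ ≤ C := by
  obtain ⟨C, hC⟩ := exists_pert_bound dl n b.lbl f s y
  obtain ⟨D, hD⟩ := exists_bound_cube (N := N) (F := fun U σ =>
    (∑ j, |dl j|) * (1 + ∑ x, b.fields U σ x ^ 2) +
      ∑ j : Slot e, |dl j.1| * b.fields U σ (Sum.inr j) ^ 2) fun σ => by
    unfold Base.fields
    fun_prop
  refine ⟨C + |D|, fun U hU T p => ?_⟩
  have h1 := hC U hU p.2
  refine ⟨(abs_add_le _ _).trans (add_le_add h1.1 ?_), h1.2.trans (le_add_of_nonneg_right (abs_nonneg D))⟩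
  exact ((abs_spinQ_le dl e _ _ p.1).trans (le_abs_self _)).trans
    ((hD U hU p.2).trans (le_abs_self D))

/-- The log-sum of the rotated system, averaged over the fields. -/
noncomputable def rotLse (dl : κ → ℝ) (n : ℕ) (lbl : Fin N → κ) (f : κ) (s : ℝ) (y : CIdx Unit P → ℝ)
    (W : Arr2 N) : ℝ :=
  lseG (pertA dl n lbl f s y W) fun σ => pvec y (featV n lbl f W σ)

omit [Fintype κ] in
lemma measurable_rotLse (dl : κ → ℝ) (n : ℕ) (lbl : Fin N → κ) (f : κ) (s : ℝ)
    (y : CIdx Unit P → ℝ) : Measurable (rotLse dl n lbl f s y) :=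
  measurable_lseG (fun σ => (continuous_pertA dl n lbl f s y σ).measurable)
    fun σ => measurable_pfeat n lbl f y σ

omit [Fintype κ] in
lemma integrable_rotLse_comp {Z : Type} [MeasurableSpace Z] {μ : Measure Z} [IsFiniteMeasure μ]
    (dl : κ → ℝ) (n : ℕ) (lbl : Fin N → κ) (f : κ) (s : ℝ) (y : CIdx Unit P → ℝ) {Φ : Z → Arr2 N}
    (hΦ : Measurable Φ) (hcube : ∀ᵐ z ∂μ, Φ z ∈ Orth.cube N) :
    Integrable (fun z => rotLse dl n lbl f s y (Φ z)) μ := by
  obtain ⟨C, hC⟩ := exists_pert_bound dl n lbl f s y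
  have ha : ∀ σ, Measurable fun z => pertA dl n lbl f s y (Φ z) σ := fun σ =>
    (continuous_pertA dl n lbl f s y σ).measurable.comp hΦ
  have hv : ∀ σ, Measurable fun z => pvec y (featV n lbl f (Φ z) σ) := fun σ =>
    (measurable_pfeat n lbl f y σ).comp hΦ
  exact (integral_lse_prod ha hv (hcube.mono fun z hz => hC (Φ z) hz)).1

lemma integral_spin_prod {Z : Type} [MeasurableSpace Z] {μ : Measure Z} [IsFiniteMeasure μ]
    (b : Base e f N) (dl : κ → ℝ) (n : ℕ) (s : ℝ) (y : CIdx Unit P → ℝ) {T : Z → κ → ℝ}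
    (hT : Measurable T) {U : Z → Arr2 N} (hU : Measurable U)
    (hcube : ∀ᵐ z ∂μ, U z ∈ Orth.cube N) :
    Integrable (fun z => lseG (spinA b dl n s y (T z) (U z))
        fun p => pvec y (featV n b.lbl f (U z) p.2)) μ ∧
      ∫ q, lse (spinA b dl n s y (T q.1) (U q.1)) (fun p => pvec y (featV n b.lbl f (U q.1) p.2)) q.2
        ∂μ.prod (stdGaussian (EuclideanSpace ℝ (GIdx Unit P N))) =
      ∫ z, lseG (spinA b dl n s y (T z) (U z)) (fun p => pvec y (featV n b.lbl f (U z) p.2)) ∂μ := by
  obtain ⟨C, hC⟩ := exists_spinA_bound b dl n s y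
  have hv : ∀ p : Bool × (Fin N → Bool), Measurable fun z => pvec y (featV n b.lbl f (U z) p.2) :=
    fun p => (measurable_pfeat n b.lbl f y p.2).comp hU
  exact integral_lse_prod (measurable_spinA b dl n s y hT hU) hv
    (hcube.mono fun z hz => hC (U z) hz (T z))

omit [Fintype κ] in
/-- The mean log-sum of the enlarged system, with the rotations of the base composed in. -/
lemma pmass_eq_comp {ν : Measure (Arr2 N)} (hν : Orth.StabLaw ∅ ν)
    {ν' : Measure (Arr2 (N + 1))} (hν' : Orth.StabLaw ∅ ν') (dl : κ → ℝ) (n : ℕ)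
    (lbl : Fin (N + 1) → κ) (f : κ) (s : ℝ) (y : CIdx Unit P → ℝ) :
    Integrable (fun z : Arr2 (N + 1) × Arr2 N => rotLse dl n lbl f s y (mm z.1 (ext z.2))) (ν'.prod ν) ∧
      pmass dl n lbl f s y ν' = ∫ V, ∫ U, rotLse dl n lbl f s y (mm V (ext U)) ∂ν ∂ν' := by
  have := hν.prob
  have := hν'.prob
  have hWc : Continuous fun z : Arr2 (N + 1) × Arr2 N => mm z.1 (ext z.2) :=
    Orth.continuous_mm.comp (continuous_fst.prodMk (continuous_ext.comp continuous_snd))
  have hint : Integrable (fun z : Arr2 (N + 1) × Arr2 N => rotLse dl n lbl f s y (mm z.1 (ext z.2)))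
      (ν'.prod ν) :=
    integrable_rotLse_comp dl n lbl f s y hWc.measurable
      (((Measure.quasiMeasurePreserving_fst.ae hν'.fix).and
        (Measure.quasiMeasurePreserving_snd.ae hν.fix)).mono fun z hz =>
          (hz.1.mul (fix_ext hz.2)).mem_cube)
  refine ⟨hint, ?_⟩
  rw [(pmass_eq hν' dl n lbl f s y).2, integral_integral_swap hint]
  have : ∀ᵐ U ∂ν, ∫ V, rotLse dl n lbl f s y (mm V (ext U)) ∂ν' =
      ∫ V, rotLse dl n lbl f s y V ∂ν' := hν.fix.mono fun U hU => by
    conv_rhs => rw [← hν'.right_invariant (fix_ext hU)]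
    rw [integral_map (Orth.continuous_mm_left _).measurable.aemeasurable
      (measurable_rotLse dl n lbl f s y).aestronglyMeasurable]
  rw [integral_congr_ae this, integral_const, probReal_univ, one_smul]
  rfl

omit [Fintype κ] [DecidableEq κ] in
/-- An orthogonal array is a given rotation with the same last column times one fixing it. -/
lemma exists_factor {V : Arr2 (N + 1)} (hV : Orth.Fix ∅ V)
    {O : Matrix (Fin (N + 1)) (Fin (N + 1)) ℝ} (hO : Oᵀ * O = 1)
    (hOe : O *ᵥ Pi.single (Fin.last N) 1 = fun k => V k (Fin.last N)) :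
    ∃ Q, Orth.Fix ∅ Q ∧ V = mm (of.symm O) (ext Q) := by
  set G : Arr2 (N + 1) := of.symm (Oᵀ * of V) with hG
  have hOO : O * Oᵀ = 1 := mul_eq_one_comm.1 hO
  have hGorth : (of G)ᵀ * of G = 1 := by
    rw [hG, Equiv.apply_symm_apply, transpose_mul, transpose_transpose, Matrix.mul_assoc,
      ← Matrix.mul_assoc O, hOO, Matrix.one_mul, hV.1]
  have hGc : ∀ i, G i (Fin.last N) = if i = Fin.last N then 1 else 0 := fun i => by
    have : (Oᵀ * of V).col (Fin.last N) = Pi.single (Fin.last N) 1 := by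
      rw [show (Oᵀ * of V).col (Fin.last N) = Oᵀ *ᵥ fun k => V k (Fin.last N) from rfl, ← hOe,
        mulVec_mulVec, hO, one_mulVec]
    simpa [G, Pi.single_apply] using congrFun this i
  have hGr : ∀ k : Fin N, G (Fin.last N) k.castSucc = 0 := fun k => by
    have h := congrFun₂ hGorth (Fin.last N) k.castSucc
    rw [Matrix.mul_apply, Matrix.one_apply_ne (Fin.castSucc_lt_last k).ne'] at h
    simpa [hGc] using h
  set Q : Arr2 N := fun i k => G i.castSucc k.castSucc with hQ
  have hGQ : ext Q = G := by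
    funext i k
    induction i using Fin.lastCases <;> induction k using Fin.lastCases <;>
      simp [ext, Q, hGc, hGr, (Fin.castSucc_lt_last _).ne]
  refine ⟨Q, ⟨?_, fun i hi => absurd hi (Finset.notMem_empty i)⟩, ?_⟩
  · ext i k
    have h := congrFun₂ hGorth i.castSucc k.castSucc
    rw [Matrix.mul_apply, Fin.sum_univ_castSucc] at h
    simpa [Matrix.mul_apply, hGr, Q, Matrix.one_apply] using h
  · rw [hGQ, hG]
    simp [mm, ← Matrix.mul_assoc, hOO]

/-- The comparison at a fixed rotation of the enlarged system. -/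
lemma lseG_spin_integral_le (b : Base e f N) (hef : e ≠ f) (he : dl e = 0) (hf : dl f = 0)
    (hn : N + 1 ≤ n) (hy : y ∈ PBox s) (hs : 0 ≤ s) {ν : Measure (Arr2 N)}
    (hν : Orth.StabLaw ∅ ν) {V : Arr2 (N + 1)} (hV : Orth.Fix ∅ V)
    (hi : Integrable (fun U => rotLse dl n b.plus f s y (mm V (ext U))) ν)
    (hi' : Integrable (fun U => lseG (spinA b dl n s y (colNorm b.plus V) U)
      fun p => pvec y (featV n b.lbl f U p.2)) ν) :
    ∫ U, lseG (spinA b dl n s y (colNorm b.plus V) U) (fun p => pvec y (featV n b.lbl f U p.2)) ∂ν ≤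
      ∫ U, rotLse dl n b.plus f s y (mm V (ext U)) ∂ν := by
  obtain ⟨O, hO, hOe, hOc⟩ := exists_classRot b.plus b.plus_rep e (sum_col_sq hV.1 (Fin.last N))
    (T := colNorm b.plus V) (fun j => colNorm_sq b.plus V j)
  rw [b.rep_e] at hOe
  obtain ⟨Q, hQ, hVeq⟩ := exists_factor hV hO hOe
  have hm : Measurable fun U : Arr2 N => rotLse dl n b.plus f s y (mm (of.symm O) (ext U)) :=
    (measurable_rotLse dl n b.plus f s y).comp
      ((Orth.continuous_mm_right _).comp continuous_ext).measurable
  have hrot : (fun U : Arr2 N => rotLse dl n b.plus f s y (mm V (ext U))) =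
      fun U => rotLse dl n b.plus f s y (mm (of.symm O) (ext (mm Q U))) := funext fun U => by
    rw [hVeq, Orth.mm_assoc, mm_ext]
  rw [hrot] at hi ⊢
  have hi2 : Integrable (fun U => rotLse dl n b.plus f s y (mm (of.symm O) (ext U))) ν := by
    rw [← hν.invariant Q hQ, integrable_map_measure hm.aestronglyMeasurable
      (Orth.continuous_mm_right Q).measurable.aemeasurable]
    exact hi
  calc ∫ U, lseG (spinA b dl n s y (colNorm b.plus V) U) (fun p => pvec y (featV n b.lbl f U p.2)) ∂ν
      ≤ ∫ U, rotLse dl n b.plus f s y (mm (of.symm O) (ext U)) ∂ν :=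
        integral_mono hi' hi2 fun U => lseG_spin_le b hef he hf hn hy hs hOc U
    _ = ∫ U, rotLse dl n b.plus f s y (mm (of.symm O) (ext (mm Q U))) ∂ν := by
      conv_lhs => rw [← hν.invariant Q hQ]
      rw [integral_map (Orth.continuous_mm_right Q).measurable.aemeasurable hm.aestronglyMeasurable]

/-- The mean log-sum of the base reweighted by one spin, as an average over rotations. -/
lemma pmean_spin_eq (b : Base e f N) (dl : κ → ℝ) (n : ℕ) (s : ℝ) (y : CIdx Unit P → ℝ)
    {ν : Measure (Arr2 N)} (hν : Orth.StabLaw ∅ ν) (T : κ → ℝ) :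
    (pmean ν fun U g => Real.log (∑ σ, Real.exp (pertH dl n b.lbl f s y U g σ) *
      (Real.exp (spinQ dl e T (b.fields U σ) 1) + Real.exp (spinQ dl e T (b.fields U σ) (-1))))) =
      ∫ U, lseG (spinA b dl n s y T U) (fun p => pvec y (featV n b.lbl f U p.2)) ∂ν := by
  have := hν.prob
  rw [← (integral_spin_prod (μ := ν) b dl n s y measurable_const measurable_id
    (T := fun _ => T) (U := fun U => U) (hν.fix.mono fun U hU => hU.mem_cube)).2, pmean]
  congr 1
  funext z
  simp only [lse, spinA, spin, Fintype.sum_prod_type, Fintype.sum_bool, if_true,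
    Bool.false_eq_true, if_false, pertH_eq, ← Finset.sum_add_distrib]
  refine congrArg Real.log (Finset.sum_congr rfl fun σ _ => ?_)
  rw [mul_add, ← Real.exp_add, ← Real.exp_add]
  congr 1 <;> congr 1 <;> ring

/-- Adding a spin: at least the base reweighted by the new spin. -/
theorem pmass_plus_ge (b : Base e f N) (hef : e ≠ f) (he : dl e = 0) (hf : dl f = 0)
    {ν : Measure (Fin N → Fin N → ℝ)} (hν : OrthInvLaw N ν)
    {ν' : Measure (Fin (N + 1) → Fin (N + 1) → ℝ)} (hν' : OrthInvLaw (N + 1) ν') (hn : N + 1 ≤ n)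
    (hy : y ∈ PBox s) (hs : 0 ≤ s) :
    ∫ V, (pmean ν fun U g => Real.log (∑ σ, Real.exp (pertH dl n b.lbl f s y U g σ) *
        (Real.exp (spinQ dl e (colNorm b.plus V) (b.fields U σ) 1) +
          Real.exp (spinQ dl e (colNorm b.plus V) (b.fields U σ) (-1))))) ∂ν' ≤
      pmass dl n b.plus f s y ν' := by
  have := hν.prob
  have := hν'.prob
  have hst := Orth.OrthInvLaw.stabLaw hν
  have hst' := Orth.OrthInvLaw.stabLaw hν'
  obtain ⟨hint, hR⟩ := pmass_eq_comp hst hst' dl n b.plus f s y
  have hT : Measurable (colNorm (N := N) b.plus) := measurable_pi_lambda _ fun j => by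
    refine Real.continuous_sqrt.measurable.comp (Finset.measurable_fun_sum _ fun i _ => ?_)
    split_ifs <;> fun_prop
  have hlow := (integral_spin_prod (μ := ν'.prod ν) b dl n s y (hT.comp measurable_fst) measurable_snd
    ((Measure.quasiMeasurePreserving_snd.ae hst.fix).mono fun z hz => hz.mem_cube)).1
  simp only [pmean_spin_eq b dl n s y hst]
  rw [hR]
  refine integral_mono_ae hlow.integral_prod_left hint.integral_prod_left ?_
  filter_upwards [hst'.fix, hint.prod_right_ae, hlow.prod_right_ae] with V hV hi hi'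
  exact lseG_spin_integral_le b hef he hf hn hy hs hst hV hi hi'

omit [Fintype κ] in
/-- The last column spreads over the classes in proportion to their sizes. -/
theorem colNorm_conc :
    ∃ C : ℝ, ∀ (M : ℕ) (lbl : Fin (M + 1) → κ) (ν' : Measure (Fin (M + 1) → Fin (M + 1) → ℝ)),
      OrthInvLaw (M + 1) ν' → ∀ j,
      ∫ V, (colNorm lbl V j ^ 2 - (csize lbl j : ℝ) / (M + 1)) ^ 2 ∂ν' ≤ C / (M + 1) :=
  exists_colNorm_conc

end Vale.Agent.P166F.Low
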