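import Vale.Agent.P166F.Haar
import Vale.Agent.P166F.Low.Rot.Dev

/-!
P166: what rotations give for the perturbed systems of the lower bound: equal spreading of the overlaps
inside a class of one slope, and concentration of the log-sum.
-/

namespace Vale.Agent.P166F.Low

open MeasureTheory
open Vale.Agent.P166N.Spectrum (OrthInvLaw)

variable {κ : Type} [DecidableEq κ] {P : ℕ}

/-- The overlaps in two sets of directions of the same slope are proportional to their sizes. -/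
theorem split_concentrates :
    ∃ C : ℝ, ∀ (P N n : ℕ) (dl : κ → ℝ) (lbl : Fin N → κ) (e f : κ) (s : ℝ) (y : CIdx Unit P → ℝ)
      (ν : Measure (Fin N → Fin N → ℝ)), OrthInvLaw N ν → N ≤ n → 1 ≤ N → e ≠ f → dl e = dl f →
      0 ≤ s → y ∈ PBox s →
      ∀ (a b : Fin 2), pmean ν (fun U g => pgibbs dl n lbl f s y U g (r := 2) fun x =>
        ((csize lbl f : ℝ) * (∑ i, if lbl i = e then coord U (x a) i * coord U (x b) i else 0) -
          (csize lbl e : ℝ) * ∑ i, if lbl i = f then coord U (x a) i * coord U (x b) i else 0) ^ 2) ≤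
        C * ((P : ℝ) + 1) ^ 2 * (N : ℝ) ^ 4 * (1 / (N : ℝ) + s / Real.sqrt n + s ^ 2 / n) :=
  split_bound

/-- The log-sum deviates by at most the order of `√N + s`. -/
theorem pmass_dev (P : ℕ) (Λ : ℝ) :
    ∃ C : ℝ, ∀ (N n : ℕ) (dl : κ → ℝ) (lbl : Fin N → κ) (f : κ) (s : ℝ) (y : CIdx Unit P → ℝ)
      (ν : Measure (Fin N → Fin N → ℝ)), OrthInvLaw N ν → N ≤ n → 1 ≤ N → (∀ j, |dl j| ≤ Λ) →
      0 ≤ s → y ∈ PBox s →
      pmean ν (fun U g => |Real.log (∑ σ, Real.exp (pertH dl n lbl f s y U g σ)) -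
        pmass dl n lbl f s y ν|) ≤ C * (Real.sqrt N + s + s ^ 2 / Real.sqrt N) :=
  pmass_dev_bound P Λ

/-- The perturbation changes the log-sum by at most the order of `s ^ 2`. -/
theorem pmass_free (P : ℕ) :
    ∃ C : ℝ, ∀ (N n : ℕ) (dl : κ → ℝ) (lbl : Fin N → κ) (f : κ) (s : ℝ) (y : CIdx Unit P → ℝ)
      (ν : Measure (Fin N → Fin N → ℝ)), OrthInvLaw N ν → 0 ≤ s → y ∈ PBox s →
      |pmass dl n lbl f s y ν - pmass dl n lbl f s (0 : CIdx Unit P → ℝ) ν| ≤ C * s ^ 2 :=
  pmass_free_bound P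

end Vale.Agent.P166F.Low
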