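import Vale.Agent.P166F.Low.Regime
import Vale.Agent.P166F.Low.Rot
import Vale.Agent.P166F.Low.Decomp
import Vale.Agent.P166F.Low.Closed
import Vale.Agent.P166F.Low.Target.Gain
import Vale.Agent.P166F.Low.Target.Stationary

/-!
P166: the system with the new spin compared with the base reweighted by truncated weights: the gain and
the two stationarity identities.
-/

namespace Vale.Agent.P166F.Low

open MeasureTheory Filter
open scoped Topology
open Vale.Agent.P166N.Spectrum (OrthInvLaw)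

variable {K : ℕ} {a : Atoms K} {i0 : Fin K} (R : Regime a i0) {β : ℝ}
  {ν : (N : ℕ) → Measure (Fin N → Fin N → ℝ)}

/-- The weight of the added spin at the limiting fractions. -/
noncomputable def Regime.spW (β L : ℝ) : (Fld (some i0 : Option (Fin K)) → ℝ) → ℝ :=
  spinW (dlA a β i0) (some i0) (vA a i0 R.θ) L

/-- The clip at `b`. -/
noncomputable def clip (b x : ℝ) : ℝ := max (-b) (min b x)

/-- The probe of the atom `l`. -/
def probe {l : Fin K} (hl : l ≠ i0) (z : Fld (some i0 : Option (Fin K)) → ℝ) : ℝ :=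
  z (Sum.inr ⟨some l, fun h => hl (Option.some_inj.1 h)⟩)

theorem Regime.gain_lower (hβ : 0 < β) (hmin : ∀ i, a.lam i0 ≤ a.lam i)
    (hν : ∀ N, OrthInvLaw N (ν N)) :
    ∃ C : ℝ, ∀ L : ℝ, 0 < L → ∀ ε : ℝ, 0 < ε → ∀ᶠ i in atTop,
      R.logAvg β ν i (R.spW β L) -
          ∑ k, a.wt k * R.logAvg β ν i (delW (dlA a β i0) (some i0) (some k) L) - C / L - ε ≤
        R.gain β ν i := by
  exact Tgt.gain_lower_aux R hβ hmin hν

theorem Regime.probe_bound (hβ : 0 < β) (hmin : ∀ i, a.lam i0 ≤ a.lam i)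
    (hν : ∀ N, OrthInvLaw N (ν N)) {l : Fin K} (hl : l ≠ i0) :
    ∃ C : ℝ, ∀ L : ℝ, 0 < L → ∀ᶠ i in atTop,
      R.logAvg β ν i (fun z => Real.exp (min (dlA a β i0 (some l) * probe hl z ^ 2 / 2) L)) ≤ C := by
  exact Tgt.probe_bound_aux R hβ hmin hν hl ⟨some l, fun h => hl (Option.some_inj.1 h)⟩ rfl

theorem Regime.stationary_pair (hβ : 0 < β) (hmin : ∀ i, a.lam i0 ≤ a.lam i)
    (hν : ∀ N, OrthInvLaw N (ν N)) {ψ : ℝ → ℝ} {Λ : ℝ} (hψ1 : ∀ x, |ψ x| ≤ 1)
    (hψ : ∀ x x', |ψ x - ψ x'| ≤ Λ * |x - x'|) :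
    ∃ C : ℝ, ∀ L b : ℝ, 0 < L → 1 ≤ b → ∀ ε : ℝ, 0 < ε → ∀ᶠ i in atTop,
      |R.tiltAvg β ν i (R.spW β L) (r := 2) (fun U x =>
          spinT' (dlA a β i0) (some i0) (vA a i0 R.θ) (R.field i U (x 0)) *
              spinT' (dlA a β i0) (some i0) (vA a i0 R.θ) (R.field i U (x 1)) *
            ψ (R.cov i U x 0 1)) -
        ((∑ l : Fin K, if hl : l = i0 then 0 else
            a.wt l * R.tiltAvg β ν i (R.spW β L) (r := 2) (fun U x =>
              clip b (probe hl (R.field i U (x 0))) * clip b (probe hl (R.field i U (x 1))) *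
                ψ (R.cov i U x 0 1))) +
          a.wt i0 * R.tiltAvg β ν i (R.spW β L) (r := 2) (fun U x =>
            R.cov i U x 0 1 * ψ (R.cov i U x 0 1)))| ≤
        C * b ^ 2 / L + C / b + ε := by
  exact Tgt.stationary_pair_aux R hν (Tgt.dlA_nonneg hβ hmin) hψ1 hψ

theorem Regime.stationary_one (hβ : 0 < β) (hmin : ∀ i, a.lam i0 ≤ a.lam i)
    (hν : ∀ N, OrthInvLaw N (ν N)) :
    ∃ C : ℝ, ∀ L b : ℝ, 0 < L → 1 ≤ b → ∀ ε : ℝ, 0 < ε → ∀ᶠ i in atTop,
      |1 - ((∑ l : Fin K, if hl : l = i0 then 0 else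
            a.wt l * R.tiltAvg β ν i (R.spW β L) (r := 1) (fun U x =>
              min b (probe hl (R.field i U (x 0)) ^ 2))) +
          a.wt i0 * R.tiltAvg β ν i (R.spW β L) (r := 1) (fun U x => R.cov i U x 0 0))| ≤
        C * b / L + C / b + ε := by
  exact Tgt.stationary_one_aux R hν (Tgt.dlA_nonneg hβ hmin)

/-- Probes vanish with the covariance. -/
theorem Regime.probe_sq_base (hν : ∀ N, OrthInvLaw N (ν N)) {l : Fin K} (hl : l ≠ i0) :
    Tendsto (fun i => R.avg β ν i (r := 1) (fun U x => probe hl (R.field i U (x 0)) ^ 2) -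
      R.avg β ν i (r := 1) fun U x => R.cov i U x 0 0) atTop (𝓝 0) := by
  exact Tgt.probe_sq_base_aux R hν ⟨some l, fun h => hl (Option.some_inj.1 h)⟩

end Vale.Agent.P166F.Low
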