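import Vale.Agent.P166F.Low.Basic
import Vale.Agent.P166F.Low.Discr
import Vale.Agent.P166F.Low.Closed
import Vale.Agent.P166F.Low.Casc
import Vale.Agent.P166F.Low.Target

/-!
P166: the weights of the lower bound, the slopes above the lowest atom, and discretisations as levels.
-/

namespace Vale.Agent.P166F.Low

open MeasureTheory Filter
open Vale.Agent.P157.Low (Arr Discr incr)

variable {κ : Type} [Fintype κ] [DecidableEq κ] {dl : κ → ℝ} {e : κ}

lemma probeQ_nonneg (h : ∀ j, 0 ≤ dl j) (z : Fld e → ℝ) : 0 ≤ probeQ dl e z :=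
  div_nonneg (Finset.sum_nonneg fun j _ => mul_nonneg (h _) (sq_nonneg _)) zero_le_two

lemma spinQ_nonneg (h : ∀ j, 0 ≤ dl j) (T : κ → ℝ) (z : Fld e → ℝ) (s : ℝ) :
    0 ≤ spinQ dl e T z s :=
  add_nonneg (div_nonneg (Finset.sum_nonneg fun j _ => mul_nonneg (h _) (sq_nonneg _)) zero_le_two)
    (probeQ_nonneg h z)

lemma delQ_nonneg (h : ∀ j, 0 ≤ dl j) (k : κ) (z : Fld e → ℝ) : 0 ≤ delQ dl e k z :=
  add_nonneg (div_nonneg (Finset.sum_nonneg fun j _ => by
    split_ifs
    exacts [le_rfl, mul_nonneg (h _) (sq_nonneg _)]) zero_le_two) (probeQ_nonneg h z)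

lemma continuous_probeQ : Continuous (probeQ dl e) := by
  unfold probeQ
  fun_prop

lemma continuous_spinQ (T : κ → ℝ) (s : ℝ) : Continuous fun z => spinQ dl e T z s := by
  have hf : ∀ j, Continuous fun z : Fld e → ℝ => fill e z s j := fun j => by
    unfold fill
    split_ifs
    exacts [continuous_const, continuous_apply _]
  refine Continuous.add ((continuous_finsetSum _ fun j _ =>
    ((?_ : Continuous fun z : Fld e → ℝ => frame e T (fill e z s) j).pow 2).const_mul _).div_const _)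
    continuous_probeQ
  unfold frame refl
  fun_prop

lemma continuous_delQ (k : κ) : Continuous (delQ dl e k) := by
  refine Continuous.add ((continuous_finsetSum _ fun j _ => ?_).div_const _) continuous_probeQ
  split_ifs
  exacts [continuous_const, ((continuous_apply _).pow 2).const_mul _]

lemma exp_min_mem {Q L L' : ℝ} (hQ : 0 ≤ Q) (hL : 0 ≤ L) (h : L ≤ L') :
    1 ≤ Real.exp (min Q L) ∧ Real.exp (min Q L) ≤ Real.exp L' :=
  ⟨Real.one_le_exp (le_min hQ hL), Real.exp_le_exp.2 ((min_le_right Q L).trans h)⟩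

lemma wgt_spinW (h : ∀ j, 0 ≤ dl j) (T : κ → ℝ) {L L' : ℝ} (hL : 0 ≤ L) (hL' : L ≤ L') :
    Wgt (Real.exp L') (spinW dl e T L) := by
  refine ⟨((((continuous_spinQ T 1).min continuous_const).rexp).add
    (((continuous_spinQ T (-1)).min continuous_const).rexp)).div_const _, fun z => ?_⟩
  have h1 := exp_min_mem (spinQ_nonneg h T z 1) hL hL'
  have h2 := exp_min_mem (spinQ_nonneg h T z (-1)) hL hL'
  simp only [spinW]
  constructor <;> linarith [h1.1, h1.2, h2.1, h2.2]

lemma spinW_mono (T : κ → ℝ) {L L' : ℝ} (hL : L ≤ L') (z : Fld e → ℝ) :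
    spinW dl e T L z ≤ spinW dl e T L' z :=
  div_le_div_of_nonneg_right (add_le_add (Real.exp_le_exp.2 (min_le_min_left _ hL))
    (Real.exp_le_exp.2 (min_le_min_left _ hL))) zero_le_two

lemma wgt_delW (h : ∀ j, 0 ≤ dl j) (k : κ) {L : ℝ} (hL : 0 ≤ L) :
    Wgt (Real.exp L) (delW dl e k L) :=
  ⟨((continuous_delQ k).min continuous_const).rexp, fun z =>
    exp_min_mem (delQ_nonneg h k z) hL le_rfl⟩

lemma abs_spinT'_le (T : κ → ℝ) (z : Fld e → ℝ) : |spinT' dl e T z| ≤ 1 := by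
  have h1 := Real.exp_pos (spinQ dl e T z 1)
  have h2 := Real.exp_pos (spinQ dl e T z (-1))
  rw [spinT', abs_div, abs_of_pos (add_pos h1 h2), div_le_one (add_pos h1 h2), abs_le]
  constructor <;> linarith

lemma bcv_spinT' (T : κ → ℝ) : BCV (spinT' dl e T) :=
  ⟨(((continuous_spinQ T 1).rexp).sub ((continuous_spinQ T (-1)).rexp)).div
    (((continuous_spinQ T 1).rexp).add ((continuous_spinQ T (-1)).rexp))
    fun z => (add_pos (Real.exp_pos _) (Real.exp_pos _)).ne', 1, abs_spinT'_le T⟩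

/-! ### Levels -/

variable {r : ℕ} {m q : Fin (r + 1) → ℝ} {c : ℝ}

lemma lmass_nonneg (hm : Levels m) (j : Fin (r + 1)) : 0 ≤ lmass m j := by
  simp only [lmass]
  split_ifs with h
  · exact sub_nonneg.2 (hm.strict.monotone (Nat.le_succ _))
  · exact sub_nonneg.2 (hm.ltOne j).le

lemma sum_lmass (hm : Levels m) : ∑ j, lmass m j = 1 := by
  have h : ∀ j : Fin (r + 1), lmass m j = (if h : (j : ℕ) + 1 < r + 1 then m ⟨j + 1, h⟩ else 1) - m j :=
    fun j => by simp only [lmass, Nat.add_lt_add_iff_right]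
  let g : ℕ → ℝ := fun i => if h : i < r + 1 then m ⟨i, h⟩ else 1
  have e1 : ∀ j : Fin (r + 1), lmass m j = g (j + 1) - g j := fun j => by
    rw [h j]
    simp only [g, dif_pos j.2]
  simp only [e1]
  rw [Fin.sum_univ_eq_sum_range (fun i => g (i + 1) - g i), Finset.sum_range_sub]
  simp [g, hm.zero]

lemma sum_incr (q : Fin (r + 1) → ℝ) (j : Fin (r + 1)) :
    (∑ i : Fin (r + 1), if i ≠ 0 ∧ i ≤ j then incr q i else 0) = q j - q 0 := by
  induction j using Fin.induction with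
  | zero =>
    rw [sub_self]
    exact Finset.sum_eq_zero fun i _ => if_neg fun h => h.1 (Fin.le_zero_iff.1 h.2)
  | succ j ih =>
    have h : ∀ i : Fin (r + 1), (if i ≠ 0 ∧ i ≤ j.succ then incr q i else 0) =
        (if i ≠ 0 ∧ i ≤ j.castSucc then incr q i else 0) + if i = j.succ then incr q i else 0 := by
      intro i
      rcases lt_trichotomy i j.succ with hi | hi | hi
      · simp [hi.le, hi.ne, Fin.le_castSucc_iff.2 hi]
      · subst hi
        simp [Fin.succ_ne_zero, (Fin.castSucc_lt_succ (i := j)).not_ge]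
      · simp [hi.not_ge, hi.ne', ((Fin.castSucc_lt_succ (i := j)).trans hi).not_ge]
    simp only [h, Finset.sum_add_distrib, ih, Finset.sum_ite_eq', Finset.mem_univ, if_true]
    rw [incr, dif_neg (by simp)]
    have e1 : (⟨((j.succ : Fin (r + 1)) : ℕ) - 1, by omega⟩ : Fin (r + 1)) = j.castSucc :=
      Fin.ext (by simp)
    rw [e1]
    ring

lemma tilt_zero (m q : Fin (r + 1) → ℝ) (c : ℝ) (j : Fin (r + 1)) : tilt m q c 0 j = c * q j := by
  have h := congrArg (c * ·) (sum_incr q j)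
  simp only [Finset.mul_sum, mul_ite, mul_zero] at h
  simp only [tilt, zero_mul, sub_zero, one_pow, div_one, mul_one, h]
  ring

lemma tLog_zero (m q : Fin (r + 1) → ℝ) (c : ℝ) : tLog m q c 0 = 0 := by
  simp [tLog, llog]

/-- The Gaussian average of a bounded continuous function. -/
lemma heatV_bdd {F : (κ → ℝ) → ℝ} (hF : Continuous F) {lo hi : ℝ} (hb : ∀ y, lo ≤ F y ∧ F y ≤ hi)
    (t : ℝ) : Continuous (heatV F t) ∧ ∀ y, lo ≤ heatV F t y ∧ heatV F t y ≤ hi := by
  have hn : ∀ y, |F y| ≤ max |lo| |hi| := fun y => abs_le_max_abs_abs (hb y).1 (hb y).2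
  refine ⟨?_, fun y => ?_⟩
  · refine continuous_of_dominated (fun y => (hF.comp (by fun_prop)).aestronglyMeasurable)
      (fun y => Eventually.of_forall fun z => (Real.norm_eq_abs _).trans_le (hn _))
      (integrable_const _) (Eventually.of_forall fun z => hF.comp (by fun_prop))
  · have hi' : Integrable (fun z : κ → ℝ => F fun i => y i + Real.sqrt t * z i)
        (Measure.pi fun _ : κ => ProbabilityTheory.gaussianReal 0 1) :=
      Integrable.of_bound (hF.comp (by fun_prop)).aestronglyMeasurable _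
        (Eventually.of_forall fun z => (Real.norm_eq_abs _).trans_le (hn _))
    constructor
    · exact le_of_eq_of_le (by simp) (integral_mono (integrable_const lo) hi' fun z => (hb _).1)
    · exact (integral_mono hi' (integrable_const hi) fun z => (hb _).2).trans_eq (by simp)

lemma potV_bdd {d : Fin (r + 1) → ℝ} (hm : ∀ j, 0 ≤ m j) {u : (κ → ℝ) → ℝ} (hu : Continuous u)
    {b : ℝ} (hb : ∀ y, 0 ≤ u y ∧ u y ≤ b) (k : ℕ) :
    Continuous (potV m d u k) ∧ ∀ y, 0 ≤ potV m d u k y ∧ potV m d u k y ≤ b := by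
  induction k with
  | zero => exact ⟨hu, hb⟩
  | succ k ih =>
    simp only [potV]
    split_ifs with h h0
    · exact heatV_bdd ih.1 ih.2 _
    · set j : Fin (r + 1) := ⟨r - k, by omega⟩
      have hj : 0 < m j := lt_of_le_of_ne (hm j) (Ne.symm h0)
      obtain ⟨hc, hb'⟩ := heatV_bdd (lo := 1) (hi := Real.exp (m j * b))
        (F := fun x => Real.exp (m j * potV m d u k x)) (ih.1.const_mul (m j)).rexp
        (fun y => ⟨Real.one_le_exp (mul_nonneg hj.le (ih.2 y).1),
          Real.exp_le_exp.2 (mul_le_mul_of_nonneg_left (ih.2 y).2 hj.le)⟩) (d j)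
      refine ⟨(hc.log fun y => (zero_lt_one.trans_le (hb' y).1).ne').div_const _, fun y => ?_⟩
      have h2 := Real.log_le_log (zero_lt_one.trans_le (hb' y).1) (hb' y).2
      rw [Real.log_exp] at h2
      exact ⟨div_nonneg (Real.log_nonneg (hb' y).1) hj.le, (div_le_iff₀ hj).2 (by linarith)⟩
    · exact ih

lemma insV_one {d : Fin (r + 1) → ℝ} (hm : ∀ j, 0 ≤ m j) {u θ : (κ → ℝ) → ℝ} (hu : Continuous u)
    {b : ℝ} (hb : ∀ y, 0 ≤ u y ∧ u y ≤ b) (hθ : ∀ y, θ y = 1) (k : ℕ) (y : κ → ℝ) :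
    insV m d u θ k y = 1 := by
  induction k generalizing y with
  | zero => exact hθ y
  | succ k ih =>
    simp only [insV]
    split_ifs with h
    · simp only [ih, mul_one]
      obtain ⟨hc, hb'⟩ := potV_bdd (d := d) hm hu hb k
      refine div_self (zero_lt_one.trans_le ((heatV_bdd (lo := 1)
        (hi := Real.exp (m ⟨r - k, by omega⟩ * b)) (hc.const_mul _).rexp (fun x => ⟨?_, ?_⟩) _).2
          y).1).ne'
      · exact Real.one_le_exp (mul_nonneg (hm _) (hb' x).1)
      · exact Real.exp_le_exp.2 (mul_le_mul_of_nonneg_left (hb' x).2 (hm _))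
    · exact ih y

/-- An insertion equal to one stays one. -/
lemma twoV_one {rest : ℝ} {d : Fin (r + 1) → ℝ} (hm : ∀ j, 0 ≤ m j) {M : ℝ} {Φ : (κ → ℝ) → ℝ}
    (hΦ : Wgt M Φ) (j : Fin (r + 1)) :
    twoV m d rest Φ (fun _ => 1) (fun _ => 1) j = 1 := by
  obtain ⟨hc, hb⟩ := heatV_bdd hΦ.cont hΦ.range rest
  have hu : Continuous (leafU Φ rest) := hc.log fun y => (zero_lt_one.trans_le (hb y).1).ne'
  have hub : ∀ y, 0 ≤ leafU Φ rest y ∧ leafU Φ rest y ≤ Real.log M := fun y =>
    ⟨Real.log_nonneg (hb y).1, Real.log_le_log (zero_lt_one.trans_le (hb y).1) (hb y).2⟩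
  have hθ : ∀ y, leafI Φ (fun _ => 1) rest y = 1 := fun y => by
    simp only [leafI, one_mul]
    exact div_self (zero_lt_one.trans_le (hb y).1).ne'
  refine insV_one (fun i => hm _) (potV_bdd hm hu hub _).1 (potV_bdd hm hu hub _).2 (fun y => ?_) _ _
  rw [insV_one hm hu hub hθ, one_mul]

/-! ### The slopes above the lowest atom -/

variable {K : ℕ} {a : Atoms K} {β : ℝ} {i0 : Fin K}

lemma dlA_nonneg (hβ : 0 ≤ β) (hmin : ∀ i, a.lam i0 ≤ a.lam i) (j : Option (Fin K)) :
    0 ≤ dlA a β i0 j := by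
  cases j with
  | none => exact le_rfl
  | some i => exact mul_nonneg hβ (sub_nonneg.2 (hmin i))

lemma dlA_self : dlA a β i0 (some i0) = 0 := by simp [dlA]

lemma sum_vA_sq {θ : ℝ} (hθ : 0 ≤ θ) (hθ' : θ ≤ a.wt i0) : ∑ j, vA a i0 θ j ^ 2 = 1 := by
  have h : ∀ i, vA a i0 θ (some i) ^ 2 = a.wt i - if i = i0 then θ else 0 := fun i => by
    simp only [vA, Option.elim]
    split_ifs with hi
    · subst hi
      exact Real.sq_sqrt (sub_nonneg.2 hθ')
    · rw [Real.sq_sqrt (a.pos i).le, sub_zero]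
  rw [Fintype.sum_option]
  simp only [h, Finset.sum_sub_distrib, a.total, Finset.sum_ite_eq', Finset.mem_univ, if_true]
  simp only [vA, Option.elim, Real.sq_sqrt hθ]
  ring

lemma dirn_vA (hβ : 0 ≤ β) (hmin : ∀ i, a.lam i0 ≤ a.lam i) {θ : ℝ} (hθ : 0 ≤ θ)
    (hθ' : θ ≤ a.wt i0) : Dirn (dlA a β i0) (vA a i0 θ) (some i0) := by
  refine ⟨dlA_nonneg hβ hmin, dlA_self, sum_vA_sq hθ hθ', fun j => ?_⟩
  cases j <;> exact Real.sqrt_nonneg _

lemma fInc_nonneg (hc : 0 ≤ c) (hq : Monotone q) (h0 : ∀ j, 0 ≤ q j) (j : Fin (r + 1)) :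
    0 ≤ fInc q c j := by
  refine mul_nonneg hc ?_
  rw [incr]
  split_ifs with h
  · simpa using h0 j
  · exact sub_nonneg.2 (hq (Fin.mk_le_of_le_val (Nat.sub_le _ _)))

lemma fRest_nonneg (hc : 0 ≤ c) (h1 : ∀ j, q j < 1) : 0 ≤ fRest q c :=
  mul_nonneg hc (sub_nonneg.2 (h1 _).le)

variable {A : Arr} {k : ℕ}

lemma discr_lt (D : Discr A (k + 2)) (j : Fin (D.r + 1)) : D.q j < 1 := by
  have h : (0 : ℝ) < 1 / ((k + 2 : ℕ) : ℝ) := by positivity
  linarith [(D.rangeq j).2]

lemma discr_inc (D : Discr A (k + 2)) (hc : 0 ≤ c) :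
    (∀ j, 0 ≤ fInc D.q c j) ∧ 0 ≤ fRest D.q c :=
  ⟨fInc_nonneg hc D.monoq fun j => (D.rangeq j).1, fRest_nonneg hc (discr_lt D)⟩

end Vale.Agent.P166F.Low
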