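import Vale.Agent.P166F.Structure
import Vale.Agent.P166F.Low.Facts

/-!
P166: a limit array for a sequence of base systems, with positive variance of the fields.
-/

namespace Vale.Agent.P166F.Low

open MeasureTheory Filter
open scoped Topology
open Vale.Agent.P157.Low (Arr Mat)
open Vale.Agent.P166N.Spectrum (OrthInvLaw)

variable {K : ℕ} {a : Atoms K} {i0 : Fin K} (R : Regime a i0) {β : ℝ}
  {ν : (N : ℕ) → Measure (Fin N → Fin N → ℝ)}

lemma Regime.sys_expect (hν : ∀ N, OrthInvLaw N (ν N)) (i : ℕ) {r : ℕ} (Φ : OArr Unit r → ℝ) :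
    (R.sys β ν hν i).expect (R.s i) (R.y i) Φ = R.avg β ν i fun U x =>
      Φ fun u v _ => gramF (R.n i) (R.base i).lbl none U x u v :=
  lsys_expect _ _ _ _ _ _ _ Φ

lemma Regime.avg_mono (hν : ∀ N, OrthInvLaw N (ν N)) (i : ℕ) {r : ℕ}
    {Θ Θ' : (Fin (R.N i) → Fin (R.N i) → ℝ) → (Fin r → Fin (R.N i) → Bool) → ℝ}
    (hc : ∀ x, Continuous fun U => Θ U x) (hc' : ∀ x, Continuous fun U => Θ' U x) {B : ℝ}
    (hB : ∀ U x, (Matrix.of U).transpose * Matrix.of U = 1 → |Θ U x| ≤ B ∧ |Θ' U x| ≤ B)
    (h : ∀ U x, Θ U x ≤ Θ' U x) : R.avg β ν i Θ ≤ R.avg β ν i Θ' :=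
  integral_mono (R.integrable_of_orth hν i (continuous_pgibbs hc)
      fun z hz => abs_pgibbs_le fun x => (hB z.1 x hz).1)
    (R.integrable_of_orth hν i (continuous_pgibbs hc')
      fun z hz => abs_pgibbs_le fun x => (hB z.1 x hz).2) fun z => pgibbs_mono (h z.1)

lemma sq_field_le (i : ℕ) {U : Fin (R.N i) → Fin (R.N i) → ℝ}
    (hU : (Matrix.of U).transpose * Matrix.of U = 1) (σ : Fin (R.N i) → Bool)
    (x : Fld (some i0 : Option (Fin K))) : R.field i U σ x ^ 2 ≤ (R.N i : ℝ) :=
  (Finset.single_le_sum (f := fun j => coord U σ j ^ 2) (fun j _ => sq_nonneg _)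
    (Finset.mem_univ ((R.base i).row x))).trans_eq (sum_sq_coord hU σ)

lemma continuous_clip (b : ℝ) : Continuous (clip b) := by
  unfold clip
  fun_prop

lemma abs_clip_le {b : ℝ} (hb : 0 ≤ b) (x : ℝ) : |clip b x| ≤ b :=
  abs_le.2 ⟨le_max_left _ _, max_le (by linarith) (min_le_left _ _)⟩

lemma continuous_probe {l : Fin K} (hl : l ≠ i0) : Continuous (probe (i0 := i0) hl) :=
  continuous_apply _

theorem exists_array (hβ : 0 < β) (hmin : ∀ i, a.lam i0 ≤ a.lam i)
    (hν : ∀ N, OrthInvLaw N (ν N))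
    (hdiag : ∀ j, Tendsto (fun i => (R.sys β ν hν i).expect (R.s i) (R.y i) (n := 1) fun O =>
      |O 0 0 j - (R.sys β ν hν i).expect (R.s i) (R.y i) (n := 1) fun O' => O' 0 0 j|) atTop (𝓝 0))
    (hgg : ∀ (n : ℕ) (l : Fin n) (Φ : OArr Unit n → ℝ) (e : Unit → ℕ), Continuous Φ →
      (∃ C, ∀ O, |Φ O| ≤ C) → 0 < ∑ j, e j →
      Tendsto (fun i => (n : ℝ) * (R.sys β ν hν i).expect (R.s i) (R.y i)
          (fun O : OArr Unit (n + 1) =>
            Φ (osub O Fin.castSucc) * monom e (O l.castSucc (Fin.last n))) -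
        ((R.sys β ν hν i).expect (R.s i) (R.y i) Φ *
            (R.sys β ν hν i).expect (R.s i) (R.y i) (fun O : OArr Unit 2 => monom e (O 0 1)) +
          ∑ l' ∈ Finset.univ.erase l,
            (R.sys β ν hν i).expect (R.s i) (R.y i) fun O : OArr Unit n =>
              Φ O * monom e (O l l'))) atTop (𝓝 0)) :
    ∃ φ : ℕ → ℕ, ∃ hφ : StrictMono φ, ∃ (c : ℝ) (A : Arr), (R.sub φ hφ).Conv β ν c A := by
  obtain ⟨φ, hφ, v, A, hA⟩ := exists_conv (fun i => R.sys β ν hν i) R.s R.y hdiag hgg
  refine ⟨φ, hφ, ?_⟩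
  set R' := R.sub φ hφ
  have hlim : ∀ (r : ℕ) (Φ : Mat r → ℝ), Continuous Φ →
      Tendsto (fun i => R'.avg β ν i fun U x => Φ (R'.cov i U x)) atTop
        (𝓝 (∫ O, Φ (fun u w => R.ρ * O u w ()) ∂A.law r)) := by
    intro r Φ hΦ
    exact (hA r (fun O => Φ fun u w => R.ρ * O u w ())
      (hΦ.comp (continuous_pi fun u => continuous_pi fun w => by fun_prop))).congr
        fun i => R.sys_expect hν (φ i) _
  have hv1 : v () ≤ 1 := by
    have := A.prob 1
    obtain ⟨O, hO, hO'⟩ := ((A.diag 1).and (A.bdd 1)).exists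
    calc v () = O 0 0 () := (congrFun (hO 0) ()).symm
      _ ≤ 1 := (abs_le.1 (hO' 0 0 ())).2
  rcases (A.self_nonneg ()).eq_or_lt with hv | hv
  · exfalso
    obtain ⟨C, hC⟩ := R'.stationary_one hβ hmin hν
    have hcov0 : Tendsto (fun i => R'.avg β ν i (r := 1) fun U x => R'.cov i U x 0 0) atTop (𝓝 0) := by
      have h := hlim 1 (fun M => M 0 0) (by fun_prop)
      have e : ∫ O, R.ρ * O 0 0 () ∂A.law 1 = 0 := by
        refine integral_eq_zero_of_ae ((A.diag 1).mono fun O hO => ?_)
        simp only [Pi.zero_apply, congrFun (hO 0) (), ← hv, mul_zero]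
      rwa [e] at h
    set b : ℝ := max 1 (4 * |C| + 1)
    have hb1 : 1 ≤ b := le_max_left _ _
    have hL : 0 < b ^ 2 := by positivity
    set W := R'.spW β (b ^ 2)
    have hW : Wgt (Real.exp (b ^ 2)) W := wgt_spinW (dlA_nonneg hβ.le hmin) _ hL.le le_rfl
    have hprobe : ∀ l (hl : l ≠ i0), Tendsto (fun i => R'.tiltAvg β ν i W (r := 1) fun U x =>
        min b (probe hl (R'.field i U (x 0)) ^ 2)) atTop (𝓝 0) := by
      intro l hl
      have h0 : Tendsto (fun i => R'.avg β ν i (r := 1) fun U x => probe hl (R'.field i U (x 0)) ^ 2)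
          atTop (𝓝 0) := by
        simpa using (R'.probe_sq_base (β := β) hν hl).add hcov0
      have h0' := h0.const_mul (Real.exp (b ^ 2) ^ 1)
      rw [mul_zero] at h0'
      have hcq : ∀ i (x : Fin 1 → Fin (R'.N i) → Bool),
          Continuous fun U => probe hl (R'.field i U (x 0)) ^ 2 := fun i x =>
        ((continuous_probe hl).comp (R'.continuous_field i (x 0))).pow 2
      have hnn : ∀ i U (x : Fin 1 → Fin (R'.N i) → Bool),
          0 ≤ min b (probe hl (R'.field i U (x 0)) ^ 2) := fun i U x =>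
        le_min (by linarith) (sq_nonneg _)
      have hbd : ∀ i U (x : Fin 1 → Fin (R'.N i) → Bool),
          (Matrix.of U).transpose * Matrix.of U = 1 →
            |min b (probe hl (R'.field i U (x 0)) ^ 2)| ≤ b := fun i U x _ => by
        rw [abs_of_nonneg (hnn i U x)]
        exact min_le_left _ _
      refine squeeze_zero (fun i => ?_) (fun i => ?_) h0'
      · exact (R'.tiltAvg_le hν hW i (fun x => continuous_const.min (hcq i x)) (hbd i) (hnn i)).1
      · refine (R'.tiltAvg_le hν hW i (fun x => continuous_const.min (hcq i x)) (hbd i)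
          (hnn i)).2.trans ?_
        refine mul_le_mul_of_nonneg_left ?_ (by positivity)
        refine R'.avg_mono hν i (fun x => continuous_const.min (hcq i x)) (hcq i)
          (B := b + R'.N i) (fun U x hU => ⟨(hbd i U x hU).trans (by simp), ?_⟩)
          fun U x => min_le_right _ _
        rw [abs_of_nonneg (sq_nonneg _)]
        exact (sq_field_le R' i hU _ _).trans (le_add_of_nonneg_left (by linarith))
    have hcovT : Tendsto (fun i => R'.tiltAvg β ν i W (r := 1) fun U x => R'.cov i U x 0 0)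
        atTop (𝓝 0) := by
      have h0' := hcov0.const_mul (Real.exp (b ^ 2) ^ 1)
      rw [mul_zero] at h0'
      have hnn : ∀ i U (x : Fin 1 → Fin (R'.N i) → Bool), 0 ≤ R'.cov i U x 0 0 := fun i U x =>
        mul_nonneg R'.ρpos.le real_inner_self_nonneg
      exact squeeze_zero
        (fun i => (R'.tiltAvg_le hν hW i (fun x => R'.continuous_cov i x 0 0)
          (fun U x hU => R'.abs_cov_le i hU x 0 0) (hnn i)).1)
        (fun i => (R'.tiltAvg_le hν hW i (fun x => R'.continuous_cov i x 0 0)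
          (fun U x hU => R'.abs_cov_le i hU x 0 0) (hnn i)).2) h0'
    have hsum : Tendsto (fun i => (∑ l : Fin K, if hl : l = i0 then 0 else
        a.wt l * R'.tiltAvg β ν i W (r := 1) (fun U x =>
          min b (probe hl (R'.field i U (x 0)) ^ 2))) +
        a.wt i0 * R'.tiltAvg β ν i W (r := 1) (fun U x => R'.cov i U x 0 0)) atTop (𝓝 0) := by
      have hl0 : ∀ l : Fin K, Tendsto (fun i => if hl : l = i0 then 0 else
          a.wt l * R'.tiltAvg β ν i W (r := 1) (fun U x =>
            min b (probe hl (R'.field i U (x 0)) ^ 2))) atTop (𝓝 0) := fun l => by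
        by_cases hl : l = i0
        · simp [hl]
        · simpa [hl] using (hprobe l hl).const_mul (a.wt l)
      simpa using (tendsto_finsetSum _ fun l _ => hl0 l).add (hcovT.const_mul (a.wt i0))
    have hle : (1 : ℝ) ≤ C * b / b ^ 2 + C / b := by
      refine le_of_forall_pos_le_add fun ε hε => ?_
      have h1 := (tendsto_const_nhds (x := (1 : ℝ))).sub hsum |>.abs
      rw [sub_zero, abs_one] at h1
      exact le_of_tendsto h1 (hC _ b hL hb1 ε hε)
    have h2 : C * b / b ^ 2 + C / b ≤ 2 * |C| / b := by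
      rw [show C * b / b ^ 2 = C / b by field_simp]
      have h3 := div_le_div_of_nonneg_right (le_abs_self C) (zero_le_one.trans hb1)
      rw [mul_div_assoc]
      linarith
    have h3 : 2 * |C| / b < 1 := by
      rw [div_lt_one (by linarith)]
      linarith [le_max_right 1 (4 * |C| + 1), abs_nonneg C]
    linarith
  · obtain ⟨B, hB⟩ := A.exists_comb (c := fun _ => 1) (fun _ => zero_le_one) (by simpa using hv)
    refine ⟨R.ρ * v (), B, mul_pos R.ρpos hv, mul_le_of_le_one_right R.ρpos.le hv1,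
      fun r Φ hΦ => ?_⟩
    have e : ∫ M, Φ (fun u w => R.ρ * v () * M u w) ∂B.law r =
        ∫ O, Φ (fun u w => R.ρ * O u w ()) ∂A.law r := by
      have hg : Continuous fun O : OArr Unit r => fun u w =>
          (∑ j, (1 : ℝ) * O u w j) / ∑ i, (1 : ℝ) * v i := by fun_prop
      have hs : Continuous fun M : Mat r => fun u w => R.ρ * v () * M u w := by fun_prop
      rw [hB r, integral_map (f := fun M : Mat r => Φ fun u w => R.ρ * v () * M u w)
        hg.measurable.aemeasurable (hΦ.comp hs).aestronglyMeasurable]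
      refine integral_congr_ae (Eventually.of_forall fun O => congrArg Φ (funext fun u => funext fun w => ?_))
      simp only [Fintype.sum_unique, one_mul, PUnit.default_eq_unit]
      field_simp
    rw [e]
    exact hlim r Φ hΦ

end Vale.Agent.P166F.Low
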