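import Vale.Agent.P166F.Low.Regime

/-!
P166: elementary facts on the replica averages of the base systems.
-/

namespace Vale.Agent.P166F.Low

open MeasureTheory ProbabilityTheory Filter
open scoped RealInnerProductSpace
open Vale.Agent.P166N.Spectrum (OrthInvLaw)

variable {κ : Type} [DecidableEq κ] {N P n r : ℕ} {dl : κ → ℝ} {lbl : Fin N → κ} {f : κ} {s : ℝ}
  {y : CIdx Unit P → ℝ} {U : Fin N → Fin N → ℝ} {g : EuclideanSpace ℝ (GIdx Unit P N)}
  {Θ Θ' : (Fin r → Fin N → Bool) → ℝ}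

lemma sum_exp_pertH_pos : 0 < ∑ σ, Real.exp (pertH dl n lbl f s y U g σ) :=
  Finset.sum_pos (fun _ _ => Real.exp_pos _) Finset.univ_nonempty

lemma pgibbs_mono (h : ∀ x, Θ x ≤ Θ' x) :
    pgibbs dl n lbl f s y U g Θ ≤ pgibbs dl n lbl f s y U g Θ' :=
  div_le_div_of_nonneg_right (Finset.sum_le_sum fun x _ => mul_le_mul_of_nonneg_left (h x)
    (Finset.prod_nonneg fun _ _ => (Real.exp_pos _).le)) (pow_nonneg sum_exp_pertH_pos.le _)

lemma pgibbs_const (b : ℝ) : pgibbs dl n lbl f s y U g (fun _ : Fin r → Fin N → Bool => b) = b := by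
  rw [pgibbs, ← Finset.sum_mul, ← Fintype.prod_sum fun (_ : Fin r) σ =>
    Real.exp (pertH dl n lbl f s y U g σ), Finset.prod_const, Finset.card_univ, Fintype.card_fin,
    mul_div_cancel_left₀]
  exact (pow_pos sum_exp_pertH_pos r).ne'

lemma pgibbs_nonneg (h : ∀ x, 0 ≤ Θ x) : 0 ≤ pgibbs dl n lbl f s y U g Θ :=
  (pgibbs_const (r := r) (0 : ℝ)).symm.trans_le (pgibbs_mono h)

lemma abs_pgibbs_le {B : ℝ} (h : ∀ x, |Θ x| ≤ B) : |pgibbs dl n lbl f s y U g Θ| ≤ B :=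
  abs_le.2 ⟨(pgibbs_const (r := r) (-B)).symm.trans_le (pgibbs_mono fun x => (abs_le.1 (h x)).1),
    (pgibbs_mono fun x => (abs_le.1 (h x)).2).trans_eq (pgibbs_const B)⟩

lemma pgibbs_add : pgibbs dl n lbl f s y U g (fun x => Θ x + Θ' x) =
    pgibbs dl n lbl f s y U g Θ + pgibbs dl n lbl f s y U g Θ' := by
  simp only [pgibbs, mul_add, Finset.sum_add_distrib, add_div]

lemma pgibbs_mul_left (b : ℝ) :
    pgibbs dl n lbl f s y U g (fun x => b * Θ x) = b * pgibbs dl n lbl f s y U g Θ := by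
  simp only [pgibbs, ← mul_assoc, mul_comm _ b, mul_div_assoc', Finset.mul_sum]

lemma continuous_pertH (σ : Fin N → Bool) :
    Continuous fun z : (Fin N → Fin N → ℝ) × EuclideanSpace ℝ (GIdx Unit P N) =>
      pertH dl n lbl f s y z.1 z.2 σ := by
  have hv : Continuous fun z : (Fin N → Fin N → ℝ) × EuclideanSpace ℝ (GIdx Unit P N) =>
      featV n lbl f z.1 σ := (continuous_featV n lbl f σ).comp continuous_fst
  refine (((continuous_clsEnergy dl lbl σ).comp continuous_fst).add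
    (continuous_snd.inner ?_)).add ((hv.norm.pow 2).const_mul _)
  refine (PiLp.continuous_toLp 2 _).comp (continuous_pi fun i => continuous_const.mul ?_)
  exact continuous_finsetProd _ fun j _ => continuous_finsetProd _ fun t _ =>
    (PiLp.continuous_apply 2 _ (i.2 j t)).comp hv

lemma continuous_pgibbs {Ξ : (Fin N → Fin N → ℝ) → (Fin r → Fin N → Bool) → ℝ}
    (hΞ : ∀ x, Continuous fun U => Ξ U x) :
    Continuous fun z : (Fin N → Fin N → ℝ) × EuclideanSpace ℝ (GIdx Unit P N) =>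
      pgibbs dl n lbl f s y z.1 z.2 (Ξ z.1) := by
  refine Continuous.div (continuous_finsetSum _ fun x _ =>
    (continuous_finsetProd _ fun l _ => Real.continuous_exp.comp (continuous_pertH (x l))).mul
      ((hΞ x).comp continuous_fst))
    ((continuous_finsetSum _ fun σ _ => Real.continuous_exp.comp (continuous_pertH σ)).pow r)
    fun z => (pow_pos sum_exp_pertH_pos r).ne'

namespace Regime

variable {K : ℕ} {a : Atoms K} {i0 : Fin K} (R : Regime a i0) {β : ℝ}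
  {ν : (N : ℕ) → Measure (Fin N → Fin N → ℝ)}

lemma continuous_field (i : ℕ) (σ : Fin (R.N i) → Bool) : Continuous fun U => R.field i U σ :=
  continuous_pi fun _ => continuous_coord σ _

lemma continuous_cov (i : ℕ) {r : ℕ} (x : Fin r → Fin (R.N i) → Bool) (u v : Fin r) :
    Continuous fun U => R.cov i U x u v :=
  ((continuous_featV _ _ _ _).inner (continuous_featV _ _ _ _)).const_mul _

lemma abs_cov_le (i : ℕ) {U : Fin (R.N i) → Fin (R.N i) → ℝ}
    (hU : (Matrix.of U).transpose * Matrix.of U = 1) {r : ℕ} (x : Fin r → Fin (R.N i) → Bool)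
    (u v : Fin r) : |R.cov i U x u v| ≤ R.ρ := by
  rw [cov, abs_mul, abs_of_pos R.ρpos]
  refine mul_le_of_le_one_right R.ρpos.le ((abs_real_inner_le_norm _ _).trans ?_)
  exact mul_le_one₀ (norm_featV_le hU _ _ _ _) (norm_nonneg _) (norm_featV_le hU _ _ _ _)

/-- The law of the disorder of index `i`. -/
noncomputable def dlaw (ν : (N : ℕ) → Measure (Fin N → Fin N → ℝ)) (i : ℕ) :
    Measure ((Fin (R.N i) → Fin (R.N i) → ℝ) × EuclideanSpace ℝ (GIdx Unit (R.P i) (R.N i))) :=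
  (ν (R.N i)).prod (stdGaussian (EuclideanSpace ℝ (GIdx Unit (R.P i) (R.N i))))

lemma ae_orth (hν : ∀ N, OrthInvLaw N (ν N)) (i : ℕ) :
    ∀ᵐ z ∂(R.dlaw ν i), (Matrix.of z.1).transpose * Matrix.of z.1 = 1 :=
  ae_orth_prod (hν _)

lemma prob_dlaw (hν : ∀ N, OrthInvLaw N (ν N)) (i : ℕ) : IsProbabilityMeasure (R.dlaw ν i) := by
  have := (hν (R.N i)).prob
  unfold dlaw
  infer_instance

/-- A continuous function of the disorder, bounded on orthogonal matrices, is integrable. -/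
lemma integrable_of_orth (hν : ∀ N, OrthInvLaw N (ν N)) (i : ℕ)
    {F : (Fin (R.N i) → Fin (R.N i) → ℝ) × EuclideanSpace ℝ (GIdx Unit (R.P i) (R.N i)) → ℝ}
    (hc : Continuous F) {B : ℝ}
    (hB : ∀ z, (Matrix.of z.1).transpose * Matrix.of z.1 = 1 → |F z| ≤ B) :
    Integrable F (R.dlaw ν i) := by
  have := R.prob_dlaw hν i
  exact Integrable.of_bound hc.aestronglyMeasurable B
    ((R.ae_orth hν i).mono fun z hz => (Real.norm_eq_abs _).trans_le (hB z hz))

lemma abs_pmean_le (hν : ∀ N, OrthInvLaw N (ν N)) (i : ℕ)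
    {F : (Fin (R.N i) → Fin (R.N i) → ℝ) → EuclideanSpace ℝ (GIdx Unit (R.P i) (R.N i)) → ℝ}
    {B : ℝ} (hB : ∀ U g, (Matrix.of U).transpose * Matrix.of U = 1 → |F U g| ≤ B) :
    |pmean (ν (R.N i)) F| ≤ B := by
  have := R.prob_dlaw hν i
  have := (hν (R.N i)).prob
  have h := norm_integral_le_of_norm_le_const (μ := R.dlaw ν i) (f := fun z => F z.1 z.2)
    ((R.ae_orth hν i).mono fun z hz => (Real.norm_eq_abs _).trans_le (hB z.1 z.2 hz))
  simpa [pmean, dlaw, Real.norm_eq_abs, probReal_univ] using h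

variable {M : ℝ} {Φ : (Fld (some i0 : Option (Fin K)) → ℝ) → ℝ}

lemma one_le_norm (hΦ : Wgt M Φ) (i : ℕ) (U : Fin (R.N i) → Fin (R.N i) → ℝ)
    (g : EuclideanSpace ℝ (GIdx Unit (R.P i) (R.N i))) :
    1 ≤ pgibbs (dlA a β i0) (R.n i) (R.base i).lbl none (R.s i) (R.y i) U g (r := 1)
      (fun x => Φ (R.field i U (x 0))) :=
  (pgibbs_const (r := 1) (1 : ℝ)).symm.trans_le (pgibbs_mono fun _ => (hΦ.range _).1)

lemma norm_le (hΦ : Wgt M Φ) (i : ℕ) (U : Fin (R.N i) → Fin (R.N i) → ℝ)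
    (g : EuclideanSpace ℝ (GIdx Unit (R.P i) (R.N i))) :
    pgibbs (dlA a β i0) (R.n i) (R.base i).lbl none (R.s i) (R.y i) U g (r := 1)
      (fun x => Φ (R.field i U (x 0))) ≤ M :=
  (pgibbs_mono fun _ => (hΦ.range _).2).trans_eq (pgibbs_const M)

lemma continuous_tilt (hΦ : Wgt M Φ) (i : ℕ) {r : ℕ}
    {Θ : (Fin (R.N i) → Fin (R.N i) → ℝ) → (Fin r → Fin (R.N i) → Bool) → ℝ}
    (hΘ : ∀ x, Continuous fun U => Θ U x) :
    Continuous fun z : (Fin (R.N i) → Fin (R.N i) → ℝ) × EuclideanSpace ℝ (GIdx Unit (R.P i) (R.N i)) =>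
      pgibbs (dlA a β i0) (R.n i) (R.base i).lbl none (R.s i) (R.y i) z.1 z.2
          (fun x => (∏ l, Φ (R.field i z.1 (x l))) * Θ z.1 x) /
        pgibbs (dlA a β i0) (R.n i) (R.base i).lbl none (R.s i) (R.y i) z.1 z.2 (r := 1)
          (fun x => Φ (R.field i z.1 (x 0))) ^ r := by
  refine (continuous_pgibbs (Ξ := fun U x => (∏ l, Φ (R.field i U (x l))) * Θ U x) fun x =>
    (continuous_finsetProd _ fun l _ => hΦ.cont.comp (R.continuous_field i (x l))).mul (hΘ x)).div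
    ((continuous_pgibbs (Ξ := fun U (x : Fin 1 → Fin (R.N i) → Bool) => Φ (R.field i U (x 0)))
      fun x => hΦ.cont.comp (R.continuous_field i (x 0))).pow r) fun z =>
    (pow_pos (zero_lt_one.trans_le (R.one_le_norm hΦ i z.1 z.2)) r).ne'

lemma abs_tiltAvg_le (hν : ∀ N, OrthInvLaw N (ν N)) (hΦ : Wgt M Φ) (i : ℕ) {r : ℕ}
    {Θ : (Fin (R.N i) → Fin (R.N i) → ℝ) → (Fin r → Fin (R.N i) → Bool) → ℝ} {B : ℝ}
    (hB : ∀ U x, (Matrix.of U).transpose * Matrix.of U = 1 → |Θ U x| ≤ B) :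
    |R.tiltAvg β ν i Φ Θ| ≤ M ^ r * B := by
  refine R.abs_pmean_le hν i fun U g hU => ?_
  have h1 := one_le_pow₀ (R.one_le_norm (β := β) hΦ i U g) (n := r)
  rw [abs_div, abs_of_pos (zero_lt_one.trans_le h1)]
  refine (div_le_self (abs_nonneg _) h1).trans (abs_pgibbs_le fun x => ?_)
  rw [abs_mul, Finset.abs_prod]
  refine mul_le_mul ((Finset.prod_le_prod (g := fun _ => M) (fun l _ => abs_nonneg _) fun l _ =>
    ?_).trans_eq ?_)
    (hB U x hU) (abs_nonneg _) (pow_nonneg (zero_le_one.trans ((hΦ.range 0).1.trans (hΦ.range 0).2)) r)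
  · rw [abs_of_nonneg (zero_le_one.trans (hΦ.range _).1)]
    exact (hΦ.range _).2
  · simp

/-- Reweighting by a weight in `[1, M]` enlarges averages of nonnegative functions by at most `M ^ r`. -/
lemma tiltAvg_le (hν : ∀ N, OrthInvLaw N (ν N)) (hΦ : Wgt M Φ) (i : ℕ) {r : ℕ}
    {Θ : (Fin (R.N i) → Fin (R.N i) → ℝ) → (Fin r → Fin (R.N i) → Bool) → ℝ}
    (hc : ∀ x, Continuous fun U => Θ U x) {B : ℝ}
    (hB : ∀ U x, (Matrix.of U).transpose * Matrix.of U = 1 → |Θ U x| ≤ B)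
    (h0 : ∀ U x, 0 ≤ Θ U x) :
    0 ≤ R.tiltAvg β ν i Φ Θ ∧ R.tiltAvg β ν i Φ Θ ≤ M ^ r * R.avg β ν i Θ := by
  have hM : 0 ≤ M := zero_le_one.trans ((hΦ.range 0).1.trans (hΦ.range 0).2)
  have hp : ∀ U (x : Fin r → Fin (R.N i) → Bool), 0 ≤ (∏ l, Φ (R.field i U (x l))) * Θ U x :=
    fun U x => mul_nonneg (Finset.prod_nonneg fun l _ => zero_le_one.trans (hΦ.range _).1) (h0 U x)
  have h1 := fun U g => one_le_pow₀ (R.one_le_norm (β := β) hΦ i U g) (n := r)
  refine ⟨integral_nonneg fun z => div_nonneg (pgibbs_nonneg (hp _))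
    (zero_le_one.trans (h1 z.1 z.2)), ?_⟩
  rw [tiltAvg, avg, pmean, pmean, ← integral_const_mul]
  refine integral_mono_of_nonneg (Eventually.of_forall fun z => div_nonneg (pgibbs_nonneg (hp _))
    (zero_le_one.trans (h1 z.1 z.2))) ((R.integrable_of_orth hν i (continuous_pgibbs hc)
      fun z hz => abs_pgibbs_le fun x => hB z.1 x hz).const_mul _) (Eventually.of_forall fun z => ?_)
  refine (div_le_self (pgibbs_nonneg (hp _)) (h1 z.1 z.2)).trans ?_
  beta_reduce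
  rw [← pgibbs_mul_left]
  refine pgibbs_mono fun x => mul_le_mul_of_nonneg_right ?_ (h0 _ x)
  refine (Finset.prod_le_prod (g := fun _ => M) (fun l _ => zero_le_one.trans (hΦ.range _).1)
    fun l _ => (hΦ.range _).2).trans_eq ?_
  simp

lemma logAvg_mono (hν : ∀ N, OrthInvLaw N (ν N)) {M' : ℝ}
    {Φ' : (Fld (some i0 : Option (Fin K)) → ℝ) → ℝ} (hΦ : Wgt M Φ) (hΦ' : Wgt M' Φ')
    (h : ∀ y, Φ y ≤ Φ' y) (i : ℕ) : R.logAvg β ν i Φ ≤ R.logAvg β ν i Φ' := by
  have hint : ∀ {M : ℝ} {Φ : (Fld (some i0 : Option (Fin K)) → ℝ) → ℝ}, Wgt M Φ → Integrable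
      (fun z : (Fin (R.N i) → Fin (R.N i) → ℝ) × EuclideanSpace ℝ (GIdx Unit (R.P i) (R.N i)) =>
        Real.log (pgibbs (dlA a β i0) (R.n i) (R.base i).lbl none (R.s i) (R.y i) z.1 z.2 (r := 1)
          fun x => Φ (R.field i z.1 (x 0)))) (R.dlaw ν i) := fun {M Φ} hW =>
    R.integrable_of_orth hν i ((continuous_pgibbs
      (Ξ := fun U (x : Fin 1 → Fin (R.N i) → Bool) => Φ (R.field i U (x 0)))
      fun x => hW.cont.comp (R.continuous_field i (x 0))).log fun z =>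
        (zero_lt_one.trans_le (R.one_le_norm hW i z.1 z.2)).ne') (B := Real.log M) fun z _ => by
      rw [abs_of_nonneg (Real.log_nonneg (R.one_le_norm hW i z.1 z.2))]
      exact Real.log_le_log (zero_lt_one.trans_le (R.one_le_norm hW i z.1 z.2))
        (R.norm_le hW i z.1 z.2)
  exact integral_mono (hint hΦ) (hint hΦ') fun z => Real.log_le_log
    (zero_lt_one.trans_le (R.one_le_norm hΦ i z.1 z.2)) (pgibbs_mono fun _ => h _)

end Regime

end Vale.Agent.P166F.Low
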