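import Vale.Agent.P166F.Sys
import Vale.Agent.P166F.Low.Defs

/-!
P166: the systems of the lower bound: spins with classes of eigen-directions of given slopes, perturbed
along the overlaps inside one class.
-/

namespace Vale.Agent.P166F.Low

open MeasureTheory ProbabilityTheory
open scoped RealInnerProductSpace
open Vale.Agent.P166 (spin)

variable {κ : Type} [DecidableEq κ] {N P : ℕ}

/-- The coordinate `i` of the rotated configuration. -/
def coord (U : Fin N → Fin N → ℝ) (σ : Fin N → Bool) (i : Fin N) : ℝ := ∑ j, U i j * spin (σ j)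

/-- The energy of the classes. -/
noncomputable def clsEnergy (dl : κ → ℝ) (lbl : Fin N → κ) (U : Fin N → Fin N → ℝ)
    (σ : Fin N → Bool) : ℝ :=
  (∑ i, dl (lbl i) * coord U σ i ^ 2) / 2

/-- The coordinates in class `f`, at scale `√(max n N)`. -/
noncomputable def featV (n : ℕ) (lbl : Fin N → κ) (f : κ) (U : Fin N → Fin N → ℝ)
    (σ : Fin N → Bool) : EuclideanSpace ℝ (Fin N) :=
  WithLp.toLp 2 fun i => if lbl i = f then coord U σ i / Real.sqrt (max n N : ℕ) else 0

/-- The vector of the perturbing field. -/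
noncomputable def pvec (y : CIdx Unit P → ℝ) (v : EuclideanSpace ℝ (Fin N)) :
    EuclideanSpace ℝ (GIdx Unit P N) :=
  WithLp.toLp 2 fun x => y (Sum.inl x.1) * ∏ j, ∏ t, v (x.2 j t)

/-- Coefficients in the perturbing box at scale `s`. -/
def PBox (s : ℝ) : Set (CIdx Unit P → ℝ) := {y | ∀ i, 0 ≤ y i ∧ y i ≤ 2 * s}

/-- The perturbed log-weight. -/
noncomputable def pertH (dl : κ → ℝ) (n : ℕ) (lbl : Fin N → κ) (f : κ) (s : ℝ)
    (y : CIdx Unit P → ℝ) (U : Fin N → Fin N → ℝ) (g : EuclideanSpace ℝ (GIdx Unit P N))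
    (σ : Fin N → Bool) : ℝ :=
  clsEnergy dl lbl U σ + ⟪g, pvec y (featV n lbl f U σ)⟫ +
    s * y (Sum.inr ()) * ‖featV n lbl f U σ‖ ^ 2

/-- The mean of `Θ` over the disorder. -/
noncomputable def pmean (ν : Measure (Fin N → Fin N → ℝ))
    (Θ : (Fin N → Fin N → ℝ) → EuclideanSpace ℝ (GIdx Unit P N) → ℝ) : ℝ :=
  ∫ z, Θ z.1 z.2 ∂ν.prod (stdGaussian (EuclideanSpace ℝ (GIdx Unit P N)))

/-- The mean log-sum of the perturbed weights. -/
noncomputable def pmass (dl : κ → ℝ) (n : ℕ) (lbl : Fin N → κ) (f : κ) (s : ℝ)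
    (y : CIdx Unit P → ℝ) (ν : Measure (Fin N → Fin N → ℝ)) : ℝ :=
  pmean ν fun U g => Real.log (∑ σ, Real.exp (pertH dl n lbl f s y U g σ))

/-- The replica average at given disorder. -/
noncomputable def pgibbs (dl : κ → ℝ) (n : ℕ) (lbl : Fin N → κ) (f : κ) (s : ℝ)
    (y : CIdx Unit P → ℝ) (U : Fin N → Fin N → ℝ) (g : EuclideanSpace ℝ (GIdx Unit P N)) {r : ℕ}
    (Ψ : (Fin r → Fin N → Bool) → ℝ) : ℝ :=
  (∑ x : Fin r → Fin N → Bool, (∏ l, Real.exp (pertH dl n lbl f s y U g (x l))) * Ψ x) /
    (∑ σ, Real.exp (pertH dl n lbl f s y U g σ)) ^ r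

/-- The size of a class. -/
def csize (lbl : Fin N → κ) (j : κ) : ℕ := (Finset.univ.filter fun i => lbl i = j).card

/-- The class to which a probe of slot `j` returns. -/
def lab (e f j : κ) : κ := if j = f then e else j

/-- A base system: classes, and one row of class `e` for every cavity and every probe. -/
structure Base (e f : κ) (N : ℕ) where
  lbl : Fin N → κ
  row : Fld e → Fin N
  inj : Function.Injective row
  inRest : ∀ x, lbl (row x) = e

variable {e f : κ}

/-- The labels with the field rows moved: cavities by `g`, probes back to their classes. -/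
noncomputable def Base.moved (b : Base e f N) (g : κ → κ) (i : Fin N) : κ :=
  open scoped Classical in
  if h : ∃ x, b.row x = i then Sum.elim (fun j => g j.1) (fun j => lab e f j.1) h.choose else b.lbl i

/-- The labels after adding a spin. -/
noncomputable def Base.plus (b : Base e f N) : Fin (N + 1) → κ := Fin.snoc (b.moved id) e

/-- The labels after deleting a direction of class `k`. -/
noncomputable def Base.del (b : Base e f N) (k : κ) : Fin N → κ :=
  b.moved fun j => if j = f ∨ j = k then e else j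

/-- The fields of a base system at a configuration. -/
def Base.fields (b : Base e f N) (U : Fin N → Fin N → ℝ) (σ : Fin N → Bool) (x : Fld e) : ℝ :=
  coord U σ (b.row x)

/-- The class norms of the last column. -/
noncomputable def colNorm (lbl : Fin (N + 1) → κ) (V : Fin (N + 1) → Fin (N + 1) → ℝ) (j : κ) : ℝ :=
  Real.sqrt (∑ i, if lbl i = j then V i (Fin.last N) ^ 2 else 0)

end Vale.Agent.P166F.Low
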