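import Vale.Agent.P166F.Low.Model

/-!
P166: the base systems as perturbed systems with one group of features.
-/

namespace Vale.Agent.P166F.Low

open MeasureTheory ProbabilityTheory
open scoped RealInnerProductSpace
open Vale.Agent.P166N.Spectrum (OrthInvLaw)
open Matrix (transpose)
open scoped Matrix

variable {κ : Type} [DecidableEq κ] {N P : ℕ}

/-- The coordinates in class `f`, set to zero outside the unit ball. -/
noncomputable def featC (n : ℕ) (lbl : Fin N → κ) (f : κ) (U : Fin N → Fin N → ℝ)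
    (σ : Fin N → Bool) : EuclideanSpace ℝ (Fin N) :=
  if ‖featV n lbl f U σ‖ ≤ 1 then featV n lbl f U σ else 0

lemma continuous_coord (σ : Fin N → Bool) (i : Fin N) :
    Continuous fun U : Fin N → Fin N → ℝ => coord U σ i := by
  unfold coord
  fun_prop

lemma continuous_featV (n : ℕ) (lbl : Fin N → κ) (f : κ) (σ : Fin N → Bool) :
    Continuous fun U => featV n lbl f U σ := by
  refine (PiLp.continuous_toLp 2 _).comp (continuous_pi fun i => ?_)
  split_ifs
  · exact (continuous_coord σ i).div_const _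
  · exact continuous_const

lemma measurable_featC (n : ℕ) (lbl : Fin N → κ) (f : κ) (σ : Fin N → Bool) :
    Measurable fun U => featC n lbl f U σ :=
  Measurable.ite (measurableSet_le (continuous_featV n lbl f σ).norm.measurable measurable_const)
    (continuous_featV n lbl f σ).measurable measurable_const

lemma norm_featC_le (n : ℕ) (lbl : Fin N → κ) (f : κ) (U : Fin N → Fin N → ℝ) (σ : Fin N → Bool) :
    ‖featC n lbl f U σ‖ ≤ 1 := by
  unfold featC
  split_ifs with h
  · exact h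
  · simp

lemma continuous_clsEnergy (dl : κ → ℝ) (lbl : Fin N → κ) (σ : Fin N → Bool) :
    Continuous fun U => clsEnergy dl lbl U σ :=
  (continuous_finsetSum _ fun i _ => ((continuous_coord σ i).pow 2).const_mul _).div_const _

lemma sum_sq_coord {U : Fin N → Fin N → ℝ} (hU : (Matrix.of U)ᵀ * Matrix.of U = 1)
    (σ : Fin N → Bool) : ∑ i, coord U σ i ^ 2 = N := by
  have h := Vale.Agent.P166.sum_proj hU σ
  simpa [coord, Vale.Agent.P166.proj] using h

theorem integrable_clsEnergy (dl : κ → ℝ) (lbl : Fin N → κ) (σ : Fin N → Bool)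
    {ν : Measure (Fin N → Fin N → ℝ)} (hν : OrthInvLaw N ν) :
    Integrable (fun U => clsEnergy dl lbl U σ) ν := by
  have := hν.prob
  refine Integrable.of_bound (continuous_clsEnergy dl lbl σ).aestronglyMeasurable
    (((∑ i, |dl (lbl i)|) * N) / 2) ?_
  filter_upwards [hν.orth] with U hU
  rw [Real.norm_eq_abs, clsEnergy, abs_div, abs_two]
  refine div_le_div_of_nonneg_right ?_ zero_le_two
  rw [← sum_sq_coord hU σ, Finset.mul_sum]
  refine (Finset.abs_sum_le_sum_abs _ _).trans (Finset.sum_le_sum fun i _ => ?_)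
  rw [abs_mul, abs_of_nonneg (sq_nonneg (coord U σ i))]
  exact mul_le_mul_of_nonneg_right
    (Finset.single_le_sum (fun j _ => abs_nonneg (dl (lbl j))) (Finset.mem_univ i)) (sq_nonneg _)

/-- The base system. -/
noncomputable def lsys (dl : κ → ℝ) (n : ℕ) (lbl : Fin N → κ) (f : κ)
    (ν : Measure (Fin N → Fin N → ℝ)) (hν : OrthInvLaw N ν) : Sys Unit where
  Ω := Fin N → Fin N → ℝ
  mΩ := inferInstance
  law := ν
  prob := hν.prob
  X := Fin N → Bool
  finX := inferInstance
  neX := inferInstance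
  D := N
  v U σ _ := featC n lbl f U σ
  measV σ _ := measurable_featC n lbl f σ
  norm U σ _ := norm_featC_le n lbl f U σ
  logw U σ := clsEnergy dl lbl U σ
  measW σ := (continuous_clsEnergy dl lbl σ).measurable
  intW σ := integrable_clsEnergy dl lbl σ hν

/-- The overlaps of the features. -/
noncomputable def gramF (n : ℕ) (lbl : Fin N → κ) (f : κ) (U : Fin N → Fin N → ℝ) {r : ℕ}
    (x : Fin r → Fin N → Bool) (a b : Fin r) : ℝ :=
  ⟪featV n lbl f U (x a), featV n lbl f U (x b)⟫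

lemma norm_featV_le {U : Fin N → Fin N → ℝ} (hU : (Matrix.of U)ᵀ * Matrix.of U = 1) (n : ℕ)
    (lbl : Fin N → κ) (f : κ) (σ : Fin N → Bool) : ‖featV n lbl f U σ‖ ≤ 1 := by
  rcases Nat.eq_zero_or_pos N with rfl | hN
  · simp [EuclideanSpace.norm_eq]
  have hm : (0 : ℝ) < (max n N : ℕ) := by exact_mod_cast hN.trans_le (le_max_right n N)
  have hN' : (N : ℝ) ≤ (max n N : ℕ) := by exact_mod_cast le_max_right n N
  rw [EuclideanSpace.norm_eq, Real.sqrt_le_one]
  calc ∑ i, ‖featV n lbl f U σ i‖ ^ 2 ≤ ∑ i, coord U σ i ^ 2 / (max n N : ℕ) := by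
        refine Finset.sum_le_sum fun i _ => ?_
        simp only [featV, Real.norm_eq_abs, sq_abs]
        split_ifs
        · rw [div_pow, Real.sq_sqrt hm.le]
        · exact (pow_two (0 : ℝ)).trans_le (by simp only [mul_zero]; positivity)
    _ = N / (max n N : ℕ) := by rw [← Finset.sum_div, sum_sq_coord hU σ]
    _ ≤ 1 := (div_le_one hm).2 hN'

lemma featC_eq {U : Fin N → Fin N → ℝ} (hU : (Matrix.of U)ᵀ * Matrix.of U = 1) (n : ℕ)
    (lbl : Fin N → κ) (f : κ) (σ : Fin N → Bool) : featC n lbl f U σ = featV n lbl f U σ :=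
  if_pos (norm_featV_le hU n lbl f σ)

lemma lsys_weight (dl : κ → ℝ) (n : ℕ) (lbl : Fin N → κ) (f : κ) (s : ℝ) (y : CIdx Unit P → ℝ)
    {ν : Measure (Fin N → Fin N → ℝ)} (hν : OrthInvLaw N ν) {U : Fin N → Fin N → ℝ}
    (hU : (Matrix.of U)ᵀ * Matrix.of U = 1) (g : EuclideanSpace ℝ (GIdx Unit P N))
    (σ : Fin N → Bool) :
    (lsys dl n lbl f ν hν).logw U σ + (lsys dl n lbl f ν hν).ham s y U g σ =
      pertH dl n lbl f s y U g σ := by
  have h : ∑ e, y (Sum.inl e) * (lsys dl n lbl f ν hν).field U g σ e =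
      ⟪g, pvec y (featV n lbl f U σ)⟫ := by
    rw [PiLp.inner_apply, Fintype.sum_sigma]
    refine Finset.sum_congr rfl fun e _ => ?_
    change y (Sum.inl e) * (∑ i : (j : Unit) → Fin (e.1 j : ℕ) → Fin N,
      g ⟨e, i⟩ * ∏ j, ∏ t, featC n lbl f U σ (i j t)) = _
    rw [Finset.mul_sum]
    refine Finset.sum_congr rfl fun i _ => ?_
    simp only [pvec, featC_eq hU, RCLike.inner_apply, conj_trivial]
    ring
  change clsEnergy dl lbl U σ + (∑ e, y (Sum.inl e) * (lsys dl n lbl f ν hν).field U g σ e +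
    s * ∑ j : Unit, y (Sum.inr j) * ‖featC n lbl f U σ‖ ^ 2) = _
  rw [h, featC_eq hU, Fintype.sum_unique, pertH]
  change _ + (_ + s * (y (Sum.inr ()) * _)) = _
  ring

lemma ae_orth_prod {ν : Measure (Fin N → Fin N → ℝ)} (hν : OrthInvLaw N ν) :
    ∀ᵐ z ∂ν.prod (stdGaussian (EuclideanSpace ℝ (GIdx Unit P N))),
      (Matrix.of z.1)ᵀ * Matrix.of z.1 = 1 :=
  Measure.quasiMeasurePreserving_fst.ae hν.orth

lemma lsys_logZ_ae (dl : κ → ℝ) (n : ℕ) (lbl : Fin N → κ) (f : κ) (s : ℝ) (y : CIdx Unit P → ℝ)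
    {ν : Measure (Fin N → Fin N → ℝ)} (hν : OrthInvLaw N ν) :
    ∀ᵐ z ∂ν.prod (stdGaussian (EuclideanSpace ℝ (GIdx Unit P N))),
      (lsys dl n lbl f ν hν).logZ s y z =
        Real.log (∑ σ, Real.exp (pertH dl n lbl f s y z.1 z.2 σ)) := by
  filter_upwards [ae_orth_prod hν] with z hz
  exact congrArg Real.log (Finset.sum_congr rfl fun σ _ => by
    rw [lsys_weight dl n lbl f s y hν hz z.2 σ])

theorem lsys_press (dl : κ → ℝ) (n : ℕ) (lbl : Fin N → κ) (f : κ) (s : ℝ)
    (y : CIdx Unit P → ℝ) {ν : Measure (Fin N → Fin N → ℝ)} (hν : OrthInvLaw N ν) :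
    (lsys dl n lbl f ν hν).press P s y = pmass dl n lbl f s y ν ∧
      (lsys dl n lbl f ν hν).dev P s y = pmean ν (fun U g =>
        |Real.log (∑ σ, Real.exp (pertH dl n lbl f s y U g σ)) - pmass dl n lbl f s y ν|) := by
  have h : (lsys dl n lbl f ν hν).press P s y = pmass dl n lbl f s y ν :=
    integral_congr_ae (lsys_logZ_ae dl n lbl f s y hν)
  refine ⟨h, ?_⟩
  refine integral_congr_ae ?_
  filter_upwards [lsys_logZ_ae dl n lbl f s y hν] with z hz
  rw [hz, h]

theorem lsys_expect (dl : κ → ℝ) (n : ℕ) (lbl : Fin N → κ) (f : κ) (s : ℝ)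
    (y : CIdx Unit P → ℝ) {ν : Measure (Fin N → Fin N → ℝ)} (hν : OrthInvLaw N ν) {r : ℕ}
    (Φ : OArr Unit r → ℝ) :
    (lsys dl n lbl f ν hν).expect s y Φ = pmean ν (fun U g =>
      pgibbs dl n lbl f s y U g fun x => Φ fun a b _ => gramF n lbl f U x a b) := by
  refine integral_congr_ae ?_
  filter_upwards [ae_orth_prod hν] with z hz
  have hg : ∀ x : Fin r → Fin N → Bool, (lsys dl n lbl f ν hν).gram z.1 x =
      fun a b _ => gramF n lbl f z.1 x a b := fun x => by
    funext a b j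
    change inner ℝ (featC n lbl f z.1 (x a)) (featC n lbl f z.1 (x b)) = _
    rw [featC_eq hz, featC_eq hz]
    rfl
  refine congrArg₂ (· / ·) (Finset.sum_congr rfl fun x _ => ?_)
    (congrArg (· ^ r) (Finset.sum_congr rfl fun σ _ => ?_))
  · exact congrArg₂ (· * ·)
      (Finset.prod_congr rfl fun l _ => congrArg Real.exp (lsys_weight dl n lbl f s y hν hz z.2 _))
      (congrArg Φ (hg x))
  · exact congrArg Real.exp (lsys_weight dl n lbl f s y hν hz z.2 σ)

end Vale.Agent.P166F.Low
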