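import Vale.Agent.P166F.Low.Casc
import Vale.Agent.P166F.Low.Fields.Discrete
import Vale.Agent.P166F.Low.Fields.Limit

/-!
P166: the fields become Gaussian with covariance given by the limit array, so averages over them tend
to the nested averages along discretisations of the array.
-/

namespace Vale.Agent.P166F.Low

open MeasureTheory Filter
open scoped Topology
open Vale.Agent.P157.Low (Mat Arr Discr negCoef qmat)
open Vale.Agent.P166N.Spectrum (OrthInvLaw)

variable {K : ℕ} {a : Atoms K} {i0 : Fin K} {R : Regime a i0} {β : ℝ}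
  {ν : (N : ℕ) → Measure (Fin N → Fin N → ℝ)} {c : ℝ} {A : Arr}

lemma Regime.Conv.tendsto_logAvg (hν : ∀ N, OrthInvLaw N (ν N)) (h : R.Conv β ν c A) {M : ℝ}
    {Φ : (Fld (some i0 : Option (Fin K)) → ℝ) → ℝ} (hΦ : Wgt M Φ) :
    Tendsto (fun i => R.logAvg β ν i Φ) atTop (𝓝 (logArrV A c M Φ)) := by
  simp only [fun i => R.logAvg_series (β := β) hν hΦ i]
  have hρ0 : 0 ≤ 1 - 1 / M := (abs_nonneg _).trans (Wgt.res_le hΦ 0).2.1
  refine tendsto_const_nhds.sub (tendsto_tsum_of_dominated_convergence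
    (P157.Low.summable_pow_div hρ0 (Wgt.res_le hΦ 0).2.2.2) (fun k => ?_) (Eventually.of_forall fun i k => ?_))
  · simpa using ((h.field_limit hν (r := k + 1) (H := fun _ => (1 : ℝ)) continuous_const (DH := 1)
      (fun _ => by simp) (continuous_res_prod hΦ) (abs_res_prod_le hΦ)).div_const ((k : ℝ) + 1))
  · have hk : (0 : ℝ) < (k : ℝ) + 1 := by positivity
    rw [Real.norm_eq_abs, abs_div, abs_of_pos hk]
    exact div_le_div_of_nonneg_right (R.abs_pmean_le hν i fun U g _ => abs_pgibbs_le fun x =>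
      abs_res_prod_le hΦ fun l => R.field i U (x l)) hk.le

lemma Regime.Conv.tendsto_tiltAvg (hν : ∀ N, OrthInvLaw N (ν N)) (h : R.Conv β ν c A) {M : ℝ}
    {Φ : (Fld (some i0 : Option (Fin K)) → ℝ) → ℝ} (hΦ : Wgt M Φ) {n : ℕ} {H : Mat n → ℝ}
    (hH : Continuous H) {DH : ℝ} (hHb : ∀ S, |H S| ≤ DH)
    {θ : Fin n → (Fld (some i0 : Option (Fin K)) → ℝ) → ℝ} (hθ : ∀ l, BCV (θ l)) :
    Tendsto (fun i => R.tiltAvg β ν i Φ fun U x => (∏ l, θ l (R.field i U (x l))) * H (R.cov i U x)) atTop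
      (𝓝 (insArrV A c M Φ H θ)) := by
  choose E hE using fun l => (hθ l).2
  have hρ0 : 0 ≤ 1 - 1 / M := (abs_nonneg _).trans (Wgt.res_le hΦ 0).2.1
  have hsub : ∀ k, Continuous fun S : Mat (n + k) => H fun u v => S (Fin.castAdd k u) (Fin.castAdd k v) :=
    fun k => hH.comp (by fun_prop)
  have hser : ∀ i, R.tiltAvg β ν i Φ (fun U x => (∏ l, θ l (R.field i U (x l))) * H (R.cov i U x)) =
      ∑' k : ℕ, (negCoef n k : ℝ) * R.avg β ν i (r := n + k) (fun U x =>
        H (fun u v => R.cov i U x (Fin.castAdd k u) (Fin.castAdd k v)) *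
          ratioTermV M Φ θ (fun l => R.field i U (x l))) := fun i => by
    rw [R.tiltAvg_series hν hΦ i (Θ := fun U x => (∏ l, θ l (R.field i U (x l))) * H (R.cov i U x))
      (B := (∏ l, E l) * DH) (fun x =>
      (continuous_finsetProd _ fun l _ => (hθ l).1.comp (R.continuous_field i (x l))).mul
        (hH.comp (continuous_pi fun u => continuous_pi fun v => R.continuous_cov i x u v))) fun U x => ?_]
    · refine tsum_congr fun k => ?_
      congr 2
      funext U x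
      rw [show (fun u v => R.cov i U x (Fin.castAdd k u) (Fin.castAdd k v)) =
        R.cov i U (fun l => x (Fin.castAdd k l)) from rfl]
      simp only [ratioTermV, Finset.prod_mul_distrib]
      ring
    · rw [abs_mul, Finset.abs_prod]
      exact mul_le_mul (Finset.prod_le_prod (fun l _ => abs_nonneg _) fun l _ => hE l _) (hHb _) (abs_nonneg _)
        (Finset.prod_nonneg fun l _ => (abs_nonneg _).trans (hE l 0))
  simp only [hser]
  refine tendsto_tsum_of_dominated_convergence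
    (P157.Low.summable_negCoef n hρ0 (Wgt.res_le hΦ 0).2.2.2 (DH * ∏ l, E l)) (fun k => ?_)
    (Eventually.of_forall fun i k => ?_)
  · exact (h.field_limit hν (hsub k) (fun S => hHb _) (continuous_ratioTermV hΦ fun l => (hθ l).1)
      (abs_ratioTermV_le hΦ hE)).const_mul (negCoef n k : ℝ)
  · rw [Real.norm_eq_abs, abs_mul, Nat.abs_cast]
    refine mul_le_mul_of_nonneg_left (R.abs_pmean_le hν i fun U g _ => abs_pgibbs_le fun x => ?_)
      (Nat.cast_nonneg' _)
    rw [abs_mul, mul_assoc]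
    exact mul_le_mul (hHb _) (abs_ratioTermV_le hΦ hE _) (abs_nonneg _) ((abs_nonneg _).trans (hHb 0))

lemma fInc_nonneg_lev {k : ℕ} (D : Discr A k) (hc : 0 ≤ c) (j : Fin (D.r + 1)) : 0 ≤ fInc D.q c j :=
  mul_nonneg hc (D.incr_nonneg j)

lemma fRest_nonneg_lev {k : ℕ} (D : Discr A k) (hc : 0 ≤ c) : 0 ≤ fRest D.q c :=
  mul_nonneg hc D.rest_nonneg'

theorem Regime.Conv.log_limit (hν : ∀ N, OrthInvLaw N (ν N)) (h : R.Conv β ν c A)
    (D : ∀ k, Discr A (k + 2)) {M : ℝ} {Φ : (Fld (some i0 : Option (Fin K)) → ℝ) → ℝ}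
    (hΦ : Wgt M Φ) :
    ∃ l, Tendsto (fun i => R.logAvg β ν i Φ) atTop (𝓝 l) ∧
      Tendsto (fun k => valV (D k).C.cdf (fInc (D k).q c) (fRest (D k).q c) Φ) atTop (𝓝 l) := by
  refine ⟨logArrV A c M Φ, h.tendsto_logAvg hν hΦ, (tendsto_cascLog h.pos.le D hΦ).congr fun k => ?_⟩
  exact cascLog_eq (fInc_nonneg_lev _ h.pos.le) (fRest_nonneg_lev _ h.pos.le) hΦ

theorem Regime.Conv.one_limit (hν : ∀ N, OrthInvLaw N (ν N)) (h : R.Conv β ν c A)
    (D : ∀ k, Discr A (k + 2)) {M : ℝ} {Φ θ : (Fld (some i0 : Option (Fin K)) → ℝ) → ℝ}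
    (hΦ : Wgt M Φ) (hθ : BCV θ) :
    ∃ l, Tendsto (fun i => R.tiltAvg β ν i Φ (r := 1) fun U x => θ (R.field i U (x 0))) atTop (𝓝 l) ∧
      Tendsto (fun k => oneV (D k).C.cdf (fInc (D k).q c) (fRest (D k).q c) Φ θ) atTop (𝓝 l) := by
  refine ⟨insArrV A c M Φ (fun _ : Mat 1 => 1) (fun _ => θ), ?_, ?_⟩
  · simpa using h.tendsto_tiltAvg hν hΦ (n := 1) (H := fun _ => (1 : ℝ)) continuous_const (DH := 1)
      (fun _ => by simp) (θ := fun _ => θ) (fun _ => hθ)
  · refine (tendsto_cascIns h.pos.le D hΦ (n := 1) (H := fun _ => (1 : ℝ)) continuous_const (DH := 1)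
      (fun _ => by simp) (θ := fun _ => θ) (fun _ => hθ)).congr fun k => ?_
    exact cascIns_one (fInc_nonneg_lev _ h.pos.le) (fRest_nonneg_lev _ h.pos.le) hΦ hθ

theorem Regime.Conv.pair_limit (hν : ∀ N, OrthInvLaw N (ν N)) (h : R.Conv β ν c A)
    (D : ∀ k, Discr A (k + 2)) {M : ℝ} {Φ θ : (Fld (some i0 : Option (Fin K)) → ℝ) → ℝ}
    (hΦ : Wgt M Φ) (hθ : BCV θ) {ψ : ℝ → ℝ} (hψ : Continuous ψ) :
    ∃ l, Tendsto (fun i => R.tiltAvg β ν i Φ (r := 2) fun U x =>
        θ (R.field i U (x 0)) * θ (R.field i U (x 1)) * ψ (R.cov i U x 0 1)) atTop (𝓝 l) ∧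
      Tendsto (fun k => ∑ j, lmass (D k).C.cdf j * (ψ (c * (D k).q j) *
        twoV (D k).C.cdf (fInc (D k).q c) (fRest (D k).q c) Φ θ θ j)) atTop (𝓝 l) := by
  set ψ' : ℝ → ℝ := fun x => ψ (max (-R.ρ) (min R.ρ x))
  have hψ' : Continuous ψ' := hψ.comp (continuous_const.max (continuous_const.min continuous_id))
  have hin : ∀ x, |x| ≤ R.ρ → ψ' x = ψ x := fun x hx => by
    obtain ⟨h1, h2⟩ := abs_le.1 hx
    simp only [ψ', min_eq_right h2, max_eq_right h1]
  obtain ⟨DH, hDH⟩ := (isCompact_Icc (a := -R.ρ) (b := R.ρ)).exists_bound_of_continuousOn hψ.continuousOn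
  have hb : ∀ S : Mat 2, |ψ' (S 0 1)| ≤ DH := fun S => (Real.norm_eq_abs _).symm.trans_le (hDH _
    ⟨le_max_left _ _, max_le (by linarith [R.ρpos]) (min_le_left _ _)⟩)
  have hθθ : ∀ l : Fin 2, BCV (![θ, θ] l) := fun l => by fin_cases l <;> exact hθ
  refine ⟨insArrV A c M Φ (fun S : Mat 2 => ψ' (S 0 1)) ![θ, θ], ?_, ?_⟩
  · refine (h.tendsto_tiltAvg hν hΦ (H := fun S : Mat 2 => ψ' (S 0 1)) (hψ'.comp (by fun_prop)) hb hθθ).congr
      fun i => integral_congr_ae ((R.ae_orth hν i).mono fun z hz => ?_)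
    simp only [Fin.prod_univ_two, Matrix.cons_val_zero, Matrix.cons_val_one, Matrix.cons_val_fin_one,
      hin _ (R.abs_cov_le i hz _ 0 1)]
  · refine (tendsto_cascIns h.pos.le D hΦ (H := fun S : Mat 2 => ψ' (S 0 1)) (hψ'.comp (by fun_prop)) hb hθθ).congr
      fun k => ?_
    have e : ∀ B, ψ' (c * qmat (D k).q B (0 : Fin 2) 1) = ψ (c * (D k).q (B 0 1)) := fun B => by
      obtain ⟨q0, q1⟩ := (D k).rangeq (B 0 1)
      have q2 : (D k).q (B 0 1) ≤ 1 := q1.trans (sub_le_self _ (by positivity))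
      simp only [qmat, show (0 : Fin 2) ≠ 1 by decide, if_false]
      refine hin _ ?_
      rw [abs_of_nonneg (mul_nonneg h.pos.le q0)]
      exact (mul_le_of_le_one_right h.pos.le q2).trans h.le
    simp only [e]
    exact cascIns_pair (fInc_nonneg_lev _ h.pos.le) (fRest_nonneg_lev _ h.pos.le) hΦ hθ hθ fun j => ψ (c * (D k).q j)

end Vale.Agent.P166F.Low
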