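import Vale.Agent.P166F.Low.Select.Point

/-!
P166: telescoping. If the pressure is low along a subsequence, some base systems with vanishing defects
have a low gain.
-/

namespace Vale.Agent.P166F.Low

open MeasureTheory Filter
open scoped Topology
open Vale.Agent.P166N.Spectrum (OrthInvLaw)

variable {K : ℕ}

lemma expect_abs_nonneg (S : Sys Unit) {P : ℕ} (s : ℝ) (y : CIdx Unit P → ℝ) (j : Unit) :
    0 ≤ S.expect s y (n := 1) fun O =>
      |O 0 0 j - S.expect s y (n := 1) fun O' => O' 0 0 j| := by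
  refine integral_nonneg fun z => div_nonneg (Finset.sum_nonneg fun x _ =>
    mul_nonneg (Finset.prod_nonneg fun l _ => (Real.exp_pos _).le) (abs_nonneg _)) ?_
  exact pow_nonneg (Finset.sum_nonneg fun x _ => (Real.exp_pos _).le) _

theorem exists_regime (a : Atoms K) {β : ℝ} (hβ : 0 < β) {i0 : Fin K}
    (hmin : ∀ i, a.lam i0 ≤ a.lam i) {blk : (N : ℕ) → Fin N → Fin K} (hb : Balanced a blk)
    {ν : (N : ℕ) → Measure (Fin N → Fin N → ℝ)} (hν : ∀ N, OrthInvLaw N (ν N)) {ℓ η : ℝ}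
    (hη : 0 < η) (hlow : ∃ᶠ N in atTop, meanPress a β blk ν N ≤ ℓ - η) :
    ∃ R : Regime a i0,
      (∀ i, β * a.lam i0 / 2 + R.gain β ν i ≤ ℓ - η / 2) ∧
      (∀ j, Tendsto (fun i => (R.sys β ν hν i).expect (R.s i) (R.y i) (n := 1) fun O =>
        |O 0 0 j - (R.sys β ν hν i).expect (R.s i) (R.y i) (n := 1) fun O' => O' 0 0 j|)
          atTop (𝓝 0)) ∧
      ∀ (n : ℕ) (l : Fin n) (Φ : OArr Unit n → ℝ) (e : Unit → ℕ), Continuous Φ →
        (∃ C, ∀ O, |Φ O| ≤ C) → 0 < ∑ j, e j →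
        Tendsto (fun i => (n : ℝ) * (R.sys β ν hν i).expect (R.s i) (R.y i)
            (fun O : OArr Unit (n + 1) =>
              Φ (osub O Fin.castSucc) * monom e (O l.castSucc (Fin.last n))) -
          ((R.sys β ν hν i).expect (R.s i) (R.y i) Φ *
              (R.sys β ν hν i).expect (R.s i) (R.y i) (fun O : OArr Unit 2 => monom e (O 0 1)) +
            ∑ l' ∈ Finset.univ.erase l,
              (R.sys β ν hν i).expect (R.s i) (R.y i) fun O : OArr Unit n =>
                Φ O * monom e (O l l'))) atTop (𝓝 0) := by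
  obtain ⟨κ, hκ, hpt⟩ := Sel.exists_point a hβ hmin hb hν hη (ℓ := ℓ)
  have hsm : ∀ i : ℕ, ∀ᶠ n : ℕ in atTop,
      ((i : ℝ) + 1) ^ 4 * (1 + Sel.scale n ^ 2) / n ≤ 1 / ((i : ℝ) + 1) := fun i => by
    filter_upwards [Sel.tendsto_root8.eventually_ge_atTop (max 1 (2 * ((i : ℝ) + 1) ^ 5)),
      eventually_ge_atTop 1] with n hn hn1
    have hr1 : 1 ≤ Sel.root8 n := (le_max_left _ _).trans hn
    have hr5 : 2 * ((i : ℝ) + 1) ^ 5 ≤ Sel.root8 n := (le_max_right _ _).trans hn
    rw [div_le_div_iff₀ (by exact_mod_cast hn1) (by positivity), one_mul, ← (Sel.root8_pow n).1,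
      Sel.scale]
    calc ((i : ℝ) + 1) ^ 4 * (1 + (Sel.root8 n ^ 3) ^ 2) * ((i : ℝ) + 1)
        ≤ ((i : ℝ) + 1) ^ 4 * (2 * Sel.root8 n ^ 6) * ((i : ℝ) + 1) := by
          have : 1 ≤ Sel.root8 n ^ 6 := one_le_pow₀ hr1
          rw [← pow_mul]
          gcongr
          norm_num
          linarith
      _ = 2 * ((i : ℝ) + 1) ^ 5 * Sel.root8 n ^ 6 := by ring
      _ ≤ Sel.root8 n * Sel.root8 n ^ 6 := by gcongr
      _ ≤ Sel.root8 n ^ 8 := by
          rw [← pow_succ']
          exact pow_le_pow_right₀ hr1 (by norm_num)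
  choose n hn using fun i : ℕ => (hlow.and_eventually
    ((hpt i (1 / ((i : ℝ) + 1)) (1 / ((i : ℝ) + 1)) Nat.one_div_pos_of_nat
      Nat.one_div_pos_of_nat).and ((eventually_ge_atTop (i + 1)).and (hsm i)))).exists
  choose M D b y hMn hκM hy hD hκD hDle hfr hgain hdiag hgg using fun i => (hn i).2.1 (hn i).1
  have hni : ∀ i : ℕ, (i : ℝ) + 1 ≤ n i := fun i => by exact_mod_cast (hn i).2.2.1
  have hM0 : ∀ i, (0 : ℝ) < M i := fun i =>
    (mul_pos hκ (lt_of_lt_of_le (by positivity) (hni i))).trans_le (hκM i)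
  have hD0 : ∀ i, (0 : ℝ) < D i := fun i =>
    (mul_pos hκ (lt_of_lt_of_le (by positivity) (hni i))).trans_le (hκD i)
  have hMn' : ∀ i, (M i : ℝ) ≤ n i := fun i => by exact_mod_cast (Nat.le_succ _).trans (hMn i)
  set u : ℕ → ℝ × ℝ := fun i => ((D i : ℝ) / M i, (n i : ℝ) / D i) with hu
  set T := Set.Icc κ (3 / 4 * a.wt i0) ×ˢ Set.Icc ((3 / 4 * a.wt i0)⁻¹) κ⁻¹
  have huT : ∀ i, u i ∈ T := fun i => by
    have hw : 0 < 3 / 4 * a.wt i0 := by have := a.pos i0; positivity
    refine Set.mk_mem_prod ⟨?_, ?_⟩ ⟨?_, ?_⟩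
    · rw [le_div_iff₀ (hM0 i)]
      exact (mul_le_mul_of_nonneg_left (hMn' i) hκ.le).trans (hκD i)
    · exact (div_le_iff₀ (hM0 i)).2 (hDle i)
    · rw [le_div_iff₀ (hD0 i), inv_mul_le_iff₀ hw]
      exact (hDle i).trans (mul_le_mul_of_nonneg_left (hMn' i) hw.le)
    · rw [div_le_iff₀ (hD0 i), le_inv_mul_iff₀ hκ]
      exact hκD i
  obtain ⟨v, hv, φ, hφ, hlim⟩ := (isCompact_Icc.prod isCompact_Icc).tendsto_subseq huT
  have hwp := a.pos i0
  have hθ : 0 < v.1 ∧ v.1 < a.wt i0 :=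
    ⟨hκ.trans_le hv.1.1, lt_of_le_of_lt hv.1.2 (by linarith)⟩
  have hone : Tendsto (fun i => 1 / ((φ i : ℝ) + 1)) atTop (𝓝 0) :=
    tendsto_one_div_add_atTop_nhds_zero_nat.comp hφ.tendsto_atTop
  have hnone : Tendsto (fun i => (D (φ i) : ℝ) / M (φ i)) atTop (𝓝 v.1) :=
    (continuous_fst.tendsto v).comp hlim
  have hsome : ∀ l, l ≠ i0 →
      Tendsto (fun i => (csize (b (φ i)).lbl (some l) : ℝ) / M (φ i)) atTop (𝓝 (a.wt l)) := fun l hl => by
    refine tendsto_iff_norm_sub_tendsto_zero.2 (squeeze_zero (fun _ => norm_nonneg _) (fun i => ?_) hone)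
    exact hfr (φ i) l hl
  have hi0 : Tendsto (fun i => (csize (b (φ i)).lbl (some i0) : ℝ) / M (φ i)) atTop
      (𝓝 (a.wt i0 - v.1)) := by
    have h := ((tendsto_finsetSum (Finset.univ.erase i0) fun l hl =>
      hsome l (Finset.ne_of_mem_erase hl)).add hnone).const_sub 1
    have e : (1 : ℝ) - (∑ l ∈ Finset.univ.erase i0, a.wt l + v.1) = a.wt i0 - v.1 := by
      have := Finset.add_sum_erase Finset.univ a.wt (Finset.mem_univ i0)
      rw [a.total] at this
      linarith
    rw [e] at h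
    refine h.congr fun i => ?_
    have hs : ((∑ j, csize (b (φ i)).lbl j : ℕ) : ℝ) = M (φ i) := by rw [Sel.sum_csize]
    rw [Fintype.sum_option, ← Finset.add_sum_erase Finset.univ _ (Finset.mem_univ i0), hD (φ i)] at hs
    push_cast at hs
    rw [← Finset.sum_div, ← add_div, eq_div_iff (hM0 (φ i)).ne', sub_mul, one_mul,
      div_mul_cancel₀ _ (hM0 (φ i)).ne']
    linarith
  refine ⟨{
    N := fun i => M (φ i)
    n := fun i => n (φ i)
    P := fun i => φ i
    s := fun i => Sel.scale (n (φ i))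
    y := fun i => y (φ i)
    base := fun i => b (φ i)
    θ := v.1
    ρ := v.2
    le := fun i => hMn (φ i)
    nonneg := fun i => Sel.scale_nonneg _
    box := fun i => hy (φ i)
    top := ?top
    small := ?small
    θmem := hθ
    frac := ?frac
    ρpos := lt_of_lt_of_le (by positivity) hv.2.1
    scale := ?scale }, fun i => hgain (φ i), fun j => ?_, fun m l Φ e hΦ hB he => ?_⟩
  case top =>
    refine tendsto_natCast_atTop_iff.1 (tendsto_atTop_mono (fun i => ?_)
      ((tendsto_natCast_atTop_atTop.comp hφ.tendsto_atTop).const_mul_atTop hκ))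
    refine (mul_le_mul_of_nonneg_left ?_ hκ.le).trans (hκM (φ i))
    simp only [Function.comp_apply]
    linarith [hni (φ i)]
  case small =>
    exact squeeze_zero (fun i => by positivity) (fun i => (hn (φ i)).2.2.2) hone
  case frac =>
    intro j
    rcases j with - | l
    · simp only [vA, Option.elim_none, Real.sq_sqrt hθ.1.le, hD]
      exact hnone
    · simp only [vA, Option.elim_some]
      by_cases hl : l = i0
      · subst hl
        rw [if_pos rfl, Real.sq_sqrt (sub_nonneg.2 hθ.2.le)]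
        exact hi0
      · rw [if_neg hl, Real.sq_sqrt (a.pos l).le]
        exact hsome l hl
  case scale =>
    simp only [hD]
    exact (continuous_snd.tendsto v).comp hlim
  · exact squeeze_zero (fun i => expect_abs_nonneg _ _ _ j) (fun i => hdiag (φ i) j) hone
  · obtain ⟨B, hB⟩ := hB
    have hB' : Tendsto (fun i => B * (1 / ((φ i : ℝ) + 1))) atTop (𝓝 0) := by
      simpa using hone.const_mul B
    refine squeeze_zero_norm' ?_ hB'
    filter_upwards [hφ.tendsto_atTop.eventually_ge_atTop (∑ j, e j)] with i hi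
    have he' : ∀ j, e j < φ i + 1 := fun j =>
      Nat.lt_succ_of_le ((Finset.single_le_sum (fun k _ => Nat.zero_le (e k)) (Finset.mem_univ j)).trans hi)
    exact hgg (φ i) m l Φ B hΦ hB ⟨fun j => ⟨e j, he' j⟩, he⟩

end Vale.Agent.P166F.Low
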