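import Vale.Agent.P166F.Energy
import Vale.Agent.P166F.Low.Closed
import Vale.Agent.P166F.Low.Formula.Ideal
import Vale.Agent.P166F.Low.Formula.Slope

/-!
P166: the cavity value is the value of the variational formula at the overlaps of the new spin.
-/

namespace Vale.Agent.P166F.Low

open MeasureTheory Vale.Agent.P157.Low

variable {K r : ℕ} {a : Atoms K} {β θ c ε : ℝ} {i0 : Fin K} {m q : Fin (r + 1) → ℝ}

/-- A bound on the slopes. -/
noncomputable def dBound (a : Atoms K) (β : ℝ) (i0 : Fin K) : ℝ := ∑ i, |dls a β i0 i|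

lemma dls_le (a : Atoms K) (β : ℝ) (i0 i : Fin K) : dls a β i0 i ≤ dBound a β i0 :=
  (le_abs_self _).trans
    (Finset.single_le_sum (f := fun j => |dls a β i0 j|) (fun _ _ => abs_nonneg _) (Finset.mem_univ i))

/-- A bound on the difference quotient of the field strength. -/
noncomputable def kBound (a : Atoms K) (β : ℝ) (i0 : Fin K) (ε : ℝ) : ℝ := dBound a β i0 ^ 2 / ε ^ 4

lemma kBound_nonneg (a : Atoms K) (β : ℝ) (i0 : Fin K) (ε : ℝ) : 0 ≤ kBound a β i0 ε :=
  div_nonneg (sq_nonneg _) (by positivity)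

namespace Setting

variable (S : Setting a β i0 m q c θ ε)
include S

lemma kq_mem (i j : Fin (r + 1)) :
    0 ≤ kq a.wt (dls a β i0) (below m q c i) (below m q c j) ∧
      kq a.wt (dls a β i0) (below m q c i) (below m q c j) ≤ kBound a β i0 ε :=
  ⟨kq_nonneg (S.adm i) (S.adm j), kq_le (S.adm i) (S.adm j) fun l => dls_le a β i0 l⟩

lemma rpath_step_mem (i : Fin r) :
    0 ≤ incr (rpath (dlA a β i0) (vA a i0 θ) m q c) i.succ ∧
      incr (rpath (dlA a β i0) (vA a i0 θ) m q c) i.succ ≤ kBound a β i0 ε * c * incr q i.succ := by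
  rw [incr_succ', S.rpath_succ, add_sub_cancel_left]
  have h := S.kq_mem i.succ i.castSucc
  have hci : 0 ≤ c * incr q i.succ := mul_nonneg S.margin.pos.1.le (S.incr_nonneg' i)
  refine ⟨mul_nonneg hci h.1, ?_⟩
  nlinarith [mul_le_mul_of_nonneg_left h.2 hci]

lemma rpath_mem (j : Fin (r + 1)) : 0 ≤ rpath (dlA a β i0) (vA a i0 θ) m q c j ∧
    rpath (dlA a β i0) (vA a i0 θ) m q c j ≤ kBound a β i0 ε * c * q j := by
  induction j using Fin.induction with
  | zero =>
    rw [S.rpath_zero]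
    have h := S.kq_mem 0 0
    have hci : 0 ≤ c * q 0 := mul_nonneg S.margin.pos.1.le (S.margin.nonneg 0)
    refine ⟨mul_nonneg hci h.1, ?_⟩
    nlinarith [mul_le_mul_of_nonneg_left h.2 hci]
  | succ i ih =>
    have h := S.rpath_step_mem i
    have e := incr_succ' (rpath (dlA a β i0) (vA a i0 θ) m q c) i
    have e' := incr_succ' q i
    rw [e'] at h
    constructor <;> nlinarith

lemma ptilt_step_mem (i : Fin r) :
    ptilt a β i0 m q c i.succ - ptilt a β i0 m q c i.castSucc ≤ c / ε ^ 2 * incr q i.succ := by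
  rw [S.ptilt_succ, add_sub_cancel_left]
  have hε := S.margin.pos.2
  have h : ∑ l, a.wt l / ((1 - below m q c i.succ * dls a β i0 l) *
      (1 - below m q c i.castSucc * dls a β i0 l)) ≤ 1 / ε ^ 2 := by
    refine (Finset.sum_le_sum fun l _ => div_le_div_of_nonneg_left (a.pos l).le (pow_pos hε 2) ?_).trans
      (le_of_eq (by rw [← Finset.sum_div, a.total]))
    rw [sq]
    exact mul_le_mul ((S.adm _).den l) ((S.adm _).den l) hε.le ((S.adm _).den_pos l).le
  refine (mul_le_mul_of_nonneg_left h (mul_nonneg S.margin.pos.1.le (S.incr_nonneg' i))).trans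
    (le_of_eq ?_)
  ring

lemma ptilt_le (j : Fin (r + 1)) : ptilt a β i0 m q c j ≤ c / ε ^ 2 * q j := by
  have hε := S.margin.pos.2
  induction j using Fin.induction with
  | zero =>
    rw [S.ptilt_zero]
    refine (Finset.sum_le_sum fun l _ => mul_le_mul_of_nonneg_left (div_le_div_of_nonneg_left
      (mul_nonneg S.margin.pos.1.le (S.margin.nonneg 0)) (pow_pos hε 2)
      (pow_le_pow_left₀ hε.le ((S.adm 0).den l) 2)) (a.pos l).le).trans (le_of_eq ?_)
    rw [← Finset.sum_mul, a.total]; ring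
  | succ i ih =>
    have := S.ptilt_step_mem i
    rw [incr_succ'] at this
    nlinarith

end Setting

/-- A path whose steps are below those of `C q` is Lipschitz in `q`. -/
lemma lip_of_steps {x : Fin (r + 1) → ℝ} {C : ℝ} (hC : 0 ≤ C) (hx : Monotone x)
    (h : ∀ i : Fin r, x i.succ - x i.castSucc ≤ C * incr q i.succ) (i j : Fin (r + 1)) :
    |x i - x j| ≤ C * |q i - q j| := by
  have hy : Monotone fun l => C * q l - x l := Fin.monotone_iff_le_succ.2 fun l => by
    have := h l
    rw [incr_succ'] at this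
    linarith
  rcases le_total j i with hij | hij
  · rw [abs_of_nonneg (sub_nonneg.2 (hx hij))]
    refine le_trans ?_ (mul_le_mul_of_nonneg_left (le_abs_self _) hC)
    linarith [hy hij]
  · rw [abs_sub_comm, abs_of_nonneg (sub_nonneg.2 (hx hij)), abs_sub_comm]
    refine le_trans ?_ (mul_le_mul_of_nonneg_left (le_abs_self _) hC)
    linarith [hy hij]

/-- Near consistency the gain is the value of the formula. -/
theorem gain_formula (a : Atoms K) {β : ℝ} (hβ : 0 < β) {i0 : Fin K}
    (hmin : ∀ i, a.lam i0 ≤ a.lam i) {cmax ε : ℝ} (hε : 0 < ε) :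
    ∃ C : ℝ, ∀ (r : ℕ) (m q p : Fin (r + 1) → ℝ) (c θ : ℝ), 0 < θ → θ < a.wt i0 →
      Margin (dlA a β i0) m q c ε → c ≤ cmax → Path p →
      |β * a.lam i0 / 2 + gainVal a β i0 θ m q c -
          (energy a.law β (stepLaw m p) + xbar m (rpath (dlA a β i0) (vA a i0 θ) m q c) +
            pairing m p (rpath (dlA a β i0) (vA a i0 θ) m q c))| ≤
        C * (|pdiag a β i0 m q c - 1| + ∑ j, lmass m j * |p j - ptilt a β i0 m q c j|) := by
  set Rm := kBound a β i0 ε * |cmax| with hRm
  refine ⟨rlip a β + 2 * (β * a.rad) + Rm, fun r m q p c θ hθ hθ' hM hc hp => ?_⟩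
  have S : Setting a β i0 m q c θ ε := ⟨hβ, hmin, ⟨hθ, hθ'⟩, hM⟩
  have hm : Levels m := hM.lev
  set R := rpath (dlA a β i0) (vA a i0 θ) m q c with hR
  set P := pshift a β i0 m q c with hP
  set e := |pdiag a β i0 m q c - 1| with he
  set D := ∑ j, lmass m j * |p j - ptilt a β i0 m q c j| with hD
  set E := ∑ j, lmass m j * |p j - P j| with hE
  have hD0 : 0 ≤ D := Finset.sum_nonneg fun j _ => mul_nonneg (lmass_nonneg hm j) (abs_nonneg _)
  have hE0 : 0 ≤ E := Finset.sum_nonneg fun j _ => mul_nonneg (lmass_nonneg hm j) (abs_nonneg _)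
  have hED : E ≤ e + D := by
    have : E ≤ ∑ j, (lmass m j * e + lmass m j * |p j - ptilt a β i0 m q c j|) := by
      refine Finset.sum_le_sum fun j _ => ?_
      rw [← mul_add]
      refine mul_le_mul_of_nonneg_left ?_ (lmass_nonneg hm j)
      rw [hP, pshift, he, show p j - (ptilt a β i0 m q c j + (1 - pdiag a β i0 m q c)) =
        (pdiag a β i0 m q c - 1) + (p j - ptilt a β i0 m q c j) by ring]
      exact abs_add_le _ _
    rwa [Finset.sum_add_distrib, ← Finset.sum_mul, sum_lmass_one hm.zero, one_mul] at this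
  have hen : energy a.law β (stepLaw m p) = (∫ s in (0 : ℝ)..1, rfun a β (tsum' m p s)) / 2 := by
    rw [energy]
    congr 1
    refine intervalIntegral.integral_congr fun s hs => ?_
    rw [Set.uIcc_of_le zero_le_one] at hs
    simp only [tail_stepLaw hm, rfun_eq a hβ.le (tsum_mem hm hs fun l => (hp.ltOne l).le).1]
  have hI : |(∫ s in (0 : ℝ)..1, rfun a β (tsum' m p s)) -
      ∫ s in (0 : ℝ)..1, rfun a β (tsum' m P s)| ≤ rlip a β * E := by
    have hip : IntervalIntegrable (fun s => rfun a β (tsum' m p s)) volume 0 1 :=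
      ((continuous_rfun a hβ.le).comp (continuous_tsum m p)).intervalIntegrable _ _
    have hiP : IntervalIntegrable (fun s => rfun a β (tsum' m P s)) volume 0 1 :=
      ((continuous_rfun a hβ.le).comp (continuous_tsum m P)).intervalIntegrable _ _
    rw [← intervalIntegral.integral_sub hip hiP, ← Real.norm_eq_abs]
    refine (intervalIntegral.norm_integral_le_of_norm_le_const (C := rlip a β * E) fun s _ =>
      (Real.norm_eq_abs _).trans_le ((rfun_lip a hβ.le _ _).trans ?_)).trans_eq (by simp)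
    exact mul_le_mul_of_nonneg_left (tsum_dist hm p P s)
      (mul_nonneg (mul_nonneg (mul_nonneg a.rad_nonneg a.lipC_nonneg) hβ.le) hβ.le)
  have hK := kBound_nonneg a β i0 ε
  have hRb : ∀ j, |R j| ≤ Rm := fun j => by
    obtain ⟨h1, h2⟩ := S.rpath_mem j
    rw [abs_of_nonneg h1, hRm]
    refine h2.trans ?_
    rw [mul_assoc]
    refine mul_le_mul_of_nonneg_left ?_ hK
    calc c * q j ≤ c * 1 := mul_le_mul_of_nonneg_left (hM.ltOne j).le hM.pos.1.le
      _ ≤ |cmax| := by rw [mul_one]; exact hc.trans (le_abs_self _)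
  have hpair : |pairing m P R - pairing m p R| ≤ Rm * E := by
    have e2 : pairing m P R - pairing m p R = (∑ j, lmass m j * (P j - p j) * R j) / 2 := by
      simp only [pairing, mul_sub, sub_mul, Finset.sum_sub_distrib]
      ring
    have h3 : |∑ j, lmass m j * (P j - p j) * R j| ≤ Rm * E := by
      rw [hE, Finset.mul_sum]
      refine (Finset.abs_sum_le_sum_abs _ _).trans (Finset.sum_le_sum fun j _ => ?_)
      rw [abs_mul, abs_mul, abs_of_nonneg (lmass_nonneg hm j), abs_sub_comm (P j), mul_comm]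
      exact mul_le_mul_of_nonneg_right (hRb j) (mul_nonneg (lmass_nonneg hm j) (abs_nonneg _))
    rw [e2, abs_div, abs_two]
    linarith [abs_nonneg (∑ j, lmass m j * (P j - p j) * R j)]
  have hid := S.integral_ideal
  rw [← hP, ← he] at hid
  have hgain := S.gain_ideal
  rw [← hP, ← hR] at hgain
  rw [hen, hgain, abs_le]
  obtain ⟨i1, i2⟩ := abs_le.1 hI
  obtain ⟨d1, d2⟩ := abs_le.1 hid
  obtain ⟨p1, p2⟩ := abs_le.1 hpair
  have hl : 0 ≤ rlip a β :=
    mul_nonneg (mul_nonneg (mul_nonneg a.rad_nonneg a.lipC_nonneg) hβ.le) hβ.le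
  have hr0 : 0 ≤ Rm := mul_nonneg hK (abs_nonneg _)
  have hb : 0 ≤ 2 * (β * a.rad) := mul_nonneg zero_le_two (mul_nonneg hβ.le a.rad_nonneg)
  constructor <;> nlinarith [mul_le_mul_of_nonneg_left hED hl, mul_le_mul_of_nonneg_left hED hr0,
    mul_nonneg hb hD0, abs_nonneg (pdiag a β i0 m q c - 1), mul_nonneg hl hE0,
    mul_nonneg hb (abs_nonneg (pdiag a β i0 m q c - 1))]

/-- Overlaps of the spin and of the directions are uniformly Lipschitz in the levels. -/
theorem overlaps_lip (a : Atoms K) {β : ℝ} (hβ : 0 < β) {i0 : Fin K}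
    (hmin : ∀ i, a.lam i0 ≤ a.lam i) {cmax ε : ℝ} (hε : 0 < ε) :
    ∃ C : ℝ, ∀ (r : ℕ) (m q : Fin (r + 1) → ℝ) (c θ : ℝ), 0 < θ → θ < a.wt i0 →
      Margin (dlA a β i0) m q c ε → c ≤ cmax → ∀ i j : Fin (r + 1),
      |ptilt a β i0 m q c i - ptilt a β i0 m q c j| ≤ C * |q i - q j| ∧
        |chainSlope m (rpath (dlA a β i0) (vA a i0 θ) m q c) i -
          chainSlope m (rpath (dlA a β i0) (vA a i0 θ) m q c) j| ≤ C * |q i - q j| ∧
        |ptilt a β i0 m q c j| ≤ C := by
  set k := kBound a β i0 ε * |cmax| with hk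
  refine ⟨max (|cmax| / ε ^ 2) (slopeC k * k), fun r m q c θ hθ hθ' hM hc i j => ?_⟩
  have S : Setting a β i0 m q c θ ε := ⟨hβ, hmin, ⟨hθ, hθ'⟩, hM⟩
  have hc0 := hM.pos.1.le
  have hca : c ≤ |cmax| := hc.trans (le_abs_self _)
  have hK := kBound_nonneg a β i0 ε
  have hk0 : 0 ≤ k := mul_nonneg hK (abs_nonneg _)
  have hinc : ∀ l : Fin r, incr q l.succ ≤ 1 := fun l => by
    rw [incr_succ']; linarith [hM.ltOne l.succ, hM.nonneg l.castSucc]
  refine ⟨?_, ?_, ?_⟩
  · refine (lip_of_steps (by positivity) S.ptilt_mono (fun l => ?_) i j).trans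
      (mul_le_mul_of_nonneg_right (le_max_left _ _) (abs_nonneg _))
    exact (S.ptilt_step_mem l).trans (mul_le_mul_of_nonneg_right
      (div_le_div_of_nonneg_right hca (sq_nonneg _)) (S.incr_nonneg' l))
  · rw [chainSlope_eq]
    refine (lip_of_steps (mul_nonneg (slopeC_nonneg _) hk0) (slopeSq_mono hM.lev _) (fun l => ?_)
      i j).trans (mul_le_mul_of_nonneg_right (le_max_right _ _) (abs_nonneg _))
    obtain ⟨h1, h2⟩ := S.rpath_step_mem l
    have h3 : kBound a β i0 ε * c * incr q l.succ ≤ k * incr q l.succ :=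
      mul_le_mul_of_nonneg_right (mul_le_mul_of_nonneg_left hca hK) (S.incr_nonneg' l)
    refine (slopeSq_step hM.lev l h1 ((h2.trans h3).trans (mul_le_of_le_one_right hk0 (hinc l)))).trans ?_
    rw [mul_assoc]
    exact mul_le_mul_of_nonneg_left (h2.trans h3) (slopeC_nonneg _)
  · rw [abs_of_nonneg (S.ptilt_nonneg j)]
    refine (S.ptilt_le j).trans (le_trans ?_ (le_max_left _ _))
    calc c / ε ^ 2 * q j ≤ c / ε ^ 2 * 1 :=
          mul_le_mul_of_nonneg_left (hM.ltOne j).le (by positivity)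
      _ ≤ |cmax| / ε ^ 2 := by rw [mul_one]; exact div_le_div_of_nonneg_right hca (sq_nonneg _)

end Vale.Agent.P166F.Low
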