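import Vale.Agent.P166F.Low.Margin
import Vale.Agent.P166F.Low.Formula

/-!
P166: in the limit the overlaps of the added spin are those of the directions, and the gain bounds the
closed form from above.
-/

namespace Vale.Agent.P166F.Low

open MeasureTheory Filter
open scoped Topology
open Vale.Agent.P157.Low (Arr Discr)
open Vale.Agent.P166N.Spectrum (OrthInvLaw)

variable {K : ℕ} {a : Atoms K} {i0 : Fin K} {R : Regime a i0} {β : ℝ}
  {ν : (N : ℕ) → Measure (Fin N → Fin N → ℝ)} {c ε : ℝ} {A : Arr}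

lemma tiltAvg_congr (R : Regime a i0) (hν : ∀ N, OrthInvLaw N (ν N)) (i : ℕ)
    (Φ : (Fld (some i0 : Option (Fin K)) → ℝ) → ℝ) {r : ℕ}
    {Θ Θ' : (Fin (R.N i) → Fin (R.N i) → ℝ) → (Fin r → Fin (R.N i) → Bool) → ℝ}
    (h : ∀ U x, (Matrix.of U).transpose * Matrix.of U = 1 → Θ U x = Θ' U x) :
    R.tiltAvg β ν i Φ Θ = R.tiltAvg β ν i Φ Θ' := by
  refine integral_congr_ae ((R.ae_orth hν i).mono fun z hz => ?_)
  refine congrArg (fun Ξ => pgibbs (dlA a β i0) (R.n i) (R.base i).lbl none (R.s i) (R.y i) z.1 z.2 Ξ /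
    pgibbs (dlA a β i0) (R.n i) (R.base i).lbl none (R.s i) (R.y i) z.1 z.2 (r := 1)
      (fun x => Φ (R.field i z.1 (x 0))) ^ r) (funext fun x => ?_)
  rw [h z.1 x hz]

/-- The tilt of a deviation from a constant. -/
lemma tiltAvg_sub_const (R : Regime a i0) (hν : ∀ N, OrthInvLaw N (ν N)) (i : ℕ) {M : ℝ}
    {Φ : (Fld (some i0 : Option (Fin K)) → ℝ) → ℝ} (hΦ : Wgt M Φ)
    {Θ : (Fin (R.N i) → Fin (R.N i) → ℝ) → (Fin 1 → Fin (R.N i) → Bool) → ℝ}
    (hc : ∀ x, Continuous fun U => Θ U x) {B : ℝ}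
    (hB : ∀ U x, (Matrix.of U).transpose * Matrix.of U = 1 → |Θ U x| ≤ B) (t : ℝ) :
    |R.tiltAvg β ν i Φ Θ - t| ≤ M ^ 1 * R.avg β ν i fun U x => |Θ U x - t| := by
  have := R.prob_dlaw hν i
  set G := fun (z : (Fin (R.N i) → Fin (R.N i) → ℝ) × EuclideanSpace ℝ (GIdx Unit (R.P i) (R.N i)))
      (Ξ : (Fin 1 → Fin (R.N i) → Bool) → ℝ) =>
    pgibbs (dlA a β i0) (R.n i) (R.base i).lbl none (R.s i) (R.y i) z.1 z.2
        (fun x => (∏ l, Φ (R.field i z.1 (x l))) * Ξ x) /
      pgibbs (dlA a β i0) (R.n i) (R.base i).lbl none (R.s i) (R.y i) z.1 z.2 (r := 1)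
        (fun x => Φ (R.field i z.1 (x 0))) ^ 1
  have hi : Integrable (fun z => G z (Θ z.1)) (R.dlaw ν i) := by
    refine R.integrable_of_orth hν i (F := fun z => G z (Θ z.1)) (R.continuous_tilt hΦ i hc)
      (B := M ^ 1 * B) fun z hz => ?_
    have h1 := one_le_pow₀ (R.one_le_norm (β := β) hΦ i z.1 z.2) (n := 1)
    rw [abs_div, abs_of_pos (zero_lt_one.trans_le h1)]
    refine (div_le_self (abs_nonneg _) h1).trans (abs_pgibbs_le fun x => ?_)
    rw [abs_mul, pow_one, Fin.prod_univ_one, abs_of_nonneg (zero_le_one.trans (hΦ.range _).1)]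
    exact mul_le_mul (hΦ.range _).2 (hB z.1 x hz) (abs_nonneg _)
      (zero_le_one.trans ((hΦ.range 0).1.trans (hΦ.range 0).2))
  have hone : ∀ z, G z (fun _ => t) = t := fun z => by
    simp only [G, pow_one, Fin.prod_univ_one]
    rw [show (fun x : Fin 1 → Fin (R.N i) → Bool => Φ (R.field i z.1 (x 0)) * t) =
      fun x => t * Φ (R.field i z.1 (x 0)) from funext fun x => mul_comm _ _, pgibbs_mul_left]
    exact mul_div_cancel_right₀ _ (zero_lt_one.trans_le (R.one_le_norm hΦ i z.1 z.2)).ne'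
  have hd : R.tiltAvg β ν i Φ Θ - t = ∫ z, (G z (Θ z.1) - t) ∂(R.dlaw ν i) := by
    rw [integral_sub hi (integrable_const _), integral_const, probReal_univ, one_smul]
    rfl
  have hg : ∀ z, |G z (Θ z.1) - t| ≤ G z fun x => |Θ z.1 x - t| := by
    intro z
    have hsub : G z (Θ z.1) - G z (fun _ => t) = G z fun x => Θ z.1 x - t := by
      have e : ∀ x, (∏ l, Φ (R.field i z.1 (x l))) * Θ z.1 x =
          (∏ l, Φ (R.field i z.1 (x l))) * t + (∏ l, Φ (R.field i z.1 (x l))) * (Θ z.1 x - t) :=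
        fun x => by ring
      simp only [G]
      conv_lhs => arg 1; simp only [e]
      rw [pgibbs_add, add_div, add_sub_cancel_left]
    rw [hone] at hsub
    rw [hsub]
    simp only [G]
    rw [abs_div, abs_of_pos (pow_pos (zero_lt_one.trans_le (R.one_le_norm hΦ i z.1 z.2)) 1)]
    refine div_le_div_of_nonneg_right (abs_le.2 ⟨?_, pgibbs_mono fun x => ?_⟩)
      (pow_nonneg (zero_le_one.trans (R.one_le_norm hΦ i z.1 z.2)) 1)
    · rw [← neg_one_mul, ← pgibbs_mul_left]
      refine pgibbs_mono fun x => ?_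
      rw [neg_one_mul, neg_le, ← mul_neg]
      exact mul_le_mul_of_nonneg_left (neg_le_abs _)
        (Finset.prod_nonneg fun l _ => zero_le_one.trans (hΦ.range _).1)
    · exact mul_le_mul_of_nonneg_left (le_abs_self _)
        (Finset.prod_nonneg fun l _ => zero_le_one.trans (hΦ.range _).1)
  rw [hd]
  refine (abs_integral_le_integral_abs).trans (le_trans ?_ (R.tiltAvg_le hν hΦ i
    (Θ := fun U x => |Θ U x - t|) (fun x => ((hc x).sub continuous_const).abs) (B := B + |t|)
    (fun U x hU => (abs_of_nonneg (abs_nonneg _)).trans_le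
      ((abs_sub _ _).trans (add_le_add (hB U x hU) le_rfl)))
    fun U x => abs_nonneg _).2)
  refine integral_mono_of_nonneg (Eventually.of_forall fun z => abs_nonneg _) ?_
    (Eventually.of_forall hg)
  refine R.integrable_of_orth hν i (R.continuous_tilt hΦ i (Θ := fun U x => |Θ U x - t|)
    fun x => ((hc x).sub continuous_const).abs) (B := M ^ 1 * (B + |t|)) fun z hz => ?_
  have h1 := one_le_pow₀ (R.one_le_norm (β := β) hΦ i z.1 z.2) (n := 1)
  rw [abs_div, abs_of_pos (zero_lt_one.trans_le h1)]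
  refine (div_le_self (abs_nonneg _) h1).trans (abs_pgibbs_le fun x => ?_)
  rw [abs_mul, pow_one, Fin.prod_univ_one, abs_of_nonneg (zero_le_one.trans (hΦ.range _).1), abs_abs]
  exact mul_le_mul (hΦ.range _).2 ((abs_sub _ _).trans (add_le_add (hB z.1 x hz) le_rfl))
    (abs_nonneg _) (zero_le_one.trans ((hΦ.range 0).1.trans (hΦ.range 0).2))

/-! ### Removing the truncation along the discretisations -/

section Trunc

variable {κ : Type} [Fintype κ] [DecidableEq κ] {dl v : κ → ℝ} {e : κ}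

/-- Truncated values tend to the untruncated one. -/
lemma tendsto_valV {r : ℕ} {m q : Fin (r + 1) → ℝ} {C : ℝ}
    (htr : ∀ L : ℝ, 0 < L → |valV m (fInc q c) (fRest q c) (spinW' dl e v) -
      valV m (fInc q c) (fRest q c) (spinW dl e v L)| ≤ C / L) :
    Tendsto (fun L => valV m (fInc q c) (fRest q c) (spinW dl e v L)) atTop
      (𝓝 (valV m (fInc q c) (fRest q c) (spinW' dl e v))) := by
  refine tendsto_iff_dist_tendsto_zero.2 (squeeze_zero' (Eventually.of_forall fun L => dist_nonneg)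
    ((eventually_gt_atTop 0).mono fun L hL => ?_) (tendsto_const_nhds.div_atTop tendsto_id (a := C)))
  rw [Real.dist_eq, abs_sub_comm]
  exact htr L hL

theorem trunc_stable (hv : Dirn dl v e) {cmax : ℝ} (hε : 0 < ε) :
    ∃ C : ℝ, 0 ≤ C ∧ ∀ (k : ℕ) (D : Discr A (k + 2)) (c : ℝ), Margin dl D.C.cdf D.q c ε → c ≤ cmax →
      ∀ L : ℝ, 0 < L →
        valV D.C.cdf (fInc D.q c) (fRest D.q c) (spinW' dl e v) ≤
            valV D.C.cdf (fInc D.q c) (fRest D.q c) (spinW dl e v L) + C / L ∧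
        (∀ k', valV D.C.cdf (fInc D.q c) (fRest D.q c) (delW dl e k' L) ≤
            valV D.C.cdf (fInc D.q c) (fRest D.q c) (delW' dl e k')) ∧
        ∀ (θ : (Fld e → ℝ) → ℝ) (B : ℝ), BCV θ → (∀ y, |θ y| ≤ B) →
          |oneV D.C.cdf (fInc D.q c) (fRest D.q c) (spinW' dl e v) θ -
              oneV D.C.cdf (fInc D.q c) (fRest D.q c) (spinW dl e v L) θ| ≤ 2 * B * (C / L) ∧
          ∀ ψ : Fin (D.r + 1) → ℝ, (∀ j, |ψ j| ≤ 1) →
            |(∑ j, lmass D.C.cdf j * (ψ j *
                twoV D.C.cdf (fInc D.q c) (fRest D.q c) (spinW' dl e v) θ θ j)) -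
              ∑ j, lmass D.C.cdf j * (ψ j *
                twoV D.C.cdf (fInc D.q c) (fRest D.q c) (spinW dl e v L) θ θ j)| ≤
              4 * B ^ 2 * (C / L) := by
  obtain ⟨C, hC⟩ := valV_trunc dl e (cmax := cmax) hε
  refine ⟨|C|, abs_nonneg C, fun k D c hM hc L hL => ?_⟩
  have hC' := hC D.r D.C.cdf D.q c v hv hM hc
  have hCL : C / L ≤ |C| / L := div_le_div_of_nonneg_right (le_abs_self C) hL.le
  refine ⟨by linarith [(abs_le.1 (hC' L hL).1).2], (hC' L hL).2, fun θ B hθ hB => ?_⟩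
  have hd := discr_inc D hM.pos.1.le
  have ht := tendsto_valV fun L hL => (hC' L hL).1
  have hgap : valV D.C.cdf (fInc D.q c) (fRest D.q c) (spinW' dl e v) -
      valV D.C.cdf (fInc D.q c) (fRest D.q c) (spinW dl e v L) ≤ |C| / L :=
    ((le_abs_self _).trans (hC' L hL).1).trans hCL
  have hB0 : 0 ≤ B := (abs_nonneg _).trans (hB 0)
  constructor
  · refine (le_of_tendsto_of_tendsto (((tendsto_oneV_trunc hv hM hθ).sub tendsto_const_nhds).abs)
      ((ht.sub tendsto_const_nhds).const_mul (2 * B)) ((eventually_ge_atTop L).mono fun L' hL' => ?_)).trans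
        (mul_le_mul_of_nonneg_left hgap (by positivity))
    exact one_stable hd.1 hd.2 (wgt_spinW hv.slope v hL.le hL')
      (wgt_spinW hv.slope v (hL.le.trans hL') le_rfl) (spinW_mono v hL') hθ hB
  · intro ψ hψ
    refine (le_of_tendsto_of_tendsto (((tendsto_finsetSum _ fun j _ =>
      (((tendsto_twoV_trunc hv hM hθ j).const_mul (ψ j)).const_mul _)).sub tendsto_const_nhds).abs)
      ((ht.sub tendsto_const_nhds).const_mul (4 * B ^ 2))
      ((eventually_ge_atTop L).mono fun L' hL' => ?_)).trans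
        (mul_le_mul_of_nonneg_left hgap (by positivity))
    exact pair_stable hd.1 hd.2 (wgt_spinW hv.slope v hL.le hL')
      (wgt_spinW hv.slope v (hL.le.trans hL') le_rfl) (spinW_mono v hL') hθ hB hψ

end Trunc

/-! ### The gain -/

lemma valV_gain (hβ : 0 ≤ β) (hmin : ∀ i, a.lam i0 ≤ a.lam i) {θ : ℝ} (hθ : 0 ≤ θ)
    (hθ' : θ ≤ a.wt i0) {r : ℕ} {m q : Fin (r + 1) → ℝ} (h : Margin (dlA a β i0) m q c ε) :
    valV m (fInc q c) (fRest q c) (spinW' (dlA a β i0) (some i0) (vA a i0 θ)) -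
      ∑ k, a.wt k * valV m (fInc q c) (fRest q c) (delW' (dlA a β i0) (some i0) (some k)) =
      gainVal a β i0 θ m q c := by
  have hv := dirn_vA hβ hmin hθ hθ'
  set P := ∑ j : Slot (some i0 : Option (Fin K)), tLog m q c (dlA a β i0 j.1)
  have hsplit : ∑ j, tLog m q c (dlA a β i0 j) = P := by
    rw [← Finset.add_sum_erase _ _ (Finset.mem_univ (some i0 : Option (Fin K))), dlA_self, tLog_zero,
      zero_add]
    exact Finset.sum_subtype _ (fun j => by simp) _
  have hdel : ∀ k, valV m (fInc q c) (fRest q c) (delW' (dlA a β i0) (some i0) (some k)) =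
      2 * P - tLog m q c (β * (a.lam k - a.lam i0)) := fun k => by
    rw [valV_del hv h (some k)]
    have e : ∑ j : Slot (some i0 : Option (Fin K)), (if j.1 = some k then tLog m q c (dlA a β i0 j.1)
        else 0) = tLog m q c (β * (a.lam k - a.lam i0)) := by
      by_cases hk : k = i0
      · subst hk
        rw [sub_self, mul_zero, tLog_zero]
        exact Finset.sum_eq_zero fun j _ => if_neg j.2
      · rw [Finset.sum_eq_single (⟨some k, fun e => hk (Option.some_inj.1 e)⟩ :
            Slot (some i0 : Option (Fin K))) (fun j _ hj => if_neg fun e => hj (Subtype.ext e))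
          (fun h => absurd (Finset.mem_univ _) h), if_pos rfl]
        rfl
    have e2 : (∑ j : Slot (some i0 : Option (Fin K)), if j.1 = some k then 0
        else tLog m q c (dlA a β i0 j.1)) = P - tLog m q c (β * (a.lam k - a.lam i0)) := by
      rw [← e, ← Finset.sum_sub_distrib]
      exact Finset.sum_congr rfl fun j _ => by split_ifs <;> ring
    rw [e2]
    ring
  rw [valV_spin hv h, hsplit]
  simp only [hdel, mul_sub, Finset.sum_sub_distrib, ← Finset.sum_mul, a.total, one_mul, gainVal]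
  ring

theorem gain_limit (hβ : 0 < β) (hmin : ∀ i, a.lam i0 ≤ a.lam i)
    (hν : ∀ N, OrthInvLaw N (ν N)) (h : R.Conv β ν c A) (D : ∀ k, Discr A (k + 2)) (hε : 0 < ε)
    (hM : ∀ᶠ k in atTop, Margin (dlA a β i0) (D k).C.cdf (D k).q c ε) {X : ℝ}
    (hX : ∀ i, β * a.lam i0 / 2 + R.gain β ν i ≤ X) {δ : ℝ} (hδ : 0 < δ) :
    ∀ᶠ k in atTop, β * a.lam i0 / 2 + gainVal a β i0 R.θ (D k).C.cdf (D k).q c ≤ X + δ := by
  have hv := dirn_vA hβ.le hmin R.θmem.1.le R.θmem.2.le
  obtain ⟨C, hC⟩ := R.gain_lower hβ hmin hν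
  obtain ⟨C', -, hC'⟩ := trunc_stable (A := A) hv (cmax := c) hε
  obtain ⟨L, hL, hLC⟩ : ∃ L : ℝ, 0 < L ∧ (C + C') / L ≤ δ / 3 := by
    exact ((eventually_gt_atTop 0).and
      (Tendsto.eventually_le_const (by linarith : (0 : ℝ) < δ / 3)
        (tendsto_id.const_div_atTop (C + C')))).exists
  have hW : Wgt (Real.exp L) (R.spW β L) := wgt_spinW (dlA_nonneg hβ.le hmin) _ hL.le le_rfl
  obtain ⟨ls, hls, hls'⟩ := h.log_limit hν D hW
  choose ld hld hld' using fun k : Fin K =>
    h.log_limit hν D (wgt_delW (e := (some i0 : Option (Fin K))) (dlA_nonneg hβ.le hmin) (some k) hL.le)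
  have hlim : β * a.lam i0 / 2 + (ls - ∑ k, a.wt k * ld k) ≤ X + C / L := by
    refine le_of_forall_pos_le_add fun e he => ?_
    refine le_of_tendsto (tendsto_const_nhds.add (hls.sub (tendsto_finsetSum _ fun k _ =>
      (hld k).const_mul (a.wt k)))) ((hC L hL e he).mono fun i hi => ?_)
    linarith [hX i]
  have hev := (hls'.sub (tendsto_finsetSum Finset.univ fun k _ => (hld' k).const_mul (a.wt k))).eventually_le_const
    (lt_add_of_pos_right _ (by linarith : (0 : ℝ) < δ / 3))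
  filter_upwards [hev, hM] with k hk hMk
  obtain ⟨h1, h2, -⟩ := hC' k (D k) c hMk le_rfl L hL
  rw [← valV_gain hβ.le hmin R.θmem.1.le R.θmem.2.le hMk]
  have h3 := Finset.sum_le_sum (s := Finset.univ) fun l _ =>
    mul_le_mul_of_nonneg_left (h2 (some l)) (a.pos l).le
  rw [add_div] at hLC
  simp only [Regime.spW] at hk
  linarith

/-! ### Stationarity -/

theorem pair_stationary (hβ : 0 < β) (hmin : ∀ i, a.lam i0 ≤ a.lam i)
    (hν : ∀ N, OrthInvLaw N (ν N)) (h : R.Conv β ν c A) (D : ∀ k, Discr A (k + 2)) (hε : 0 < ε)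
    (hM : ∀ᶠ k in atTop, Margin (dlA a β i0) (D k).C.cdf (D k).q c ε) {ψ : ℝ → ℝ} {Λ : ℝ}
    (hψ1 : ∀ x, |ψ x| ≤ 1) (hψ : ∀ x x', |ψ x - ψ x'| ≤ Λ * |x - x'|) :
    Tendsto (fun k => ∑ j, lmass (D k).C.cdf j * (ψ (c * (D k).q j) *
      (chainSlope (D k).C.cdf (rpath (dlA a β i0) (vA a i0 R.θ) (D k).C.cdf (D k).q c) j -
        ptilt a β i0 (D k).C.cdf (D k).q c j))) atTop (𝓝 0) := by
  have hv := dirn_vA hβ.le hmin R.θmem.1.le R.θmem.2.le
  obtain ⟨C, hC⟩ := R.stationary_pair hβ hmin hν hψ1 hψ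
  obtain ⟨C₂, hC₂0, hC₂⟩ := trunc_stable (A := A) hv (cmax := c) hε
  obtain ⟨C₃, hC₃⟩ := twoV_probe_clip (dlA a β i0) (some i0) (cmax := c) hε
  refine Metric.tendsto_nhds.2 fun η hη => ?_
  obtain ⟨b, hb1, hb⟩ : ∃ b : ℝ, 1 ≤ b ∧ (|C| + |C₃|) / b ≤ η / 4 :=
    ((eventually_ge_atTop 1).and (Tendsto.eventually_le_const (by linarith : (0 : ℝ) < η / 4)
      (tendsto_id.const_div_atTop (|C| + |C₃|)))).exists
  obtain ⟨L, hL, hLb⟩ : ∃ L : ℝ, 0 < L ∧ (|C| * b ^ 2 + 4 * C₂ + 4 * b ^ 2 * C₂) / L ≤ η / 4 :=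
    ((eventually_gt_atTop 0).and (Tendsto.eventually_le_const (by linarith : (0 : ℝ) < η / 4)
      (tendsto_id.const_div_atTop (|C| * b ^ 2 + 4 * C₂ + 4 * b ^ 2 * C₂)))).exists
  have hψc : Continuous ψ :=
    (LipschitzWith.of_dist_le' (K := Λ) fun x x' => by simpa [Real.dist_eq] using hψ x x').continuous
  have hW : Wgt (Real.exp L) (R.spW β L) := wgt_spinW (dlA_nonneg hβ.le hmin) _ hL.le le_rfl
  obtain ⟨lA, hA, hA'⟩ := h.pair_limit hν D hW
    (θ := spinT' (dlA a β i0) (some i0) (vA a i0 R.θ)) (bcv_spinT' _) hψc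
  have hbc : ∀ {l : Fin K} (hl : l ≠ i0), BCV fun z => clip b (probe (i0 := i0) hl z) := fun hl =>
    ⟨(continuous_clip b).comp (continuous_probe hl), b, fun _ => abs_clip_le (by linarith) _⟩
  choose lB hB hB' using fun l : {l : Fin K // l ≠ i0} => h.pair_limit hν D hW (hbc l.2) hψc
  set ψ1 : ℝ → ℝ := fun x => clip R.ρ x * ψ x
  obtain ⟨lG, hG, hG'⟩ := h.pair_limit hν D hW (θ := fun _ => (1 : ℝ))
    ⟨continuous_const, 1, fun _ => abs_one.le⟩ (ψ := ψ1) ((continuous_clip _).mul hψc)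
  set lB' : Fin K → ℝ := fun l => if hl : l = i0 then 0 else a.wt l * lB ⟨l, hl⟩
  have hclip : ∀ x, |x| ≤ R.ρ → clip R.ρ x = x := fun x hx => by
    rw [clip, min_eq_right (abs_le.1 hx).2, max_eq_right (abs_le.1 hx).1]
  have hlim : |lA - ((∑ l, lB' l) + a.wt i0 * lG)| ≤ |C| * b ^ 2 / L + |C| / b + η / 8 := by
    have ht : Tendsto (fun i => (∑ l : Fin K, if hl : l = i0 then 0 else
        a.wt l * R.tiltAvg β ν i (R.spW β L) (r := 2) (fun U x =>
          clip b (probe hl (R.field i U (x 0))) * clip b (probe hl (R.field i U (x 1))) *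
            ψ (R.cov i U x 0 1))) +
        a.wt i0 * R.tiltAvg β ν i (R.spW β L) (r := 2) (fun U x =>
          R.cov i U x 0 1 * ψ (R.cov i U x 0 1))) atTop (𝓝 ((∑ l, lB' l) + a.wt i0 * lG)) := by
      refine Tendsto.add (tendsto_finsetSum _ fun l _ => ?_) (Tendsto.const_mul _ (hG.congr fun i =>
        tiltAvg_congr R hν i _ fun U x hU => ?_))
      · by_cases hl : l = i0
        · simp [lB', hl]
        · simpa [lB', hl] using (hB ⟨l, hl⟩).const_mul (a.wt l)
      · simp only [ψ1, hclip _ (R.abs_cov_le i hU x 0 1), one_mul]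
    refine le_of_tendsto ((hA.sub ht).abs) ((hC L b hL hb1 (η / 8) (by linarith)).mono fun i hi =>
      hi.trans ?_)
    have g1 := div_le_div_of_nonneg_right
      (mul_le_mul_of_nonneg_right (le_abs_self C) (sq_nonneg b)) hL.le
    have g2 := div_le_div_of_nonneg_right (le_abs_self C) (zero_le_one.trans hb1)
    linarith
  have hK : Tendsto (fun k => (∑ l : Fin K, if hl : l = i0 then 0 else a.wt l *
      ∑ j, lmass (D k).C.cdf j * (ψ (c * (D k).q j) * twoV (D k).C.cdf (fInc (D k).q c)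
        (fRest (D k).q c) (R.spW β L) (fun z => clip b (probe hl z))
        (fun z => clip b (probe hl z)) j)) +
      a.wt i0 * ∑ j, lmass (D k).C.cdf j * (ψ1 (c * (D k).q j) * twoV (D k).C.cdf (fInc (D k).q c)
        (fRest (D k).q c) (R.spW β L) (fun _ => 1) (fun _ => 1) j)) atTop
      (𝓝 ((∑ l, lB' l) + a.wt i0 * lG)) := by
    refine Tendsto.add (tendsto_finsetSum _ fun l _ => ?_) (hG'.const_mul _)
    by_cases hl : l = i0
    · simp [lB', hl]
    · simpa [lB', hl] using (hB' ⟨l, hl⟩).const_mul (a.wt l)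
  filter_upwards [Metric.tendsto_nhds.1 (hA'.sub hK) (η / 8) (by linarith), hM] with k hk hMk
  rw [Real.dist_eq] at hk
  rw [Real.dist_eq, sub_zero]
  set m := (D k).C.cdf
  set q := (D k).q
  set W' := spinW' (dlA a β i0) (some i0) (vA a i0 R.θ)
  have hψj : ∀ j, |ψ (c * q j)| ≤ 1 := fun j => hψ1 _
  obtain ⟨-, -, hst⟩ := hC₂ k (D k) c hMk le_rfl L hL
  have e1 : |(∑ j, lmass m j * (ψ (c * q j) *
        chainSlope m (rpath (dlA a β i0) (vA a i0 R.θ) m q c) j)) -
      ∑ j, lmass m j * (ψ (c * q j) * twoV m (fInc q c) (fRest q c) (R.spW β L)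
        (spinT' (dlA a β i0) (some i0) (vA a i0 R.θ))
        (spinT' (dlA a β i0) (some i0) (vA a i0 R.θ)) j)| ≤ 4 * C₂ / L := by
    have := (hst (spinT' (dlA a β i0) (some i0) (vA a i0 R.θ)) 1 (bcv_spinT' _) (abs_spinT'_le _)).2
      (fun j => ψ (c * q j)) hψj
    simp only [one_pow, mul_one, ← mul_div_assoc] at this
    refine le_of_eq_of_le (congrArg abs (congrArg₂ (· - ·) (Finset.sum_congr rfl fun j _ => ?_) rfl))
      this
    rw [← twoV_spin hv hMk j]
  have e2 : ∀ l (hl : l ≠ i0), |(∑ j, lmass m j * (ψ (c * q j) *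
        tilt m q c (β * (a.lam l - a.lam i0)) j)) -
      ∑ j, lmass m j * (ψ (c * q j) * twoV m (fInc q c) (fRest q c) (R.spW β L)
        (fun z => clip b (probe hl z)) (fun z => clip b (probe hl z)) j)| ≤
      4 * b ^ 2 * C₂ / L + |C₃| / b := by
    intro l hl
    have h1 := (hst _ b (hbc hl) fun y => abs_clip_le (by linarith) _).2 (fun j => ψ (c * q j)) hψj
    rw [← mul_div_assoc] at h1
    refine (abs_sub_le _ (∑ j, lmass m j * (ψ (c * q j) * twoV m (fInc q c) (fRest q c) W'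
      (fun z => clip b (probe hl z)) (fun z => clip b (probe hl z)) j)) _).trans ?_
    rw [add_comm (4 * b ^ 2 * C₂ / L)]
    refine add_le_add ?_ h1
    rw [← Finset.sum_sub_distrib]
    refine (Finset.abs_sum_le_sum_abs _ _).trans ?_
    calc ∑ j, |lmass m j * (ψ (c * q j) * tilt m q c (β * (a.lam l - a.lam i0)) j) -
          lmass m j * (ψ (c * q j) * twoV m (fInc q c) (fRest q c) W'
            (fun z => clip b (probe hl z)) (fun z => clip b (probe hl z)) j)|
        ≤ ∑ j, lmass m j * (|C₃| / b) := Finset.sum_le_sum fun j _ => by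
          rw [← mul_sub, ← mul_sub, abs_mul, abs_mul, abs_of_nonneg (lmass_nonneg hMk.lev j)]
          refine mul_le_mul_of_nonneg_left (le_trans (mul_le_of_le_one_left (abs_nonneg _) (hψj j)) ?_)
            (lmass_nonneg hMk.lev j)
          refine le_trans ?_ (div_le_div_of_nonneg_right (le_abs_self C₃) (zero_le_one.trans hb1))
          have h2 := hC₃ (D k).r m q c (vA a i0 R.θ) hv hMk le_rfl
            ⟨some l, fun e => hl (Option.some_inj.1 e)⟩ j b (by linarith)
          rw [twoV_probe hv hMk] at h2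
          exact h2
      _ = |C₃| / b := by rw [← Finset.sum_mul, sum_lmass hMk.lev, one_mul]
  have e3 : ∀ j, ψ1 (c * q j) * twoV m (fInc q c) (fRest q c) (R.spW β L) (fun _ => 1) (fun _ => 1) j =
      ψ (c * q j) * tilt m q c 0 j := by
    intro j
    rw [twoV_one (fun i => (hMk.lev.zero).symm.trans_le (hMk.lev.strict.monotone (Fin.zero_le i))) hW,
      mul_one, tilt_zero]
    simp only [ψ1]
    rw [hclip _ ?_, mul_comm]
    rw [abs_of_nonneg (mul_nonneg h.pos.le (hMk.nonneg j))]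
    exact (mul_le_of_le_one_right h.pos.le (hMk.ltOne j).le).trans h.le
  have e4 : ∑ j, lmass m j * (ψ (c * q j) * ptilt a β i0 m q c j) =
      ∑ l, a.wt l * ∑ j, lmass m j * (ψ (c * q j) * tilt m q c (β * (a.lam l - a.lam i0)) j) := by
    simp only [ptilt, Finset.mul_sum]
    rw [Finset.sum_comm]
    exact Finset.sum_congr rfl fun l _ => Finset.sum_congr rfl fun j _ => by ring
  have e5 : |(∑ j, lmass m j * (ψ (c * q j) * ptilt a β i0 m q c j)) -
      ((∑ l : Fin K, if hl : l = i0 then 0 else a.wt l *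
        ∑ j, lmass m j * (ψ (c * q j) * twoV m (fInc q c) (fRest q c) (R.spW β L)
          (fun z => clip b (probe hl z)) (fun z => clip b (probe hl z)) j)) +
        a.wt i0 * ∑ j, lmass m j * (ψ1 (c * q j) * twoV m (fInc q c) (fRest q c) (R.spW β L)
          (fun _ => 1) (fun _ => 1) j))| ≤ 4 * b ^ 2 * C₂ / L + |C₃| / b := by
    simp only [e3, e4]
    rw [show a.wt i0 * ∑ j, lmass m j * (ψ (c * q j) * tilt m q c 0 j) = ∑ l, if l = i0 then
        a.wt l * ∑ j, lmass m j * (ψ (c * q j) * tilt m q c 0 j) else 0 by simp,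
      ← Finset.sum_add_distrib, ← Finset.sum_sub_distrib]
    refine (Finset.abs_sum_le_sum_abs _ _).trans ?_
    calc _ ≤ ∑ l, a.wt l * (4 * b ^ 2 * C₂ / L + |C₃| / b) := Finset.sum_le_sum fun l _ => by
          by_cases hl : l = i0
          · subst hl
            simp only [dif_pos, if_pos, sub_self, mul_zero, zero_add, abs_zero]
            exact mul_nonneg (a.pos l).le (by positivity)
          · rw [dif_neg hl, if_neg hl, add_zero, ← mul_sub, abs_mul, abs_of_pos (a.pos l)]
            exact mul_le_mul_of_nonneg_left (e2 l hl) (a.pos l).le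
      _ = _ := by rw [← Finset.sum_mul, a.total, one_mul]
  simp only [mul_sub, Finset.sum_sub_distrib]
  rw [add_div, add_div] at hLb
  rw [add_div] at hb
  have := abs_le.1 e1
  have := abs_le.1 e5
  have := abs_lt.1 hk
  have := abs_le.1 hlim
  rw [abs_lt]
  constructor <;> linarith

theorem one_stationary (hβ : 0 < β) (hmin : ∀ i, a.lam i0 ≤ a.lam i)
    (hν : ∀ N, OrthInvLaw N (ν N)) (h : R.Conv β ν c A) (D : ∀ k, Discr A (k + 2)) (hε : 0 < ε)
    (hM : ∀ᶠ k in atTop, Margin (dlA a β i0) (D k).C.cdf (D k).q c ε) :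
    Tendsto (fun k => pdiag a β i0 (D k).C.cdf (D k).q c) atTop (𝓝 1) := by
  have hv := dirn_vA hβ.le hmin R.θmem.1.le R.θmem.2.le
  obtain ⟨C, hC⟩ := R.stationary_one hβ hmin hν
  obtain ⟨C₂, hC₂0, hC₂⟩ := trunc_stable (A := A) hv (cmax := c) hε
  obtain ⟨C₃, hC₃⟩ := oneV_probe_sq (dlA a β i0) (some i0) (cmax := c) hε
  refine Metric.tendsto_nhds.2 fun η hη => ?_
  obtain ⟨b, hb1, hb⟩ : ∃ b : ℝ, 1 ≤ b ∧ (|C| + |C₃|) / b ≤ η / 4 :=
    ((eventually_ge_atTop 1).and (Tendsto.eventually_le_const (by linarith : (0 : ℝ) < η / 4)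
      (tendsto_id.const_div_atTop (|C| + |C₃|)))).exists
  obtain ⟨L, hL, hLb⟩ : ∃ L : ℝ, 0 < L ∧ (|C| * b + 2 * b * C₂) / L ≤ η / 4 :=
    ((eventually_gt_atTop 0).and (Tendsto.eventually_le_const (by linarith : (0 : ℝ) < η / 4)
      (tendsto_id.const_div_atTop (|C| * b + 2 * b * C₂)))).exists
  have hW : Wgt (Real.exp L) (R.spW β L) := wgt_spinW (dlA_nonneg hβ.le hmin) _ hL.le le_rfl
  have hbc : ∀ {l : Fin K} (hl : l ≠ i0), BCV fun z => min b (probe (i0 := i0) hl z ^ 2) := fun hl =>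
    ⟨continuous_const.min ((continuous_probe hl).pow 2), b, fun z => by
      rw [abs_of_nonneg (le_min (by linarith) (sq_nonneg _))]
      exact min_le_left _ _⟩
  choose lB hB hB' using fun l : {l : Fin K // l ≠ i0} => h.one_limit hν D hW (hbc l.2)
  set lB' : Fin K → ℝ := fun l => if hl : l = i0 then 0 else a.wt l * lB ⟨l, hl⟩
  have hcov : Tendsto (fun i => R.tiltAvg β ν i (R.spW β L) (r := 1) fun U x => R.cov i U x 0 0)
      atTop (𝓝 c) := by
    have h0 : Tendsto (fun i => R.avg β ν i (r := 1) fun U x => |R.cov i U x 0 0 - c|) atTop (𝓝 0) := by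
      have h1 := h.lim 1 (fun M => |M 0 0 - c|) (by fun_prop)
      have e : ∫ M, |c * M 0 0 - c| ∂A.law 1 = 0 :=
        integral_eq_zero_of_ae ((A.diag 1).mono fun M hM => by simp [hM 0])
      rwa [e] at h1
    have h1 := h0.const_mul (Real.exp L ^ 1)
    rw [mul_zero] at h1
    refine tendsto_iff_dist_tendsto_zero.2 (squeeze_zero (fun i => dist_nonneg) (fun i => ?_) h1)
    rw [Real.dist_eq]
    exact tiltAvg_sub_const R hν i hW (fun x => R.continuous_cov i x 0 0)
      (fun U x hU => R.abs_cov_le i hU x 0 0) c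
  have hlim : |1 - ((∑ l, lB' l) + a.wt i0 * c)| ≤ |C| * b / L + |C| / b + η / 8 := by
    have ht : Tendsto (fun i => (∑ l : Fin K, if hl : l = i0 then 0 else
        a.wt l * R.tiltAvg β ν i (R.spW β L) (r := 1) (fun U x =>
          min b (probe hl (R.field i U (x 0)) ^ 2))) +
        a.wt i0 * R.tiltAvg β ν i (R.spW β L) (r := 1) (fun U x => R.cov i U x 0 0)) atTop
        (𝓝 ((∑ l, lB' l) + a.wt i0 * c)) := by
      refine Tendsto.add (tendsto_finsetSum _ fun l _ => ?_) (hcov.const_mul _)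
      by_cases hl : l = i0
      · simp [lB', hl]
      · simpa [lB', hl] using (hB ⟨l, hl⟩).const_mul (a.wt l)
    refine le_of_tendsto ((tendsto_const_nhds.sub ht).abs)
      ((hC L b hL hb1 (η / 8) (by linarith)).mono fun i hi => hi.trans ?_)
    have g1 := div_le_div_of_nonneg_right
      (mul_le_mul_of_nonneg_right (le_abs_self C) (zero_le_one.trans hb1)) hL.le
    have g2 := div_le_div_of_nonneg_right (le_abs_self C) (zero_le_one.trans hb1)
    linarith
  have hK : Tendsto (fun k => (∑ l : Fin K, if hl : l = i0 then 0 else a.wt l *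
      oneV (D k).C.cdf (fInc (D k).q c) (fRest (D k).q c) (R.spW β L)
        (fun z => min b (probe hl z ^ 2))) + a.wt i0 * c) atTop (𝓝 ((∑ l, lB' l) + a.wt i0 * c)) := by
    refine (tendsto_finsetSum _ fun l _ => ?_).add tendsto_const_nhds
    by_cases hl : l = i0
    · simp [lB', hl]
    · simpa [lB', hl] using (hB' ⟨l, hl⟩).const_mul (a.wt l)
  filter_upwards [Metric.tendsto_nhds.1 hK (η / 8) (by linarith), hM] with k hk hMk
  rw [Real.dist_eq] at hk ⊢
  set m := (D k).C.cdf
  set q := (D k).q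
  obtain ⟨-, -, hst⟩ := hC₂ k (D k) c hMk le_rfl L hL
  have e5 : |pdiag a β i0 m q c - ((∑ l : Fin K, if hl : l = i0 then 0 else a.wt l *
      oneV m (fInc q c) (fRest q c) (R.spW β L) (fun z => min b (probe hl z ^ 2))) + a.wt i0 * c)| ≤
      2 * b * C₂ / L + |C₃| / b := by
    rw [pdiag, show a.wt i0 * c = ∑ l, if l = i0 then a.wt l * c else 0 by simp,
      ← Finset.sum_add_distrib, ← Finset.sum_sub_distrib]
    refine (Finset.abs_sum_le_sum_abs _ _).trans ?_
    calc _ ≤ ∑ l, a.wt l * (2 * b * C₂ / L + |C₃| / b) := Finset.sum_le_sum fun l _ => by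
          by_cases hl : l = i0
          · subst hl
            simp only [dif_pos, if_pos, sub_self, mul_zero, zero_mul, sub_zero, div_one, zero_add,
              tilt_zero]
            rw [show c * q (Fin.last (D k).r) + c * (1 - q (Fin.last (D k).r)) = c by ring, sub_self,
              abs_zero]
            exact mul_nonneg (a.pos l).le (by positivity)
          · rw [dif_neg hl, if_neg hl, add_zero, ← mul_sub, abs_mul, abs_of_pos (a.pos l)]
            refine mul_le_mul_of_nonneg_left ?_ (a.pos l).le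
            have h2 := hC₃ (D k).r m q c (vA a i0 R.θ) hv hMk le_rfl
              ⟨some l, fun e => hl (Option.some_inj.1 e)⟩ b (by linarith)
            have h1 := (hst _ b (hbc hl) fun z => by
              rw [abs_of_nonneg (le_min (by linarith) (sq_nonneg _))]
              exact min_le_left _ _).1
            rw [← mul_div_assoc] at h1
            have h3 := div_le_div_of_nonneg_right (le_abs_self C₃) (zero_le_one.trans hb1)
            refine (abs_sub_le _ (oneV m (fInc q c) (fRest q c)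
              (spinW' (dlA a β i0) (some i0) (vA a i0 R.θ)) fun z => min b (probe hl z ^ 2)) _).trans ?_
            rw [add_comm]
            exact add_le_add h1 (h2.trans h3)
      _ = _ := by rw [← Finset.sum_mul, a.total, one_mul]
  rw [add_div] at hLb hb
  have := abs_le.1 e5
  have := abs_lt.1 hk
  have := abs_le.1 hlim
  rw [abs_lt]
  constructor <;> linarith

end Vale.Agent.P166F.Low
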