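import Vale.Agent.P166F.Energy
import Vale.Agent.P166F.Low.Select
import Vale.Agent.P166F.Low.Stat

/-!
P166: the discretised values exceed the infimum of the formula, which excludes a low pressure.
-/

namespace Vale.Agent.P166F.Low

open MeasureTheory Filter
open scoped Topology
open Vale.Agent.P157.Low (Arr Discr)
open Vale.Agent.P166N.Spectrum (OrthInvLaw)

/-- A ramp from `0` to `1` over the unit interval. -/
noncomputable def ramp01 (t : ℝ) : ℝ := max 0 (min 1 t)

lemma ramp01_mono {s t : ℝ} (h : s ≤ t) : ramp01 s ≤ ramp01 t :=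
  max_le_max le_rfl (min_le_min le_rfl h)

lemma ramp01_lip (s t : ℝ) : |ramp01 s - ramp01 t| ≤ |s - t| := by
  refine (abs_max_sub_max_le_max _ _ _ _).trans ?_
  rw [sub_self, abs_zero]
  refine max_le (abs_nonneg _) ((abs_min_sub_min_le_max _ _ _ _).trans ?_)
  rw [sub_self, abs_zero]
  exact max_le (abs_nonneg _) le_rfl

/-- The bump of index `u` of mesh `1 / M`. -/
noncomputable def bumpU (M u : ℕ) (x : ℝ) : ℝ := ramp01 (M * x - u + 1) - ramp01 (M * x - u)

lemma bumpU_mem (M u : ℕ) (x : ℝ) : 0 ≤ bumpU M u x ∧ bumpU M u x ≤ 1 := by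
  refine ⟨sub_nonneg.2 (ramp01_mono (by linarith)), ?_⟩
  have h1 : ramp01 (M * x - u + 1) ≤ 1 := max_le zero_le_one (min_le_left _ _)
  have h2 : 0 ≤ ramp01 (M * x - u) := le_max_left _ _
  rw [bumpU]
  linarith

lemma bumpU_lip (M u : ℕ) (x y : ℝ) : |bumpU M u x - bumpU M u y| ≤ 2 * M * |x - y| := by
  have h : ∀ a : ℝ, |ramp01 (M * x - a) - ramp01 (M * y - a)| ≤ M * |x - y| := fun a =>
    (ramp01_lip _ _).trans_eq (by
      rw [show (M : ℝ) * x - a - (M * y - a) = M * (x - y) by ring, abs_mul, Nat.abs_cast])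
  have e : ∀ z : ℝ, (M : ℝ) * z - u + 1 = M * z - ((u : ℝ) - 1) := fun z => by ring
  simp only [bumpU, e]
  rw [sub_sub_sub_comm]
  refine (abs_sub _ _).trans ?_
  linarith [h ((u : ℝ) - 1), h u]

lemma bumpU_supp {M u : ℕ} {x : ℝ} (h : bumpU M u x ≠ 0) : |(M : ℝ) * x - u| < 1 := by
  contrapose! h
  rcases le_abs.1 h with h1 | h1
  · simp [bumpU, ramp01, min_eq_left h1, min_eq_left (by linarith : (1 : ℝ) ≤ M * x - u + 1)]
  · rw [bumpU, ramp01, ramp01, min_eq_right (by linarith : (M : ℝ) * x - u + 1 ≤ 1),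
      min_eq_right (by linarith : (M : ℝ) * x - u ≤ 1), max_eq_left (by linarith : (M : ℝ) * x - u + 1 ≤ 0),
      max_eq_left (by linarith : (M : ℝ) * x - u ≤ 0), sub_self]

lemma sum_bumpU (M : ℕ) {x : ℝ} (hx : 0 ≤ x ∧ x ≤ 1) :
    ∑ u ∈ Finset.range (M + 1), bumpU M u x = 1 := by
  have e : ∀ u : ℕ, bumpU M u x =
      ramp01 (M * x + 1 - u) - ramp01 (M * x + 1 - ((u + 1 : ℕ) : ℝ)) := fun u => by
    rw [bumpU]
    push_cast
    ring_nf
  simp only [e]
  rw [Finset.sum_range_sub' (fun u : ℕ => ramp01 (M * x + 1 - u))]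
  have hMx := mul_le_mul_of_nonneg_left hx.2 (Nat.cast_nonneg (α := ℝ) M)
  have hMx0 := mul_nonneg (Nat.cast_nonneg (α := ℝ) M) hx.1
  simp only [ramp01, Nat.cast_zero, sub_zero, Nat.cast_succ]
  rw [min_eq_left (by linarith), max_eq_right zero_le_one, min_eq_right (by linarith),
    max_eq_left (by linarith), sub_zero]

/-- A Lipschitz function has small total mass once its sums against all bumps are small. -/
lemma sum_abs_le_bumps {r : ℕ} {w q f : Fin (r + 1) → ℝ} (hw : ∀ j, 0 ≤ w j) (hw1 : ∑ j, w j = 1)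
    (hq : ∀ j, 0 ≤ q j ∧ q j ≤ 1) {C : ℝ} (hC : 0 ≤ C)
    (hf : ∀ i j, |f i - f j| ≤ C * |q i - q j|) {M : ℕ} (hM : 0 < M) :
    ∑ j, w j * |f j| ≤
      (∑ u ∈ Finset.range (M + 1), |∑ j, w j * (bumpU M u (q j) * f j)|) + 4 * C / M := by
  have hMr : (0 : ℝ) < M := by exact_mod_cast hM
  have key : ∀ u ∈ Finset.range (M + 1), ∑ j, w j * (bumpU M u (q j) * |f j|) ≤
      |∑ j, w j * (bumpU M u (q j) * f j)| + 4 * C / M * ∑ j, w j * bumpU M u (q j) := by
    intro u _
    by_cases hex : ∃ j, bumpU M u (q j) ≠ 0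
    · obtain ⟨j0, hj0⟩ := hex
      have hd : ∀ j, bumpU M u (q j) ≠ 0 → |f j - f j0| ≤ 2 * C / M := fun j hj => by
        refine (hf j j0).trans ?_
        have h1 := bumpU_supp hj
        have h2 := bumpU_supp hj0
        have h3 : (M : ℝ) * |q j - q j0| ≤ 2 := by
          rw [← Nat.abs_cast, ← abs_mul, mul_sub, show (M : ℝ) * q j - M * q j0 =
            (M * q j - u) - (M * q j0 - u) by ring]
          exact (abs_sub _ _).trans (by linarith)
        rw [mul_comm 2 C, mul_div_assoc]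
        exact mul_le_mul_of_nonneg_left ((le_div_iff₀ hMr).2 (by linarith)) hC
      set S := ∑ j, w j * bumpU M u (q j)
      have hwb : ∀ j, 0 ≤ w j * bumpU M u (q j) := fun j => mul_nonneg (hw j) (bumpU_mem M u _).1
      have hS : 0 ≤ S := Finset.sum_nonneg fun j _ => hwb j
      have h1 : ∑ j, w j * (bumpU M u (q j) * |f j|) ≤ S * (|f j0| + 2 * C / M) := by
        rw [Finset.sum_mul]
        refine Finset.sum_le_sum fun j _ => ?_
        rw [← mul_assoc]
        by_cases hj : bumpU M u (q j) = 0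
        · simp [hj]
        · refine mul_le_mul_of_nonneg_left ?_ (hwb j)
          linarith [hd j hj, abs_sub_abs_le_abs_sub (f j) (f j0)]
      have h2 : |∑ j, w j * (bumpU M u (q j) * f j) - S * f j0| ≤ S * (2 * C / M) := by
        rw [Finset.sum_mul, ← Finset.sum_sub_distrib, Finset.sum_mul]
        refine (Finset.abs_sum_le_sum_abs _ _).trans (Finset.sum_le_sum fun j _ => ?_)
        rw [← mul_assoc, ← mul_sub, abs_mul, abs_of_nonneg (hwb j)]
        by_cases hj : bumpU M u (q j) = 0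
        · simp [hj]
        · exact mul_le_mul_of_nonneg_left (hd j hj) (hwb j)
      have h3 : S * |f j0| ≤ |∑ j, w j * (bumpU M u (q j) * f j)| + S * (2 * C / M) := by
        rw [← abs_of_nonneg hS, ← abs_mul, abs_of_nonneg hS]
        have := abs_sub_abs_le_abs_sub (S * f j0) (∑ j, w j * (bumpU M u (q j) * f j))
        rw [abs_sub_comm] at h2
        linarith
      calc _ ≤ S * (|f j0| + 2 * C / M) := h1
        _ = S * |f j0| + S * (2 * C / M) := mul_add _ _ _
        _ ≤ _ := by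
          have e : 4 * C / M * S = S * (2 * C / M) + S * (2 * C / M) := by ring
          linarith
    · push Not at hex
      simp [hex]
  calc ∑ j, w j * |f j|
      = ∑ u ∈ Finset.range (M + 1), ∑ j, w j * (bumpU M u (q j) * |f j|) := by
        rw [Finset.sum_comm]
        refine Finset.sum_congr rfl fun j _ => ?_
        rw [← Finset.mul_sum, ← Finset.sum_mul, sum_bumpU M (hq j), one_mul]
    _ ≤ ∑ u ∈ Finset.range (M + 1), (|∑ j, w j * (bumpU M u (q j) * f j)| +
          4 * C / M * ∑ j, w j * bumpU M u (q j)) := Finset.sum_le_sum key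
    _ = _ := by
      rw [Finset.sum_add_distrib, ← Finset.mul_sum, Finset.sum_comm]
      congr 1
      conv_lhs => arg 2; arg 2; ext j; rw [← Finset.mul_sum, sum_bumpU M (hq j), mul_one]
      rw [hw1, mul_one]

variable {K : ℕ} {a : Atoms K} {i0 : Fin K} {R : Regime a i0} {β : ℝ}
  {ν : (N : ℕ) → Measure (Fin N → Fin N → ℝ)} {c ε : ℝ} {A : Arr}

theorem l1_stationary (hβ : 0 < β) (hmin : ∀ i, a.lam i0 ≤ a.lam i)
    (hν : ∀ N, OrthInvLaw N (ν N)) (h : R.Conv β ν c A) (D : ∀ k, Discr A (k + 2)) (hε : 0 < ε)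
    (hM : ∀ᶠ k in atTop, Margin (dlA a β i0) (D k).C.cdf (D k).q c ε) :
    Tendsto (fun k => ∑ j, lmass (D k).C.cdf j *
      |chainSlope (D k).C.cdf (rpath (dlA a β i0) (vA a i0 R.θ) (D k).C.cdf (D k).q c) j -
        ptilt a β i0 (D k).C.cdf (D k).q c j|) atTop (𝓝 0) := by
  obtain ⟨C, hC⟩ := overlaps_lip a hβ hmin (cmax := c) hε
  refine Metric.tendsto_nhds.2 fun η hη => ?_
  obtain ⟨M, hM0, hMη⟩ : ∃ M : ℕ, 0 < M ∧ 4 * (2 * |C|) / M ≤ η / 2 :=
    ((eventually_gt_atTop 0).and (Tendsto.eventually_le_const (half_pos hη)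
      (tendsto_natCast_atTop_atTop.const_div_atTop (4 * (2 * |C|))))).exists
  have hS : Tendsto (fun k => ∑ u ∈ Finset.range (M + 1), |∑ j, lmass (D k).C.cdf j *
      (bumpU M u ((D k).q j) *
      (chainSlope (D k).C.cdf (rpath (dlA a β i0) (vA a i0 R.θ) (D k).C.cdf (D k).q c) j -
        ptilt a β i0 (D k).C.cdf (D k).q c j))|) atTop (𝓝 0) := by
    have h1 : ∀ u, Tendsto (fun k => |∑ j, lmass (D k).C.cdf j * (bumpU M u ((D k).q j) *
        (chainSlope (D k).C.cdf (rpath (dlA a β i0) (vA a i0 R.θ) (D k).C.cdf (D k).q c) j -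
          ptilt a β i0 (D k).C.cdf (D k).q c j))|) atTop (𝓝 0) := fun u => by
      have h2 := (pair_stationary (ψ := fun x => bumpU M u (x / c)) (Λ := 2 * M / c) hβ hmin hν h D hε hM
        (fun x => by
          rw [abs_of_nonneg (bumpU_mem M u _).1]
          exact (bumpU_mem M u _).2)
        fun x x' => (bumpU_lip M u _ _).trans_eq (by
          rw [← sub_div, abs_div, abs_of_pos h.pos]
          ring)).abs
      simpa [mul_div_cancel_left₀ _ h.pos.ne'] using h2
    simpa using tendsto_finsetSum (Finset.range (M + 1)) fun u _ => h1 u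
  filter_upwards [Metric.tendsto_nhds.1 hS (η / 2) (half_pos hη), hM] with k hk hMk
  rw [Real.dist_eq, sub_zero] at hk ⊢
  rw [abs_of_nonneg (Finset.sum_nonneg fun j _ => mul_nonneg (lmass_nonneg hMk.lev j) (abs_nonneg _))]
  refine (sum_abs_le_bumps (lmass_nonneg hMk.lev) (sum_lmass hMk.lev)
    (fun j => ⟨hMk.nonneg j, (hMk.ltOne j).le⟩) (C := 2 * |C|) (by positivity) (fun i j => ?_)
    hM0).trans_lt ?_
  · obtain ⟨h1, h2, -⟩ := hC (D k).r (D k).C.cdf (D k).q c R.θ R.θmem.1 R.θmem.2 hMk le_rfl i j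
    rw [sub_sub_sub_comm]
    refine (abs_sub _ _).trans ?_
    have h3 := mul_le_mul_of_nonneg_right (le_abs_self C) (abs_nonneg ((D k).q i - (D k).q j))
    linarith
  · linarith [le_abs_self (∑ u ∈ Finset.range (M + 1), |∑ j, lmass (D k).C.cdf j *
      (bumpU M u ((D k).q j) *
      (chainSlope (D k).C.cdf (rpath (dlA a β i0) (vA a i0 R.θ) (D k).C.cdf (D k).q c) j -
        ptilt a β i0 (D k).C.cdf (D k).q c j))|)]

theorem not_low (a : Atoms K) {β : ℝ} (hβ : 0 < β) {blk : (N : ℕ) → Fin N → Fin K}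
    (hb : Balanced a blk) {ν : (N : ℕ) → Measure (Fin N → Fin N → ℝ)}
    (hν : ∀ N, OrthInvLaw N (ν N)) {η : ℝ} (hη : 0 < η) :
    ∀ᶠ N in atTop, sInf (formulaValues a.law β) - η ≤ meanPress a β blk ν N := by
  by_contra hcon
  set ℓ := sInf (formulaValues a.law β) with hℓ
  have hlow : ∃ᶠ N in atTop, meanPress a β blk ν N ≤ ℓ - η :=
    (not_eventually.1 hcon).mono fun N hN => (not_le.1 hN).le
  obtain ⟨i0, -, hmin'⟩ := Finset.univ.exists_min_image a.lam
    (Finset.univ_nonempty_iff.2 ⟨⟨0, Nat.pos_of_ne_zero fun h => by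
      subst h
      simpa using a.total⟩⟩)
  have hmin : ∀ i, a.lam i0 ≤ a.lam i := fun i => hmin' i (Finset.mem_univ i)
  obtain ⟨R₀, hgain, hdiag, hgg⟩ := exists_regime a hβ hmin hb hν hη hlow
  obtain ⟨φ, hφ, c, A, h⟩ := exists_array R₀ hβ hmin hν hdiag hgg
  set R := R₀.sub φ hφ
  choose D hD using fun k : ℕ => exists_discr_levels A (K := k + 2) (by omega)
  obtain ⟨ε, hε, hM⟩ := exists_margin hβ hmin hν h D hD
  obtain ⟨C, hC⟩ := gain_formula a hβ hmin (cmax := c) hε
  have hcompact : IsCompact a.law.support := by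
    rw [a.support_law]
    exact (Set.finite_range a.lam).isCompact
  obtain ⟨hbdd, -⟩ := formula_bddBelow (μ := a.law) hcompact hβ.le
  have h0 := ((one_stationary hβ hmin hν h D hε hM).sub tendsto_const_nhds (b := 1)).abs.add
    (l1_stationary hβ hmin hν h D hε hM)
  rw [sub_self, abs_zero, add_zero] at h0
  have h0' := h0.const_mul C
  rw [mul_zero] at h0'
  have hgl := gain_limit hβ hmin hν h D hε hM (X := ℓ - η / 2) (fun i => hgain (φ i))
    (δ := η / 8) (by linarith)
  obtain ⟨k, hk, hMk, hsmall⟩ :=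
    (hgl.and (hM.and (h0'.eventually_lt_const (by linarith : (0 : ℝ) < η / 8)))).exists
  set m := (D k).C.cdf
  set q := (D k).q
  set r := rpath (dlA a β i0) (vA a i0 R.θ) m q c
  have hv := dirn_vA hβ.le hmin R.θmem.1.le R.θmem.2.le
  have hr := rpath_field hv hMk
  have hp := chainSlope_path hMk.lev hr
  have h1 := hC (D k).r m q (chainSlope m r) c R.θ R.θmem.1 R.θmem.2 hMk le_rfl hp
  have h2 : ℓ ≤ energy a.law β (stepLaw m (chainSlope m r)) + entS m (chainSlope m r) :=
    csInf_le hbdd ⟨_, m, chainSlope m r, hMk.lev, hp, rfl⟩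
  rw [entS_chainSlope hMk.lev hr] at h2
  have := abs_le.1 h1
  linarith

end Vale.Agent.P166F.Low
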