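import Vale.Agent.P166F.Low.GGAvg.Line

/-!
P166: Ghirlanda–Guerra identities on average over a cube of coefficients.
-/

namespace Vale.Agent.P166F.Low

open MeasureTheory

variable {J : Type} [Fintype J] [DecidableEq J] {P : ℕ}

/-- Independent uniform coefficients on `[s / 2, 3 s / 2]`. -/
noncomputable def cubeLaw (s : ℝ) : Measure (CIdx J P → ℝ) :=
  Measure.pi fun _ => (volume.restrict (Set.Icc (0 : ℝ) 1)).map fun u => s / 2 + s * u

/-- The average of the fluctuation of one observable over the cube. -/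
lemma GGAvg.fl_cube {S : Sys J} {s σ : ℝ} (hs : 0 < s) (hσ : 1 ≤ σ) (hσs : 4 * Real.sqrt σ ≤ s)
    (hdev : ∀ y : CIdx J P → ℝ, (∀ k, 0 ≤ y k ∧ y k ≤ 2 * s) → S.dev P s y ≤ σ) (i : CIdx J P) :
    Integrable (GGAvg.fl S s i) (cubeLaw s) ∧
      ∫ y, GGAvg.fl S s i y ∂cubeLaw s ≤ 25 * Real.sqrt σ := by
  classical
  have hφ : Measurable fun u : ℝ => s / 2 + s * u := by fun_prop
  have hprob : IsProbabilityMeasure (GGAvg.uLaw.map fun u => s / 2 + s * u) :=
    Measure.isProbabilityMeasure_map hφ.aemeasurable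
  set ν := GGAvg.uLaw.map fun u => s / 2 + s * u with hν
  have e : (cubeLaw s : Measure (CIdx J P → ℝ)) = Measure.pi fun _ => ν := rfl
  rw [e]
  set B := 2 * ∫ z, GG.obsBd (S := S) (P := P) s z ∂GG.dlaw S P
  have hbd : ∀ y, ‖GGAvg.fl S s i y‖ ≤ B := fun y => by
    rw [Real.norm_eq_abs, abs_of_nonneg (GGAvg.fl_nonneg i y)]; exact GGAvg.fl_le i y
  have hint : Integrable (GGAvg.fl S s i) (Measure.pi fun _ => ν) :=
    (integrable_const B).mono' (GGAvg.measurable_fl i).aestronglyMeasurable
      (Filter.Eventually.of_forall hbd)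
  refine ⟨hint, ?_⟩
  have hmp := P157.Low.measurePreserving_update (ι := CIdx J P) (ν := ν) i
  rw [← hmp.map_eq, integral_map hmp.measurable.aemeasurable
    (GGAvg.measurable_fl i).aestronglyMeasurable,
    integral_prod (fun z : (CIdx J P → ℝ) × ℝ => GGAvg.fl S s i (Function.update z.1 i z.2))
      ((integrable_const B).mono'
      ((GGAvg.measurable_fl i).comp hmp.measurable).aestronglyMeasurable
      (Filter.Eventually.of_forall fun z => hbd _))]
  have hsup : ∀ᵐ y ∂Measure.pi (fun _ : CIdx J P => ν), ∀ k, 0 ≤ y k ∧ y k ≤ 2 * s := by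
    refine ae_all_iff.2 fun k => ?_
    have h1 : ∀ᵐ t ∂ν, 0 ≤ t ∧ t ≤ 2 * s := by
      rw [hν]
      refine (ae_map_iff hφ.aemeasurable ?_).2 ?_
      · exact (measurableSet_le measurable_const measurable_id).inter
          (measurableSet_le measurable_id measurable_const)
      · filter_upwards [ae_restrict_mem (measurableSet_Icc (a := (0 : ℝ)) (b := 1))] with u hu
        constructor <;> nlinarith [hu.1, hu.2]
    exact (Measure.tendsto_eval_ae_ae (μ := fun _ : CIdx J P => ν) (i := k)).eventually h1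
  refine (integral_mono_ae ?_ (integrable_const (25 * Real.sqrt σ)) ?_).trans (le_of_eq (by simp))
  · refine (integrable_const B).mono' (((GGAvg.measurable_fl i).comp
      hmp.measurable).stronglyMeasurable.integral_prod_right' (ν := ν)).aestronglyMeasurable
      (Filter.Eventually.of_forall fun y => ?_)
    exact (norm_integral_le_of_norm_le (integrable_const B)
      (Filter.Eventually.of_forall fun t => hbd _)).trans (le_of_eq (by simp))
  · filter_upwards [hsup] with y hy
    have hm : Measurable fun t => GGAvg.fl S s i (Function.update y i t) :=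
      (GGAvg.measurable_fl i).comp (measurable_update y)
    rw [hν, integral_map hφ.aemeasurable hm.aestronglyMeasurable]
    exact GGAvg.fl_line hs hσ hσs i y hy hdev

/-- On average over the cube the defects are of order `√σ / s`. -/
theorem gg_avg (J : Type) [Fintype J] [DecidableEq J] (P : ℕ) :
    ∃ C : ℝ, ∀ (S : Sys J) (s σ : ℝ), 1 ≤ σ → 4 * Real.sqrt σ ≤ s →
      (∀ y : CIdx J P → ℝ, (∀ i, 0 ≤ y i ∧ y i ≤ 2 * s) → S.dev P s y ≤ σ) →
      ∃ err : (CIdx J P → ℝ) → ℝ, (∀ y, 0 ≤ err y) ∧ Integrable err (cubeLaw s) ∧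
        ∫ y, err y ∂cubeLaw s ≤ C * Real.sqrt σ / s ∧
        ∀ y : CIdx J P → ℝ, (∀ i, s / 2 ≤ y i ∧ y i ≤ 3 * s / 2) →
          (∀ j, S.expect s y (n := 1) (fun R =>
            |R 0 0 j - S.expect s y (n := 1) fun R' => R' 0 0 j|) ≤ err y) ∧
          ∀ (n : ℕ) (l : Fin n) (Φ : OArr J n → ℝ) (B : ℝ), Continuous Φ → (∀ R, |Φ R| ≤ B) →
            ∀ e : Mon J P,
              |(n : ℝ) * S.expect s y (fun R : OArr J (n + 1) =>
                  Φ (osub R Fin.castSucc) * monom (fun j => (e.1 j : ℕ)) (R l.castSucc (Fin.last n))) -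
                (S.expect s y Φ *
                    S.expect s y (fun R : OArr J 2 => monom (fun j => (e.1 j : ℕ)) (R 0 1)) +
                  ∑ l' ∈ Finset.univ.erase l,
                    S.expect s y fun R : OArr J n => Φ R * monom (fun j => (e.1 j : ℕ)) (R l l'))| ≤
                B * err y := by
  set N : ℝ := 1 + 2 * P * Fintype.card J with hN
  refine ⟨N * 2 * (25 * Fintype.card (CIdx J P)), fun S s σ hσ hσs hdev => ?_⟩
  have hs : 0 < s := lt_of_lt_of_le (by
    have := Real.one_le_sqrt.2 hσ; linarith) hσs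
  have hN1 : 1 ≤ N := le_add_of_nonneg_right (by positivity)
  set F := fun y : CIdx J P → ℝ => ∑ i, GGAvg.fl S s i y with hF
  have hF0 : ∀ y, 0 ≤ F y := fun y => Finset.sum_nonneg fun i _ => GGAvg.fl_nonneg i y
  have hFi : Integrable F (cubeLaw s) :=
    integrable_finsetSum _ fun i _ => (GGAvg.fl_cube hs hσ hσs hdev i).1
  refine ⟨fun y => N * (2 * F y / s), fun y => by have := hF0 y; positivity,
    ((hFi.const_mul 2).div_const s).const_mul N, ?_, fun y hy => ?_⟩
  · rw [integral_const_mul, integral_div, integral_const_mul]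
    have h1 : ∫ y, F y ∂cubeLaw s ≤ Fintype.card (CIdx J P) * (25 * Real.sqrt σ) := by
      rw [hF, integral_finsetSum _ fun i _ => (GGAvg.fl_cube hs hσ hσs hdev i).1]
      refine (Finset.sum_le_card_nsmul _ _ _ fun i _ => (GGAvg.fl_cube hs hσ hσs hdev i).2).trans
        (le_of_eq ?_)
      rw [Finset.card_univ, nsmul_eq_mul]
    calc N * (2 * (∫ y, F y ∂cubeLaw s) / s)
        ≤ N * (2 * (Fintype.card (CIdx J P) * (25 * Real.sqrt σ)) / s) := by gcongr
      _ = _ := by ring
  · have hle : ∀ i, GGAvg.fl S s i y ≤ F y := fun i =>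
      Finset.single_le_sum (fun k _ => GGAvg.fl_nonneg k y) (Finset.mem_univ i)
    have hρ : 0 ≤ 2 * F y / s := by have := hF0 y; positivity
    have ht : GG.Tight S s y (2 * F y / s) :=
      { pos := hs
        nonneg := hρ
        low := fun e => by linarith [(hy (Sum.inl e)).1]
        field := fun e => (hle (Sum.inl e)).trans (by
          calc F y = s / 2 * (2 * F y / s) := by field_simp
            _ ≤ _ := mul_le_mul_of_nonneg_right (hy (Sum.inl e)).1 hρ)
        self := fun j => (hle (Sum.inr j)).trans (by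
          rw [mul_div_cancel₀ _ hs.ne']; linarith [hF0 y]) }
    refine ⟨fun j => (GG.diag_of_tight ht j).trans (le_mul_of_one_le_left hρ hN1),
      fun n l Φ B hΦ hB e => ?_⟩
    exact (GG.gg_of_tight ht l hΦ hB e).trans (le_of_eq (by rw [hN]; ring))

end Vale.Agent.P166F.Low
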