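import Vale.Agent.P166F.Low.Array
import Vale.Agent.P166F.Low.Fields

/-!
P166: a bounded log-average of a squared probe keeps the discretisations uniformly below the edge.
-/

namespace Vale.Agent.P166F.Low

open MeasureTheory Filter
open scoped Topology
open Vale.Agent.P157.Low (Arr Discr)
open Vale.Agent.P166N.Spectrum (OrthInvLaw)

lemma gauss_incr (d : ℝ) :
    Real.exp (-(d ^ 2) / 2) ≤ 8 * ((d + 1) / (1 + |d + 1|) - d / (1 + |d|)) := by
  have h1 : Real.exp (-(d ^ 2) / 2) * (1 + d ^ 2 / 2) ≤ 1 := by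
    have h := mul_le_mul_of_nonneg_left (Real.add_one_le_exp (d ^ 2 / 2))
      (Real.exp_pos (-(d ^ 2) / 2)).le
    rw [← Real.exp_add, show -(d ^ 2) / 2 + d ^ 2 / 2 = 0 by ring, Real.exp_zero] at h
    linarith
  have hp := Real.exp_pos (-(d ^ 2) / 2)
  rcases le_or_gt 0 d with hd | hd
  · rw [abs_of_nonneg hd, abs_of_nonneg (by linarith),
      div_sub_div _ _ (by linarith : (1 : ℝ) + (d + 1) ≠ 0) (by linarith : (1 : ℝ) + d ≠ 0),
      ← mul_div_assoc, le_div_iff₀ (by positivity)]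
    nlinarith [mul_nonneg hp.le (sq_nonneg (d - 1)), mul_nonneg hp.le hd]
  · rcases le_or_gt d (-1) with hd1 | hd1
    · rw [abs_of_nonpos (by linarith), abs_of_nonpos hd.le,
        div_sub_div _ _ (by linarith : (1 : ℝ) + -(d + 1) ≠ 0) (by linarith : (1 : ℝ) + -d ≠ 0),
        ← mul_div_assoc, le_div_iff₀ (mul_pos (by linarith) (by linarith))]
      nlinarith [mul_nonneg hp.le (sq_nonneg (d + 1)), mul_nonneg hp.le (neg_nonneg.2 hd.le)]
    · rw [abs_of_nonneg (by linarith), abs_of_nonpos hd.le]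
      have h2 : (d + 1) / 2 ≤ (d + 1) / (1 + (d + 1)) :=
        div_le_div_of_nonneg_left (by linarith) (by linarith) (by linarith)
      have h3 : -d / 2 ≤ -d / (1 + -d) :=
        div_le_div_of_nonneg_left (by linarith) (by linarith) (by linarith)
      rw [neg_div 2 d, neg_div (1 + -d) d] at h3
      nlinarith [mul_nonneg hp.le (sq_nonneg d)]

/-- A unit grid of Gaussian bumps stays bounded. -/
lemma gauss_sum_le (w : ℝ) (s : ℕ) :
    ∑ k ∈ Finset.range s, Real.exp (-((k : ℝ) - w) ^ 2 / 2) ≤ 16 := by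
  set G : ℝ → ℝ := fun d => d / (1 + |d|)
  have hG : ∀ d, |G d| ≤ 1 := fun d => by
    rw [abs_div, abs_of_pos (by positivity : (0 : ℝ) < 1 + |d|), div_le_one (by positivity)]
    linarith
  calc ∑ k ∈ Finset.range s, Real.exp (-((k : ℝ) - w) ^ 2 / 2)
      ≤ ∑ k ∈ Finset.range s, 8 * (G (((k + 1 : ℕ) : ℝ) - w) - G ((k : ℝ) - w)) :=
        Finset.sum_le_sum fun k _ => (gauss_incr _).trans_eq (by push_cast; simp only [G]; ring_nf)
    _ = 8 * (G ((s : ℝ) - w) - G ((0 : ℕ) - w)) := by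
        rw [← Finset.mul_sum, Finset.sum_range_sub (fun k : ℕ => G ((k : ℝ) - w))]
    _ ≤ 16 := by linarith [(abs_le.1 (hG ((s : ℝ) - w))).2, (abs_le.1 (hG (((0 : ℕ) : ℝ) - w))).1]

/-- A truncated mixture of hyperbolic cosines stays below a Gaussian weight. -/
lemma mixture_le {δ z M : ℝ} (hδ : 0 ≤ δ) (hM : 1 ≤ M) (s : ℕ) (hs : 0 < s) :
    ∑ k ∈ Finset.range s, Real.exp (-((s : ℝ) + k) ^ 2 / 2) *
        min (Real.cosh (((s : ℝ) + k) * Real.sqrt δ * z)) M ≤
      16 * Real.exp (min (δ * z ^ 2 / 2) (Real.log (s * M))) := by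
  have hsM : (0 : ℝ) < s * M := mul_pos (by exact_mod_cast hs) (by linarith)
  rcases min_choice (δ * z ^ 2 / 2) (Real.log (s * M)) with e | e <;> rw [e]
  · set u := Real.sqrt δ * z
    have hu : u ^ 2 = δ * z ^ 2 := by rw [mul_pow, Real.sq_sqrt hδ]
    have hk : ∀ k : ℕ, Real.exp (-((s : ℝ) + k) ^ 2 / 2) * Real.cosh (((s : ℝ) + k) * Real.sqrt δ * z) =
        Real.exp (δ * z ^ 2 / 2) * ((Real.exp (-((k : ℝ) - (u - s)) ^ 2 / 2) +
          Real.exp (-((k : ℝ) - (-u - s)) ^ 2 / 2)) / 2) := fun k => by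
      rw [Real.cosh_eq, ← hu, mul_div_assoc', mul_add, ← Real.exp_add, ← Real.exp_add, mul_div_assoc',
        mul_add, ← Real.exp_add, ← Real.exp_add, mul_assoc]
      congr 3 <;> ring
    refine (Finset.sum_le_sum fun k _ => (mul_le_mul_of_nonneg_left (min_le_left _ _)
      (Real.exp_pos _).le).trans_eq (hk k)).trans ?_
    rw [← Finset.mul_sum, mul_comm 16]
    refine mul_le_mul_of_nonneg_left ?_ (Real.exp_pos _).le
    rw [← Finset.sum_div, Finset.sum_add_distrib]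
    linarith [gauss_sum_le (u - s) s, gauss_sum_le (-u - s) s]
  · rw [Real.exp_log hsM]
    refine (Finset.sum_le_card_nsmul _ _ M fun k _ => ?_).trans ?_
    · refine (mul_le_of_le_one_left (le_min (Real.cosh_pos _).le (by linarith)) ?_).trans
        (min_le_right _ _)
      rw [Real.exp_le_one_iff]
      exact div_nonpos_of_nonpos_of_nonneg (neg_nonpos.2 (sq_nonneg _)) zero_le_two
    · rw [Finset.card_range, nsmul_eq_mul]
      linarith

/-- Jensen for a mixture below sixteen times a weight. -/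
lemma log_mixture_le {s : ℕ} (hs : 0 < s) {F : ℕ → ℝ} (hF : ∀ k, 0 < F k) {W : ℝ} (hW : 0 < W)
    (h : ∑ k ∈ Finset.range s, Real.exp (-((s : ℝ) + k) ^ 2 / 2) * F k ≤ 16 * W) :
    Real.log s - Real.log 16 +
      (∑ k ∈ Finset.range s, (Real.log (F k) - ((s : ℝ) + k) ^ 2 / 2)) / s ≤ Real.log W := by
  have hsr : (0 : ℝ) < s := by exact_mod_cast hs
  set p := fun k : ℕ => Real.exp (-((s : ℝ) + k) ^ 2 / 2) * F k
  have hp : ∀ k, 0 < p k := fun k => mul_pos (Real.exp_pos _) (hF k)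
  have hl16 := Real.log_le_log (Finset.sum_pos (fun k _ => hp k)
    (Finset.nonempty_range_iff.2 hs.ne')) h
  rw [Real.log_mul (by norm_num) hW.ne'] at hl16
  have hj := strictConcaveOn_log_Ioi.concaveOn.le_map_sum (t := Finset.range s)
    (w := fun _ : ℕ => (s : ℝ)⁻¹) (p := fun k => s * p k) (fun _ _ => by positivity)
    (by simp [hsr.ne']) fun k _ => mul_pos hsr (hp k)
  simp only [smul_eq_mul, ← mul_assoc, inv_mul_cancel₀ hsr.ne', one_mul,
    ← div_eq_inv_mul] at hj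
  have e : ∑ k ∈ Finset.range s, Real.log (s * p k) = s * Real.log s +
      ∑ k ∈ Finset.range s, (Real.log (F k) - ((s : ℝ) + k) ^ 2 / 2) := by
    rw [show (s : ℝ) * Real.log s = ∑ _k ∈ Finset.range s, Real.log s by simp,
      ← Finset.sum_add_distrib]
    refine Finset.sum_congr rfl fun k _ => ?_
    rw [Real.log_mul hsr.ne' (hp k).ne', Real.log_mul (Real.exp_pos _).ne' (hF k).ne', Real.log_exp]
    ring
  rw [← Finset.sum_div, e, add_div, mul_div_cancel_left₀ _ hsr.ne'] at hj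
  linarith

lemma pgibbs_mixture_le {κ : Type} [DecidableEq κ] {N P n : ℕ} {dl : κ → ℝ} {lbl : Fin N → κ}
    {f : κ} {t : ℝ} {y : CIdx Unit P → ℝ} {U : Fin N → Fin N → ℝ}
    {g : EuclideanSpace ℝ (GIdx Unit P N)} (u : (Fin 1 → Fin N → Bool) → ℝ) {δ M : ℝ}
    (hδ : 0 ≤ δ) (hM : 1 ≤ M) {s : ℕ} (hs : 0 < s) :
    ∑ k ∈ Finset.range s, Real.exp (-((s : ℝ) + k) ^ 2 / 2) *
        pgibbs dl n lbl f t y U g (fun x => min (Real.cosh (((s : ℝ) + k) * Real.sqrt δ * u x)) M) ≤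
      16 * pgibbs dl n lbl f t y U g
        (fun x => Real.exp (min (δ * u x ^ 2 / 2) (Real.log (s * M)))) := by
  simp only [← pgibbs_mul_left]
  refine le_of_eq_of_le ?_ (pgibbs_mono fun x => mixture_le (z := u x) hδ hM s hs)
  simp only [pgibbs, ← Finset.sum_div, Finset.mul_sum]
  rw [Finset.sum_comm]

variable {K : ℕ} {a : Atoms K} {i0 : Fin K} {R : Regime a i0} {β : ℝ}
  {ν : (N : ℕ) → Measure (Fin N → Fin N → ℝ)} {c : ℝ} {A : Arr}

/-- The truncated cosine of a probe. -/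
noncomputable def coshW {l : Fin K} (hl : l ≠ i0) (σ M : ℝ)
    (z : Fld (some i0 : Option (Fin K)) → ℝ) : ℝ :=
  min (Real.cosh (σ * probe hl z)) M

lemma wgt_coshW {l : Fin K} (hl : l ≠ i0) (σ : ℝ) {M : ℝ} (hM : 1 ≤ M) :
    Wgt M (coshW (i0 := i0) hl σ M) :=
  ⟨(Real.continuous_cosh.comp ((continuous_probe hl).const_mul σ)).min continuous_const,
    fun _ => ⟨le_min (Real.one_le_cosh _) hM, min_le_right _ _⟩⟩

lemma wgt_sqW {l : Fin K} (hl : l ≠ i0) {δ L : ℝ} (hδ : 0 ≤ δ) (hL : 0 ≤ L) :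
    Wgt (Real.exp L) (fun z : Fld (some i0 : Option (Fin K)) → ℝ =>
      Real.exp (min (δ * probe hl z ^ 2 / 2) L)) :=
  ⟨((((continuous_probe hl).pow 2).const_mul δ).div_const 2 |>.min continuous_const).rexp,
    fun _ => exp_min_mem (div_nonneg (mul_nonneg hδ (sq_nonneg _)) zero_le_two) hL le_rfl⟩

/-- The average of a weight at given disorder. -/
noncomputable def Regime.avg1 (R : Regime a i0) (β : ℝ) (i : ℕ)
    (Φ : (Fld (some i0 : Option (Fin K)) → ℝ) → ℝ)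
    (z : (Fin (R.N i) → Fin (R.N i) → ℝ) × EuclideanSpace ℝ (GIdx Unit (R.P i) (R.N i))) : ℝ :=
  pgibbs (dlA a β i0) (R.n i) (R.base i).lbl none (R.s i) (R.y i) z.1 z.2 (r := 1)
    fun x => Φ (R.field i z.1 (x 0))

lemma Regime.avg1_pos (R : Regime a i0) (i : ℕ) {M : ℝ}
    {Φ : (Fld (some i0 : Option (Fin K)) → ℝ) → ℝ} (h : Wgt M Φ)
    (z : (Fin (R.N i) → Fin (R.N i) → ℝ) × EuclideanSpace ℝ (GIdx Unit (R.P i) (R.N i))) :
    0 < R.avg1 β i Φ z :=
  zero_lt_one.trans_le (R.one_le_norm h i z.1 z.2)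

lemma Regime.integrable_log_avg1 (R : Regime a i0) (hν : ∀ N, OrthInvLaw N (ν N)) (i : ℕ) {M : ℝ}
    {Φ : (Fld (some i0 : Option (Fin K)) → ℝ) → ℝ} (h : Wgt M Φ) :
    Integrable (fun z => Real.log (R.avg1 β i Φ z)) (R.dlaw ν i) := by
  refine R.integrable_of_orth hν i (F := fun z => Real.log (R.avg1 β i Φ z))
    ((continuous_pgibbs (Ξ := fun U (x : Fin 1 → Fin (R.N i) → Bool) => Φ (R.field i U (x 0)))
      fun x => h.cont.comp (R.continuous_field i (x 0))).log fun z => (R.avg1_pos i h z).ne')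
    (B := Real.log M) fun z _ => ?_
  rw [abs_of_nonneg (Real.log_nonneg (show 1 ≤ R.avg1 β i Φ z from R.one_le_norm h i z.1 z.2))]
  exact Real.log_le_log (R.avg1_pos i h z) (R.norm_le h i z.1 z.2)

lemma avg1_mixture_le (R : Regime a i0) (β : ℝ) (i : ℕ) {l : Fin K} (hl : l ≠ i0) {δ M : ℝ}
    (hδ : 0 ≤ δ) (hM : 1 ≤ M) {s : ℕ} (hs : 0 < s)
    (z : (Fin (R.N i) → Fin (R.N i) → ℝ) × EuclideanSpace ℝ (GIdx Unit (R.P i) (R.N i))) :
    ∑ k ∈ Finset.range s, Real.exp (-((s : ℝ) + k) ^ 2 / 2) *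
        R.avg1 β i (coshW hl (((s : ℝ) + k) * Real.sqrt δ) M) z ≤
      16 * R.avg1 β i
        (fun y => Real.exp (min (δ * probe hl y ^ 2 / 2) (Real.log (s * M)))) z :=
  pgibbs_mixture_le (fun x => probe hl (R.field i z.1 (x 0))) hδ hM hs

/-- The log-average of a squared probe dominates those of truncated cosines. -/
lemma logAvg_ge_mixture (hν : ∀ N, OrthInvLaw N (ν N)) (R : Regime a i0) (i : ℕ) {l : Fin K}
    (hl : l ≠ i0) {δ M : ℝ} (hδ : 0 ≤ δ) (hM : 1 ≤ M) {s : ℕ} (hs : 0 < s) :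
    Real.log s - Real.log 16 + (∑ k ∈ Finset.range s, (R.logAvg β ν i
        (coshW hl (((s : ℝ) + k) * Real.sqrt δ) M) - ((s : ℝ) + k) ^ 2 / 2)) / s ≤
      R.logAvg β ν i (fun z => Real.exp (min (δ * probe hl z ^ 2 / 2) (Real.log (s * M)))) := by
  have := R.prob_dlaw hν i
  have hsM : (1 : ℝ) ≤ s * M := one_le_mul_of_one_le_of_one_le (by exact_mod_cast hs) hM
  have hW := wgt_sqW (i0 := i0) hl hδ (Real.log_nonneg hsM)
  have hC := fun k : ℕ => wgt_coshW (i0 := i0) hl (((s : ℝ) + k) * Real.sqrt δ) hM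
  have hL : ∀ Φ, R.logAvg β ν i Φ = ∫ z, Real.log (R.avg1 β i Φ z) ∂(R.dlaw ν i) := fun Φ => rfl
  have hI : ∀ k : ℕ, Integrable (fun z => Real.log (R.avg1 β i
      (coshW hl (((s : ℝ) + k) * Real.sqrt δ) M) z) - ((s : ℝ) + k) ^ 2 / 2) (R.dlaw ν i) :=
    fun k => (R.integrable_log_avg1 hν i (hC k)).sub (integrable_const _)
  have hIs := (integrable_finsetSum (Finset.range s) fun k _ => hI k).div_const (s : ℝ)
  have key := integral_mono ((integrable_const (Real.log s - Real.log 16)).add hIs)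
    (R.integrable_log_avg1 (β := β) hν i hW) fun z =>
      log_mixture_le hs (F := fun k => R.avg1 β i (coshW hl (((s : ℝ) + k) * Real.sqrt δ) M) z)
        (fun k => R.avg1_pos i (hC k) z) (R.avg1_pos i hW z) (avg1_mixture_le R β i hl hδ hM hs z)
  rw [hL]
  refine le_of_eq_of_le ?_ key
  simp only [Pi.add_apply, hL]
  rw [integral_add (integrable_const _) hIs, integral_div, integral_finsetSum _ fun k _ => hI k]
  simp only [fun k : ℕ => integral_sub (R.integrable_log_avg1 (β := β) hν i (hC k))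
    (integrable_const (μ := R.dlaw ν i) (((s : ℝ) + k) ^ 2 / 2)), integral_const, probReal_univ,
    one_smul]

theorem probe_margin (hβ : 0 < β) (hmin : ∀ i, a.lam i0 ≤ a.lam i)
    (hν : ∀ N, OrthInvLaw N (ν N)) (h : R.Conv β ν c A) (D : ∀ k, Discr A (k + 2))
    (hL : ∀ k, Levels (D k).C.cdf) {l : Fin K} (hl : l ≠ i0) :
    ∃ ε, 0 < ε ∧ ∀ᶠ k in atTop,
      dlA a β i0 (some l) * below (D k).C.cdf (D k).q c 0 ≤ 1 - ε := by
  obtain ⟨C, hC⟩ := R.probe_bound hβ hmin hν hl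
  set δ := dlA a β i0 (some l)
  have hδ : 0 ≤ δ := dlA_nonneg hβ.le hmin _
  obtain ⟨s, hs⟩ := exists_nat_gt (Real.exp (C + Real.log 16 + 4))
  have hsr : (0 : ℝ) < s := (Real.exp_pos _).trans hs
  have hs0 : 0 < s := by exact_mod_cast hsr
  have hlog : C + Real.log 16 + 4 ≤ Real.log s := (Real.le_log_iff_exp_le hsr).2 hs.le
  set i : Fld (some i0 : Option (Fin K)) := Sum.inr ⟨some l, fun e => hl (Option.some_inj.1 e)⟩
  choose Ck hCk using fun k : ℕ =>
    valV_cosh (Fld (some i0 : Option (Fin K))) i (((s : ℝ) + k) * Real.sqrt δ) (cmax := c)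
  obtain ⟨M, hM1, hMC⟩ : ∃ M : ℝ, 1 < M ∧ ∀ k ∈ Finset.range s, Ck k / Real.log M ≤ 1 := by
    have hev : ∀ᶠ M : ℝ in atTop, 1 < M ∧ ∀ k ∈ Finset.range s, Ck k / Real.log M ≤ 1 :=
      (eventually_gt_atTop 1).and ((eventually_all_finset _).2 fun k _ =>
        (Tendsto.eventually_le_const zero_lt_one
          (Real.tendsto_log_atTop.const_div_atTop (Ck k))))
    exact hev.exists
  choose V hV1 hV2 using fun k : ℕ =>
    h.log_limit hν D (wgt_coshW (i0 := i0) hl (((s : ℝ) + k) * Real.sqrt δ) hM1.le)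
  have hsM : (1 : ℝ) ≤ s * M := one_le_mul_of_one_le_of_one_le (by exact_mod_cast hs0) hM1.le
  have hlim : Real.log s - Real.log 16 +
      (∑ k ∈ Finset.range s, (V k - ((s : ℝ) + k) ^ 2 / 2)) / s ≤ C :=
    le_of_tendsto (tendsto_const_nhds.add
      ((tendsto_finsetSum _ fun k _ => (hV1 k).sub tendsto_const_nhds).div_const _))
      ((hC (Real.log (s * M)) (Real.log_pos (by
          refine lt_of_lt_of_le hM1 (le_mul_of_one_le_left (by linarith) (by exact_mod_cast hs0))))).mono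
        fun i hi => (logAvg_ge_mixture hν R i hl hδ hM1.le hs0).trans hi)
  refine ⟨1 / (2 * (s : ℝ) ^ 2), by positivity, ?_⟩
  have hev : ∀ᶠ n in atTop, ∀ k ∈ Finset.range s,
      valV (D n).C.cdf (fInc (D n).q c) (fRest (D n).q c)
        (coshW hl (((s : ℝ) + k) * Real.sqrt δ) M) ≤ V k + 1 :=
    (eventually_all_finset _).2 fun k _ => (hV2 k).eventually_le_const (lt_add_one _)
  filter_upwards [hev] with n hn
  set B := below (D n).C.cdf (D n).q c 0
  by_contra hcon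
  push Not at hcon
  have hk : ∀ k ∈ Finset.range s, (-3 : ℝ) ≤ V k - ((s : ℝ) + k) ^ 2 / 2 := by
    intro k hk
    have h1 := hCk k (D n).r (D n).C.cdf (D n).q c (hL n) (D n).monoq
      (fun j => ((D n).rangeq j).1) (discr_lt (D n)) h.pos le_rfl M hM1
    have h2 := hn k hk
    have h3 := hMC k hk
    have hks : ((s : ℝ) + k) ^ 2 ≤ 4 * (s : ℝ) ^ 2 := by
      have : (k : ℝ) ≤ s := by exact_mod_cast (Finset.mem_range.1 hk).le
      nlinarith
    have h4 : (((s : ℝ) + k) * Real.sqrt δ) ^ 2 * B / 2 = ((s : ℝ) + k) ^ 2 / 2 * (δ * B) := by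
      rw [mul_pow, Real.sq_sqrt hδ]
      ring
    have h5 : ((s : ℝ) + k) ^ 2 / 2 * (1 - 1 / (2 * (s : ℝ) ^ 2)) ≤
        ((s : ℝ) + k) ^ 2 / 2 * (δ * B) := mul_le_mul_of_nonneg_left hcon.le (by positivity)
    have h6 : ((s : ℝ) + k) ^ 2 / 2 * (1 / (2 * (s : ℝ) ^ 2)) ≤ 1 := by
      rw [mul_one_div, div_le_one (by positivity)]
      linarith
    change _ ≤ valV (D n).C.cdf (fInc (D n).q c) (fRest (D n).q c)
      (coshW hl (((s : ℝ) + k) * Real.sqrt δ) M) at h1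
    linarith
  have hsum : (-3 : ℝ) ≤ (∑ k ∈ Finset.range s, (V k - ((s : ℝ) + k) ^ 2 / 2)) / s := by
    rw [le_div_iff₀ hsr]
    refine le_of_eq_of_le ?_ (Finset.card_nsmul_le_sum _ _ _ hk)
    simp
    ring
  linarith

theorem exists_margin (hβ : 0 < β) (hmin : ∀ i, a.lam i0 ≤ a.lam i)
    (hν : ∀ N, OrthInvLaw N (ν N)) (h : R.Conv β ν c A) (D : ∀ k, Discr A (k + 2))
    (hL : ∀ k, Levels (D k).C.cdf) :
    ∃ ε, 0 < ε ∧ ∀ᶠ k in atTop, Margin (dlA a β i0) (D k).C.cdf (D k).q c ε := by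
  choose ε hε hev using fun l : {l : Fin K // l ≠ i0} => probe_margin hβ hmin hν h D hL l.2
  obtain ⟨e, he0, he⟩ : ∃ e : ℝ, 0 < e ∧ e ≤ 1 ∧ ∀ l, e ≤ ε l := by
    refine ⟨(insert 1 (Finset.univ.image ε)).min' (Finset.insert_nonempty _ _), ?_,
      Finset.min'_le _ _ (Finset.mem_insert_self _ _),
      fun l => Finset.min'_le _ _ (Finset.mem_insert_of_mem (Finset.mem_image_of_mem _ (Finset.mem_univ _)))⟩
    rw [Finset.lt_min'_iff]
    intro x hx
    rcases Finset.mem_insert.1 hx with rfl | hx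
    · exact one_pos
    · obtain ⟨l, -, rfl⟩ := Finset.mem_image.1 hx
      exact hε l
  refine ⟨e, he0, (eventually_all.2 hev).mono fun k hk => ?_⟩
  refine ⟨hL k, (D k).monoq, fun j => ((D k).rangeq j).1, discr_lt (D k), ⟨h.pos, he0⟩, fun j => ?_⟩
  by_cases hj : j = none ∨ j = some i0
  · have : dlA a β i0 j = 0 := by
      rcases hj with rfl | rfl
      exacts [rfl, dlA_self]
    rw [this, zero_mul]
    linarith [he.1]
  · cases j with
    | none => exact absurd (Or.inl rfl) hj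
    | some l =>
      have hl : l ≠ i0 := fun e => hj (Or.inr (congrArg some e))
      linarith [hk ⟨l, hl⟩, he.2 ⟨l, hl⟩]

end Vale.Agent.P166F.Low
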