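import Vale.Agent.P166F.Low.System
import Vale.Agent.P166F.Low.Formula

/-!
P166: sequences of base systems with fixed limiting fractions, their averages and their limit.
-/

namespace Vale.Agent.P166F.Low

open MeasureTheory Filter
open scoped Topology
open Vale.Agent.P166N.Spectrum (OrthInvLaw)

variable {K : ℕ}

/-- Base systems with fractions tending to the squares of `vA a i0 θ`, and a perturbation which is
small against the size. The scale `n` is `ρ` times the number of feature rows. -/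
structure Regime (a : Atoms K) (i0 : Fin K) where
  N : ℕ → ℕ
  n : ℕ → ℕ
  P : ℕ → ℕ
  s : ℕ → ℝ
  y : ∀ i, CIdx Unit (P i) → ℝ
  base : ∀ i, Base (some i0 : Option (Fin K)) none (N i)
  θ : ℝ
  ρ : ℝ
  le : ∀ i, N i < n i
  nonneg : ∀ i, 0 ≤ s i
  box : ∀ i, y i ∈ PBox (s i)
  top : Tendsto N atTop atTop
  small : Tendsto (fun i => ((P i : ℝ) + 1) ^ 4 * (1 + s i ^ 2) / n i) atTop (𝓝 0)
  θmem : 0 < θ ∧ θ < a.wt i0
  frac : ∀ j, Tendsto (fun i => (csize (base i).lbl j : ℝ) / N i) atTop (𝓝 (vA a i0 θ j ^ 2))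
  ρpos : 0 < ρ
  scale : Tendsto (fun i => (n i : ℝ) / csize (base i).lbl none) atTop (𝓝 ρ)

namespace Regime

variable {a : Atoms K} {i0 : Fin K} (R : Regime a i0) (β : ℝ)
  (ν : (N : ℕ) → Measure (Fin N → Fin N → ℝ))

/-- A subsequence. -/
def sub (φ : ℕ → ℕ) (hφ : StrictMono φ) : Regime a i0 where
  N i := R.N (φ i)
  n i := R.n (φ i)
  P i := R.P (φ i)
  s i := R.s (φ i)
  y i := R.y (φ i)
  base i := R.base (φ i)
  θ := R.θ
  ρ := R.ρ
  le i := R.le _
  nonneg i := R.nonneg _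
  box i := R.box _
  top := R.top.comp hφ.tendsto_atTop
  small := R.small.comp hφ.tendsto_atTop
  θmem := R.θmem
  frac j := (R.frac j).comp hφ.tendsto_atTop
  ρpos := R.ρpos
  scale := R.scale.comp hφ.tendsto_atTop

/-- The fields at a configuration. -/
def field (i : ℕ) (U : Fin (R.N i) → Fin (R.N i) → ℝ) (σ : Fin (R.N i) → Bool) :
    Fld (some i0 : Option (Fin K)) → ℝ :=
  (R.base i).fields U σ

/-- The covariance of the fields of replicas. -/
noncomputable def cov (i : ℕ) (U : Fin (R.N i) → Fin (R.N i) → ℝ) {r : ℕ}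
    (x : Fin r → Fin (R.N i) → Bool) (a b : Fin r) : ℝ :=
  R.ρ * gramF (R.n i) (R.base i).lbl none U x a b

/-- The replica average in a base system. -/
noncomputable def avg (i : ℕ) {r : ℕ}
    (Θ : (Fin (R.N i) → Fin (R.N i) → ℝ) → (Fin r → Fin (R.N i) → Bool) → ℝ) : ℝ :=
  pmean (ν (R.N i)) fun U g =>
    pgibbs (dlA a β i0) (R.n i) (R.base i).lbl none (R.s i) (R.y i) U g (Θ U)

/-- The log-average of a weight of the fields. -/
noncomputable def logAvg (i : ℕ) (Φ : (Fld (some i0 : Option (Fin K)) → ℝ) → ℝ) : ℝ :=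
  pmean (ν (R.N i)) fun U g => Real.log (pgibbs (dlA a β i0) (R.n i) (R.base i).lbl none (R.s i)
    (R.y i) U g (r := 1) fun x => Φ (R.field i U (x 0)))

/-- The replica average in a base system reweighted by `Φ`. -/
noncomputable def tiltAvg (i : ℕ) (Φ : (Fld (some i0 : Option (Fin K)) → ℝ) → ℝ) {r : ℕ}
    (Θ : (Fin (R.N i) → Fin (R.N i) → ℝ) → (Fin r → Fin (R.N i) → Bool) → ℝ) : ℝ :=
  pmean (ν (R.N i)) fun U g =>
    pgibbs (dlA a β i0) (R.n i) (R.base i).lbl none (R.s i) (R.y i) U g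
        (fun x => (∏ l, Φ (R.field i U (x l))) * Θ U x) /
      pgibbs (dlA a β i0) (R.n i) (R.base i).lbl none (R.s i) (R.y i) U g (r := 1)
        (fun x => Φ (R.field i U (x 0))) ^ r

/-- The gain of one spin less that of one direction. -/
noncomputable def gain (i : ℕ) : ℝ :=
  (∫ V, R.logAvg β ν i (spinW' (dlA a β i0) (some i0) (colNorm (R.base i).plus V)) ∂ν (R.N i + 1)) -
    ∑ k, a.wt k * R.logAvg β ν i (delW' (dlA a β i0) (some i0) (some k))

/-- The system of index `i`. -/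
noncomputable def sys (hν : ∀ N, OrthInvLaw N (ν N)) (i : ℕ) : Sys Unit :=
  lsys (dlA a β i0) (R.n i) (R.base i).lbl none (ν (R.N i)) (hν (R.N i))

/-- The covariances of the fields tend to `c` times the array `A`. -/
structure Conv (c : ℝ) (A : P157.Low.Arr) : Prop where
  pos : 0 < c
  le : c ≤ R.ρ
  lim : ∀ (r : ℕ) (Φ : P157.Low.Mat r → ℝ), Continuous Φ →
    Tendsto (fun i => R.avg β ν i fun U x => Φ (R.cov i U x)) atTop
      (𝓝 (∫ M, Φ (fun u v => c * M u v) ∂A.law r))

end Regime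

end Vale.Agent.P166F.Low
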